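import Vale.Agent.P205.TI.Comp

/-!
P205, block TI (helper259): the assembly.  The statement of the disc lemma is a hypothesis here.
-/

open scoped Manifold ContDiff Topology
open Set Module

noncomputable section

namespace Vale.Agent.P205.TI

theorem ip_smul_right (a b : ℂ × ℂ) (r : ℝ) : ip a (r • b) = r * ip a b := by
  simp [ip]; ring

theorem eq_nrm {F : ℂ → ℂ} {a : ℂ × ℂ} {z : ℂ} (h : ∀ v : ℂ, ip a (v, fderiv ℝ F z v) = 0) :
    a = nrm F a.2 z := by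
  have h1 := h 1
  have h2 := h Complex.I
  simp only [ip, Complex.one_re, Complex.one_im, Complex.I_re, Complex.I_im] at h1 h2
  apply Prod.ext
  · apply Complex.ext
    · simp only [nrm]; linarith
    · simp only [nrm]; linarith
  · rfl

theorem nrm_lin (F : ℂ → ℂ) (w z : ℂ) :
    nrm F w z = w.re • nrm F 1 z + w.im • nrm F Complex.I z := by
  apply Prod.ext
  · apply Complex.ext
    · simp [nrm]; ring
    · simp [nrm]; ring
  · apply Complex.ext
    · simp [nrm]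
    · simp [nrm]

theorem contDiff_nrm1 {F : ℂ → ℂ} (hF : ContDiff ℝ ∞ F) (w : ℂ) :
    ContDiff ℝ ∞ (fun z => nrm F w z) := by
  have h1 : ContDiff ℝ ∞ (fun z => fderiv ℝ F z 1) :=
    (hF.fderiv_right (m := ∞) (by simp)).clm_apply contDiff_const
  have h2 : ContDiff ℝ ∞ (fun z => fderiv ℝ F z Complex.I) :=
    (hF.fderiv_right (m := ∞) (by simp)).clm_apply contDiff_const
  have r1 : ContDiff ℝ ∞ (fun z => (fderiv ℝ F z 1).re) := Complex.reCLM.contDiff.comp h1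
  have i1 : ContDiff ℝ ∞ (fun z => (fderiv ℝ F z 1).im) := Complex.imCLM.contDiff.comp h1
  have r2 : ContDiff ℝ ∞ (fun z => (fderiv ℝ F z Complex.I).re) :=
    Complex.reCLM.contDiff.comp h2
  have i2 : ContDiff ℝ ∞ (fun z => (fderiv ℝ F z Complex.I).im) :=
    Complex.imCLM.contDiff.comp h2
  have e : (fun z => nrm F w z) = fun z =>
      (((-(w.re * (fderiv ℝ F z 1).re + w.im * (fderiv ℝ F z 1).im) : ℝ) : ℂ) +
        ((-(w.re * (fderiv ℝ F z Complex.I).re + w.im * (fderiv ℝ F z Complex.I).im) : ℝ) : ℂ) *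
          Complex.I, w) := by
    funext z
    apply Prod.ext
    · apply Complex.ext
      · simp [nrm]
      · simp [nrm]
    · rfl
  rw [e]
  refine ContDiff.prodMk ?_ contDiff_const
  refine ContDiff.add ?_ (ContDiff.mul ?_ contDiff_const)
  · exact Complex.ofRealCLM.contDiff.comp
      (((contDiff_const.mul r1).add (contDiff_const.mul i1)).neg)
  · exact Complex.ofRealCLM.contDiff.comp
      (((contDiff_const.mul r2).add (contDiff_const.mul i2)).neg)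

/-- derivative of the normal section at a zero -/
theorem hasFDerivAt_nrm {F σ : ℂ → ℂ} (hF : ContDiff ℝ ∞ F) {z : ℂ}
    (hσ : DifferentiableAt ℝ σ z) (h0 : σ z = 0) (v : ℂ) (hv : fderiv ℝ σ z v = 0) :
    fderiv ℝ (fun y => nrm F (σ y) y) z v = 0 := by
  have e : (fun y => nrm F (σ y) y) =
      fun y => (σ y).re • nrm F 1 y + (σ y).im • nrm F Complex.I y := by
    funext y; exact nrm_lin F _ _
  have d1 : HasFDerivAt (fun y => nrm F 1 y) (fderiv ℝ (fun y => nrm F 1 y) z) z :=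
    ((contDiff_nrm1 hF 1).differentiable (by simp)).differentiableAt.hasFDerivAt
  have d2 : HasFDerivAt (fun y => nrm F Complex.I y) (fderiv ℝ (fun y => nrm F Complex.I y) z) z :=
    ((contDiff_nrm1 hF Complex.I).differentiable (by simp)).differentiableAt.hasFDerivAt
  have r : HasFDerivAt (fun y => (σ y).re) (Complex.reCLM.comp (fderiv ℝ σ z)) z :=
    Complex.reCLM.hasFDerivAt.comp z hσ.hasFDerivAt
  have i : HasFDerivAt (fun y => (σ y).im) (Complex.imCLM.comp (fderiv ℝ σ z)) z :=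
    Complex.imCLM.hasFDerivAt.comp z hσ.hasFDerivAt
  have h := (r.smul d1).add (i.smul d2)
  rw [e]
  have h' := h.fderiv
  have e2 : (fun y => (σ y).re • nrm F 1 y + (σ y).im • nrm F Complex.I y) =
    ((fun y => (σ y).re) • (fun y => nrm F 1 y)) + ((fun y => (σ y).im) •
      (fun y => nrm F Complex.I y)) := by
    funext y; rfl
  rw [e2]
  erw [h']
  simp [h0, hv]

/-- the statement of the disc lemma -/
def DiscStmt : Prop := ∀ (F σ : ℂ → ℂ), ContDiff ℝ ∞ F → ContDiff ℝ ∞ σ →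
    (∀ z, σ z = 0 → ‖z‖ ≤ 1 → ‖z‖ < 1 / 2) →
    (∀ z, σ z = 0 → ‖z‖ ≤ 1 → Function.Injective (fderiv ℝ σ z)) →
    Even {z | σ z = 0 ∧ ‖z‖ ≤ 1}.ncard →
    ∃ Φ Ξ : ℂ → ℂ × ℂ, ContDiff ℝ ∞ Φ ∧ ContDiff ℝ ∞ Ξ ∧
      (∀ z, Function.Injective (fderiv ℝ Φ z)) ∧ (∀ z, ‖z‖ ≤ 1 → Ξ z ≠ 0) ∧
      (∀ z v, ip (Ξ z) (fderiv ℝ Φ z v) = 0) ∧
      ∀ z, 3 / 4 ≤ ‖z‖ → ‖z‖ ≤ 1 → Φ z = (z, F z) ∧ Ξ z = nrm F (σ z) z

section Asm

variable {E : Type*} [NormedAddCommGroup E] [NormedSpace ℝ E] [FiniteDimensional ℝ E]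
  {M : Type*} [TopologicalSpace M] [ChartedSpace E M] [IsManifold 𝓘(ℝ, E) ∞ M]
  [CompactSpace M] [T2Space M]

theorem pair_of_graph {f s : M → V4} (hf : Imm E f) (hs : Nrm E f s) (hn : NDeg E s)
    (hev : Even {p | s p = 0}.ncard) {κ : OpenPartialHomeomorph M ℂ} {L : V4 ≃L[ℝ] ℂ × ℂ}
    {F : ℂ → ℂ} {r : ℝ} {p : M} (hr : 0 < r) (hcb : Metric.closedBall 0 2 ⊆ κ.target)
    (hκ : ContMDiffOn 𝓘(ℝ, E) 𝓘(ℝ, ℂ) ∞ κ κ.source)
    (hκs : ContMDiffOn 𝓘(ℝ, ℂ) 𝓘(ℝ, E) ∞ κ.symm κ.target) (hF : ContDiff ℝ ∞ F)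
    (hL : ∀ a b, ip (L a) (L b) = inner ℝ a b)
    (hgr : ∀ x ∈ κ.source, ‖κ x‖ ≤ 2 → L (f x) = L (f p) + r • (κ x, F (κ x)))
    (hz : ∀ q, s q = 0 → q ∈ κ.source ∧ ‖κ q‖ < 1 / 2) (hdisc : DiscStmt) :
    ∃ f ξ : M → V4, Imm E f ∧ Nrm E f ξ ∧ ∀ p, ξ p ≠ 0 := by
  classical
  have hκd : κ.MDifferentiable 𝓘(ℝ, E) 𝓘(ℝ, ℂ) :=
    ⟨hκ.mdifferentiableOn (by simp), hκs.mdifferentiableOn (by simp)⟩
  -- part 1: the derivative of the graph
  have hmem : ∀ z : ℂ, ‖z‖ ≤ 2 → z ∈ κ.target := fun z h => hcb (by simpa using h)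
  have hsy : ∀ z ∈ κ.target, ContMDiffAt 𝓘(ℝ, ℂ) 𝓘(ℝ, E) ∞ κ.symm z := fun z h =>
    hκs.contMDiffAt (κ.open_target.mem_nhds h)
  have hka : ∀ q ∈ κ.source, ContMDiffAt 𝓘(ℝ, E) 𝓘(ℝ, ℂ) ∞ κ q := fun q h =>
    hκ.contMDiffAt (κ.open_source.mem_nhds h)
  have hcomp : ∀ g : M → V4, ContMDiff 𝓘(ℝ, E) 𝓘(ℝ, V4) ∞ g → ∀ z ∈ κ.target,
      ContDiffAt ℝ ∞ (fun y => L (g (κ.symm y))) z ∧
      ∀ v : ℂ, fderiv ℝ (fun y => L (g (κ.symm y))) z v =
        L ((mfderiv 𝓘(ℝ, E) 𝓘(ℝ, V4) g (κ.symm z) : E →L[ℝ] V4)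
          ((mfderiv 𝓘(ℝ, ℂ) 𝓘(ℝ, E) κ.symm z : ℂ →L[ℝ] E) v)) := by
    intro g hg z hz
    have c1 : ContMDiffAt 𝓘(ℝ, ℂ) 𝓘(ℝ, V4) ∞ (g ∘ κ.symm) z :=
      (hg (κ.symm z)).comp z (hsy z hz)
    have c2 : ContDiffAt ℝ ∞ (g ∘ κ.symm) z := contMDiffAt_iff_contDiffAt.1 c1
    refine ⟨(L : V4 →L[ℝ] ℂ × ℂ).contDiff.contDiffAt.comp z c2, fun v => ?_⟩
    have e1 : fderiv ℝ (g ∘ κ.symm) z =
        (mfderiv 𝓘(ℝ, E) 𝓘(ℝ, V4) g (κ.symm z) : E →L[ℝ] V4).comp
          (mfderiv 𝓘(ℝ, ℂ) 𝓘(ℝ, E) κ.symm z : ℂ →L[ℝ] E) := by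
      rw [← mfderiv_eq_fderiv]
      exact mfderiv_comp z ((hg (κ.symm z)).mdifferentiableAt (by simp))
        ((hsy z hz).mdifferentiableAt (by simp))
    have e2 : HasFDerivAt (fun y => L (g (κ.symm y)))
        ((L : V4 →L[ℝ] ℂ × ℂ).comp (fderiv ℝ (g ∘ κ.symm) z)) z :=
      (L : V4 →L[ℝ] ℂ × ℂ).hasFDerivAt.comp z
        (c2.differentiableAt (by simp)).hasFDerivAt
    rw [e2.fderiv, e1]
    rfl
  have hgraph : ∀ z : ℂ, ‖z‖ < 2 → ∀ v : ℂ,
      L ((mfderiv 𝓘(ℝ, E) 𝓘(ℝ, V4) f (κ.symm z) : E →L[ℝ] V4)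
          ((mfderiv 𝓘(ℝ, ℂ) 𝓘(ℝ, E) κ.symm z : ℂ →L[ℝ] E) v)) = r • (v, fderiv ℝ F z v) := by
    intro z hz2 v
    rw [← (hcomp f hf.sm z (hmem z hz2.le)).2 v]
    have hev : (fun y => L (f (κ.symm y))) =ᶠ[𝓝 z] fun y => L (f p) + r • (y, F y) := by
      have : Metric.ball (0 : ℂ) 2 ∈ 𝓝 z := Metric.isOpen_ball.mem_nhds (by simpa using hz2)
      filter_upwards [this] with y hy
      have hy2 : ‖y‖ ≤ 2 := by simpa using (Metric.ball_subset_closedBall hy)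
      have ht := hmem y hy2
      have hs' := κ.map_target ht
      have := hgr (κ.symm y) hs' (by rw [κ.right_inv ht]; exact hy2)
      rw [this, κ.right_inv ht]
    rw [hev.fderiv_eq]
    have h1 : HasFDerivAt F (fderiv ℝ F z) z :=
      (hF.differentiable (by simp)).differentiableAt.hasFDerivAt
    have h2 : HasFDerivAt (fun y : ℂ => (y, F y))
        ((ContinuousLinearMap.id ℝ ℂ).prod (fderiv ℝ F z)) z :=
      (hasFDerivAt_id z).prodMk h1
    have h3 : HasFDerivAt (fun y : ℂ => L (f p) + r • (y, F y))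
        (r • (ContinuousLinearMap.id ℝ ℂ).prod (fderiv ℝ F z)) z :=
      (h2.const_smul r).const_add (L (f p))
    rw [h3.fderiv]
    rfl
  -- part 2: the normal field in the chart
  have hnrm : ∀ z : ℂ, ‖z‖ < 2 →
      L (s (κ.symm z)) = nrm F (L (s (κ.symm z))).2 z := by
    intro z hz2
    apply eq_nrm
    intro v
    have h1 := hs.perp (κ.symm z) ((mfderiv 𝓘(ℝ, ℂ) 𝓘(ℝ, E) κ.symm z : ℂ →L[ℝ] E) v)
    have h2 := (hL _ _).trans h1
    rw [hgraph z hz2 v, ip_smul_right] at h2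
    rcases mul_eq_zero.1 h2 with h | h
    · exact absurd h hr.ne'
    · exact h
  -- part 3: the function `σ`
  let χ : ContDiffBump (0 : ℂ) := ⟨1, 2, by norm_num, by norm_num⟩
  let σ : ℂ → ℂ := fun z => (χ z) • (L (s (κ.symm z))).2
  have hσeq : ∀ z : ℂ, ‖z‖ ≤ 1 → σ z = (L (s (κ.symm z))).2 := by
    intro z h
    have : χ z = 1 := χ.one_of_mem_closedBall (by simpa using h)
    simp only [σ, this, one_smul]
  have hσ : ContDiff ℝ ∞ σ := by
    rw [contDiff_iff_contDiffAt]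
    intro z
    by_cases hzt : z ∈ κ.target
    · have h1 := (hcomp s hs.sm z hzt).1
      have h2 : ContDiffAt ℝ ∞ (fun y => (L (s (κ.symm y))).2) z := h1.snd
      exact (χ.contDiff.contDiffAt).smul h2
    · have h1 : z ∉ tsupport χ := by
        rw [χ.tsupport_eq]
        exact fun h => hzt (hcb h)
      have h2 : σ =ᶠ[𝓝 z] fun _ => 0 := by
        have h3 : (tsupport χ)ᶜ ∈ 𝓝 z := (isClosed_tsupport _).isOpen_compl.mem_nhds h1
        filter_upwards [h3] with y hy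
        simp only [σ, image_eq_zero_of_notMem_tsupport hy, zero_smul]
      exact contDiffAt_const.congr_of_eventuallyEq h2
  have hσz : ∀ z : ℂ, ‖z‖ ≤ 1 → (σ z = 0 ↔ s (κ.symm z) = 0) := by
    intro z h
    rw [hσeq z h]
    constructor
    · intro h0
      have h1 := hnrm z (by linarith)
      rw [h0] at h1
      have h2 : nrm F 0 z = 0 := by
        rw [nrm_lin]; simp
      rw [h2] at h1
      exact (map_eq_zero_iff L L.injective).1 h1
    · intro h0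
      rw [h0]; simp
  have hz1 : ∀ z, σ z = 0 → ‖z‖ ≤ 1 → ‖z‖ < 1 / 2 := by
    intro z h0 h1
    have h2 := (hz _ ((hσz z h1).1 h0)).2
    rwa [κ.right_inv (hmem z (by linarith))] at h2
  have hn1 : ∀ z, σ z = 0 → ‖z‖ ≤ 1 → Function.Injective (fderiv ℝ σ z) := by
    intro z h0 h1
    have h2 := hz1 z h0 h1
    rw [injective_iff_map_eq_zero]
    intro v hv
    have hd := hasFDerivAt_nrm hF ((hσ.differentiable (by simp)) z) h0 v hv
    have hev : (fun y => nrm F (σ y) y) =ᶠ[𝓝 z] fun y => L (s (κ.symm y)) := by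
      have : Metric.ball (0 : ℂ) 1 ∈ 𝓝 z :=
        Metric.isOpen_ball.mem_nhds (by simp; linarith)
      filter_upwards [this] with y hy
      have hy1 : ‖y‖ < 1 := by simpa using hy
      rw [hσeq y hy1.le]
      exact (hnrm y (by linarith)).symm
    have ht := hmem z (by linarith)
    rw [hev.fderiv_eq, (hcomp s hs.sm z ht).2 v] at hd
    have h3 := (map_eq_zero_iff L L.injective).1 hd
    have h4 := (injective_iff_map_eq_zero _).1 (hn (κ.symm z) ((hσz z h1).1 h0)) _ h3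
    exact (injective_iff_map_eq_zero _).1 (hκd.symm.mfderiv_injective ht) _ h4
  have hcount : Even {z | σ z = 0 ∧ ‖z‖ ≤ 1}.ncard := by
    have e : {z | σ z = 0 ∧ ‖z‖ ≤ 1} = κ '' {q | s q = 0} := by
      ext z
      constructor
      · rintro ⟨h0, h1⟩
        exact ⟨κ.symm z, (hσz z h1).1 h0, κ.right_inv (hmem z (by linarith))⟩
      · rintro ⟨q, hq, rfl⟩
        obtain ⟨h1, h2⟩ := hz q hq
        refine ⟨(hσz _ (by linarith)).2 ?_, by linarith⟩
        rw [κ.left_inv h1]; exact hq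
    have hinj : InjOn κ {q | s q = 0} := κ.injOn.mono fun q hq => (hz q hq).1
    rw [e, hinj.ncard_image]
    exact hev
  obtain ⟨Φ, Ξ, hΦ, hΞ, hΦi, hΞ0, hper, hout⟩ := hdisc F σ hF hσ hz1 hn1 hcount
  -- part 4: the new pair
  let P : M → Prop := fun q => q ∈ κ.source ∧ ‖κ q‖ < 1
  let f' : M → V4 := fun q => if P q then L.symm (L (f p) + r • Φ (κ q)) else f q
  let ξ : M → V4 := fun q => if P q then L.symm (Ξ (κ q)) else s q
  refine ⟨f', ξ, locPair_iff.1 fun q => ?_⟩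
  have hO1 : IsOpen {q | P q} := by
    have := κ.isOpen_inter_preimage (Metric.isOpen_ball (x := (0 : ℂ)) (ε := 1))
    convert this using 1
    ext x
    simp [P]
  by_cases hq : P q
  · have e1 : f' =ᶠ[𝓝 q] fun x => L.symm (L (f p) + r • Φ (κ x)) := by
      filter_upwards [hO1.mem_nhds hq] with x hx
      have hx' : P x := hx
      simp only [f', hx', if_true]
    have e2 : ξ =ᶠ[𝓝 q] fun x => L.symm (Ξ (κ x)) := by
      filter_upwards [hO1.mem_nhds hq] with x hx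
      have hx' : P x := hx
      simp only [ξ, hx', if_true]
    refine LocPair.congr ?_ e1 e2
    have hkq := hka q hq.1
    let A : ℂ → V4 := fun z => L.symm (L (f p) + r • Φ z)
    have hA : ContDiff ℝ ∞ A :=
      (L.symm : ℂ × ℂ →L[ℝ] V4).contDiff.comp (contDiff_const.add (hΦ.const_smul r))
    let B : ℂ → V4 := fun z => L.symm (Ξ z)
    have hB : ContDiff ℝ ∞ B := (L.symm : ℂ × ℂ →L[ℝ] V4).contDiff.comp hΞ
    have c1 : ContMDiffAt 𝓘(ℝ, E) 𝓘(ℝ, V4) ∞ (A ∘ κ) q :=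
      (hA.contMDiff (κ q)).comp q hkq
    have c2 : ContMDiffAt 𝓘(ℝ, E) 𝓘(ℝ, V4) ∞ (B ∘ κ) q :=
      (hB.contMDiff (κ q)).comp q hkq
    have hd : ∀ w : E, (mfderiv 𝓘(ℝ, E) 𝓘(ℝ, V4) (A ∘ κ) q : E →L[ℝ] V4) w =
        L.symm (r • fderiv ℝ Φ (κ q) ((mfderiv 𝓘(ℝ, E) 𝓘(ℝ, ℂ) κ q : E →L[ℝ] ℂ) w)) := by
      intro w
      have h1 : (mfderiv 𝓘(ℝ, E) 𝓘(ℝ, V4) (A ∘ κ) q : E →L[ℝ] V4) =
          (mfderiv 𝓘(ℝ, ℂ) 𝓘(ℝ, V4) A (κ q) : ℂ →L[ℝ] V4).comp
            (mfderiv 𝓘(ℝ, E) 𝓘(ℝ, ℂ) κ q : E →L[ℝ] ℂ) :=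
        mfderiv_comp q ((hA.contMDiff (κ q)).mdifferentiableAt (by simp))
          (hkq.mdifferentiableAt (by simp))
      have h2 : HasFDerivAt A ((L.symm : ℂ × ℂ →L[ℝ] V4).comp (r • fderiv ℝ Φ (κ q))) (κ q) := by
        have h3 : HasFDerivAt Φ (fderiv ℝ Φ (κ q)) (κ q) :=
          (hΦ.differentiable (by simp)).differentiableAt.hasFDerivAt
        exact (L.symm : ℂ × ℂ →L[ℝ] V4).hasFDerivAt.comp (κ q)
          ((h3.const_smul r).const_add (L (f p)))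
      rw [h1, mfderiv_eq_fderiv, h2.fderiv]
      rfl
    refine ⟨c1, c2, ?_, ?_, ?_⟩
    · rw [injective_iff_map_eq_zero]
      intro w hw
      change (mfderiv 𝓘(ℝ, E) 𝓘(ℝ, V4) (A ∘ κ) q : E →L[ℝ] V4) w = 0 at hw
      rw [hd w] at hw
      have h1 := (map_eq_zero_iff L.symm L.symm.injective).1 hw
      have h2 := (smul_eq_zero.1 h1).resolve_left hr.ne'
      have h3 := (injective_iff_map_eq_zero _).1 (hΦi (κ q)) _ h2
      exact (injective_iff_map_eq_zero _).1 (hκd.mfderiv_injective hq.1) _ h3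
    · intro w
      change inner ℝ (B (κ q)) ((mfderiv 𝓘(ℝ, E) 𝓘(ℝ, V4) (A ∘ κ) q : E →L[ℝ] V4) w) = 0
      rw [hd w, ← hL]
      simp only [B, ContinuousLinearEquiv.apply_symm_apply]
      rw [ip_smul_right]
      have h1 : ip (Ξ (κ q)) (fderiv ℝ Φ (κ q)
        ((mfderiv 𝓘(ℝ, E) 𝓘(ℝ, ℂ) κ q : E →L[ℝ] ℂ) w)) = 0 := hper _ _
      exact mul_eq_zero_of_right r h1
    · have h1 := hΞ0 (κ q) hq.2.le
      intro h2
      exact h1 ((map_eq_zero_iff L.symm L.symm.injective).1 h2)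
  · -- outside
    have hK : IsClosed (κ.symm '' Metric.closedBall (0 : ℂ) (3 / 4)) := by
      apply IsCompact.isClosed
      apply (isCompact_closedBall (0 : ℂ) (3 / 4)).image_of_continuousOn
      exact κ.continuousOn_symm.mono fun z hz => hmem z (by
        have : ‖z‖ ≤ 3 / 4 := by simpa using hz
        linarith)
    have hqK : q ∉ κ.symm '' Metric.closedBall (0 : ℂ) (3 / 4) := by
      rintro ⟨z, hz, rfl⟩
      have hz' : ‖z‖ ≤ 3 / 4 := by simpa using hz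
      have ht := hmem z (by linarith)
      exact hq ⟨κ.map_target ht, by rw [κ.right_inv ht]; linarith⟩
    have hnh : (κ.symm '' Metric.closedBall (0 : ℂ) (3 / 4))ᶜ ∈ 𝓝 q :=
      hK.isOpen_compl.mem_nhds hqK
    have hkey : ∀ x ∉ κ.symm '' Metric.closedBall (0 : ℂ) (3 / 4), f' x = f x ∧ ξ x = s x := by
      intro x hx
      by_cases hPx : P x
      · have hge : 3 / 4 ≤ ‖κ x‖ := by
          by_contra hlt
          push Not at hlt
          exact hx ⟨κ x, by simpa using hlt.le, κ.left_inv hPx.1⟩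
        obtain ⟨h1, h2⟩ := hout (κ x) hge hPx.2.le
        constructor
        · simp only [f', hPx, if_true]
          rw [h1, ← hgr x hPx.1 (by linarith [hPx.2]), L.symm_apply_apply]
        · simp only [ξ, hPx, if_true]
          have h3 := hnrm (κ x) (by linarith [hPx.2])
          rw [← hσeq (κ x) hPx.2.le, κ.left_inv hPx.1] at h3
          rw [h2, ← h3, L.symm_apply_apply]
      · simp only [f', ξ, hPx, if_false, and_self]
    have e1 : f' =ᶠ[𝓝 q] f := by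
      filter_upwards [hnh] with x hx
      exact (hkey x hx).1
    have e2 : ξ =ᶠ[𝓝 q] s := by
      filter_upwards [hnh] with x hx
      exact (hkey x hx).2
    refine LocPair.congr ?_ e1 e2
    refine ⟨hf.sm q, hs.sm q, hf.inj q, hs.perp q, ?_⟩
    intro h0
    obtain ⟨h1, h2⟩ := hz q h0
    exact hq ⟨h1, by linarith⟩

end Asm

end Vale.Agent.P205.TI
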