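import Vale.Agent.P205.TI.Defs

/-!
P205, block TI (helper259): from connected surfaces to all surfaces.
-/

open scoped Manifold ContDiff Topology
open Set Module TopologicalSpace

noncomputable section

namespace Vale.Agent.P205.TI

universe u v

section Comp

variable {E : Type u} [NormedAddCommGroup E] [NormedSpace ℝ E] [FiniteDimensional ℝ E]
  {M : Type v} [TopologicalSpace M] [ChartedSpace E M] [IsManifold 𝓘(ℝ, E) ∞ M]

/-- the local properties of a pair -/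
def LocPair (E : Type u) [NormedAddCommGroup E] [NormedSpace ℝ E]
    {M : Type v} [TopologicalSpace M] [ChartedSpace E M] (f ξ : M → V4) (x : M) : Prop :=
  ContMDiffAt 𝓘(ℝ, E) 𝓘(ℝ, V4) ∞ f x ∧ ContMDiffAt 𝓘(ℝ, E) 𝓘(ℝ, V4) ∞ ξ x ∧
    Function.Injective (mfderiv 𝓘(ℝ, E) 𝓘(ℝ, V4) f x) ∧
    (∀ w : E, inner ℝ (ξ x) ((mfderiv 𝓘(ℝ, E) 𝓘(ℝ, V4) f x : E →L[ℝ] V4) w) = 0) ∧ ξ x ≠ 0

omit [FiniteDimensional ℝ E] [IsManifold 𝓘(ℝ, E) ∞ M] in
theorem LocPair.congr {f ξ f' ξ' : M → V4} {x : M} (h : LocPair E f ξ x) (hf : f' =ᶠ[𝓝 x] f)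
    (hξ : ξ' =ᶠ[𝓝 x] ξ) : LocPair E f' ξ' x := by
  obtain ⟨h1, h2, h3, h4, h5⟩ := h
  refine ⟨h1.congr_of_eventuallyEq hf, h2.congr_of_eventuallyEq hξ, ?_, ?_, ?_⟩
  · rw [hf.mfderiv_eq]; exact h3
  · intro w
    rw [hξ.eq_of_nhds]
    have := h4 w
    rw [← hf.mfderiv_eq] at this
    exact this
  · rw [hξ.eq_of_nhds]; exact h5

omit [FiniteDimensional ℝ E] [IsManifold 𝓘(ℝ, E) ∞ M] in
theorem locPair_iff {f ξ : M → V4} : (∀ x, LocPair E f ξ x) ↔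
    (Imm E f ∧ Nrm E f ξ ∧ ∀ p, ξ p ≠ 0) := by
  constructor
  · intro h
    exact ⟨⟨fun x => (h x).1, fun x => (h x).2.2.1⟩,
      ⟨fun x => (h x).2.1, fun x => (h x).2.2.2.1⟩, fun x => (h x).2.2.2.2⟩
  · rintro ⟨h1, h2, h3⟩ x
    exact ⟨h1.sm x, h2.sm x, h1.inj x, h2.perp x, h3 x⟩

omit [IsManifold 𝓘(ℝ, E) ∞ M] in
theorem exists_on (U : Opens M) (h : ∃ f ξ : U → V4, Imm E f ∧ Nrm E f ξ ∧ ∀ p, ξ p ≠ 0) :
    ∃ f ξ : M → V4, ∀ x ∈ U, LocPair E f ξ x := by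
  classical
  obtain ⟨f, ξ, hf, hξ, h0⟩ := h
  let F : M → V4 := fun x => if h : x ∈ U then f ⟨x, h⟩ else 0
  let X : M → V4 := fun x => if h : x ∈ U then ξ ⟨x, h⟩ else 0
  have hF : (fun x : U => F x) = f := by
    funext x
    simp [F]
  have hX : (fun x : U => X x) = ξ := by
    funext x
    simp [X]
  refine ⟨F, X, fun x hx => ?_⟩
  have s1 : ContMDiffAt 𝓘(ℝ, E) 𝓘(ℝ, V4) ∞ F x := by
    have := hf.sm ⟨x, hx⟩
    rw [← hF] at this
    exact contMDiffAt_subtype_iff.1 this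
  have s2 : ContMDiffAt 𝓘(ℝ, E) 𝓘(ℝ, V4) ∞ X x := by
    have := hξ.sm ⟨x, hx⟩
    rw [← hX] at this
    exact contMDiffAt_subtype_iff.1 this
  have hval : MDifferentiableAt 𝓘(ℝ, E) 𝓘(ℝ, E) (Subtype.val : U → M) ⟨x, hx⟩ :=
    (contMDiff_subtype_val (n := ∞) ⟨x, hx⟩).mdifferentiableAt (by simp)
  have hd : (mfderiv 𝓘(ℝ, E) 𝓘(ℝ, V4) f ⟨x, hx⟩ : E →L[ℝ] V4) =
      (mfderiv 𝓘(ℝ, E) 𝓘(ℝ, V4) F x : E →L[ℝ] V4).comp
        (mfderiv 𝓘(ℝ, E) 𝓘(ℝ, E) (Subtype.val : U → M) ⟨x, hx⟩ : E →L[ℝ] E) := by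
    have e : f = F ∘ (Subtype.val : U → M) := hF.symm
    rw [e]
    exact mfderiv_comp (I := 𝓘(ℝ, E)) (I' := 𝓘(ℝ, E)) (I'' := 𝓘(ℝ, V4)) (⟨x, hx⟩ : U)
      (s1.mdifferentiableAt (by simp)) hval
  set A : E →L[ℝ] E := (mfderiv 𝓘(ℝ, E) 𝓘(ℝ, E) (Subtype.val : U → M) ⟨x, hx⟩ : E →L[ℝ] E)
    with hA
  have hinj : Function.Injective A := by
    have h1 : Function.Injective (mfderiv 𝓘(ℝ, E) 𝓘(ℝ, V4) f ⟨x, hx⟩ : E →L[ℝ] V4) := hf.inj _
    rw [hd] at h1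
    intro a b hab
    apply h1
    change (mfderiv 𝓘(ℝ, E) 𝓘(ℝ, V4) F x : E →L[ℝ] V4) (A a) = _
    rw [hab]; rfl
  have hsur : Function.Surjective A :=
    (LinearMap.injective_iff_surjective (f := (A : E →ₗ[ℝ] E))).1 hinj
  refine ⟨s1, s2, ?_, ?_, ?_⟩
  · intro a b hab
    obtain ⟨a', rfl⟩ := hsur a
    obtain ⟨b', rfl⟩ := hsur b
    have h1 : Function.Injective (mfderiv 𝓘(ℝ, E) 𝓘(ℝ, V4) f ⟨x, hx⟩ : E →L[ℝ] V4) := hf.inj _
    rw [hd] at h1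
    rw [h1 hab]
  · intro w
    obtain ⟨w', rfl⟩ := hsur w
    have h1 := hξ.perp ⟨x, hx⟩ w'
    rw [hd] at h1
    have h2 : X x = ξ ⟨x, hx⟩ := by simp [X, hx]
    rw [h2]
    exact h1
  · have h2 : X x = ξ ⟨x, hx⟩ := by simp [X, hx]
    rw [h2]
    exact h0 _

variable [CompactSpace M] [T2Space M]

/-- from connected surfaces to all surfaces -/
theorem exists_pair_of_conn
    (H : ∀ (N : Type v) [TopologicalSpace N] [ChartedSpace E N] [IsManifold 𝓘(ℝ, E) ∞ N]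
      [CompactSpace N] [T2Space N] [ConnectedSpace N],
      ∃ f ξ : N → V4, Imm E f ∧ Nrm E f ξ ∧ ∀ p, ξ p ≠ 0) :
    ∃ f ξ : M → V4, Imm E f ∧ Nrm E f ξ ∧ ∀ p, ξ p ≠ 0 := by
  classical
  have : LocallyConnectedSpace M := ChartedSpace.locallyConnectedSpace E M
  let U : M → Opens M := fun x => ⟨connectedComponent x, isOpen_connectedComponent⟩
  have hU : ∀ x, ∃ f ξ : M → V4, ∀ y ∈ U x, LocPair E f ξ y := by
    intro x
    apply exists_on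
    have : CompactSpace (U x) :=
      isCompact_iff_compactSpace.mp (isClosed_connectedComponent (x := x)).isCompact
    have : ConnectedSpace (U x) :=
      isConnected_iff_connectedSpace.mp (isConnected_connectedComponent (x := x))
    exact H (U x)
  -- choose as a function of the component
  have hW : ∀ W : Opens M, (∃ x, U x = W) → ∃ f ξ : M → V4, ∀ y ∈ W, LocPair E f ξ y := by
    rintro W ⟨x, rfl⟩
    exact hU x
  choose! f ξ hfξ using hW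
  refine ⟨fun x => f (U x) x, fun x => ξ (U x) x, locPair_iff.1 fun x => ?_⟩
  have hev : ∀ᶠ y in 𝓝 x, U y = U x := by
    have h1 : (U x : Set M) ∈ 𝓝 x := (U x).2.mem_nhds mem_connectedComponent
    filter_upwards [h1] with y hy
    have : connectedComponent y = connectedComponent x := (connectedComponent_eq hy).symm
    exact Opens.ext this
  refine (hfξ (U x) ⟨x, rfl⟩ x mem_connectedComponent).congr ?_ ?_
  · filter_upwards [hev] with y hy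
    simp only [hy]
  · filter_upwards [hev] with y hy
    simp only [hy]

end Comp

end Vale.Agent.P205.TI
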