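import Vale.Agent.P205.TI.Defs

/-!
P205, block TI: a nondegenerate zero of a plane map can be made complex linear or antilinear.
-/

open scoped ContDiff Topology
open Set Module

noncomputable section

namespace Vale.Agent.P205.TI

theorem norm_st (b : Bool) (z : ℂ) : ‖st b z‖ = ‖z‖ := by
  cases b
  · simp [st]
  · simp [st]

theorem contDiff_st (b : Bool) : ContDiff ℝ ∞ (st b) := by
  cases b
  · exact Complex.conjCLE.contDiff
  · exact contDiff_id

/-- real linear maps of the plane -/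
theorem lin_eq (L : ℂ →L[ℝ] ℂ) (w : ℂ) :
    L w = (L 1 - Complex.I * L Complex.I) / 2 * w +
      (L 1 + Complex.I * L Complex.I) / 2 * (starRingEnd ℂ) w := by
  have h : w = w.re • (1 : ℂ) + w.im • Complex.I := by
    apply Complex.ext <;> simp
  have h1 : L w = w.re • L 1 + w.im • L Complex.I := by
    conv_lhs => rw [h]
    rw [map_add, map_smul, map_smul]
  rw [h1]
  apply Complex.ext
  · simp
    ring
  · simp
    ring

theorem standardize_aux {σ : ℂ → ℂ} (hσ : ContDiff ℝ ∞ σ) {a : ℂ} (h0 : σ a = 0)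
    {ε : ℝ} (hε : 0 < ε) (hz : ∀ z, ‖z - a‖ < ε → σ z = 0 → z = a) (b : Bool) (p q : ℂ)
    (hpq : ‖q‖ < ‖p‖) (hL : ∀ w, fderiv ℝ σ a w = p * st b w + q * st (!b) w) :
    ∃ (σ' : ℂ → ℂ) (δ : ℝ), 0 < δ ∧ ContDiff ℝ ∞ σ' ∧
      (∀ z, ε ≤ ‖z - a‖ → σ' z = σ z) ∧ (∀ z, ‖z - a‖ < δ → σ' z = p * st b (z - a)) ∧
      ∀ z, ‖z - a‖ < ε → σ' z = 0 → z = a := by
  have hc : 0 < (‖p‖ - ‖q‖) / 2 := by linarith
  have hd : HasFDerivAt σ (fderiv ℝ σ a) a :=
    (hσ.differentiable (by simp)).differentiableAt.hasFDerivAt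
  obtain ⟨η, hη, hb⟩ := Metric.eventually_nhds_iff.1 (hd.isLittleO.def hc)
  obtain ⟨ρ, hρ, hρη, hρε⟩ : ∃ ρ : ℝ, 0 < ρ ∧ 2 * ρ < η ∧ 2 * ρ < ε := by
    refine ⟨min η ε / 4, by positivity, ?_, ?_⟩
    · have := min_le_left η ε
      have h4 : 0 < min η ε := lt_min hη hε
      linarith
    · have := min_le_right η ε
      have h4 : 0 < min η ε := lt_min hη hε
      linarith
  -- the two cutoffs
  let χ : ContDiffBump a := ⟨ρ, 2 * ρ, hρ, by linarith⟩
  let φ : ContDiffBump a := ⟨ρ / 2, ρ, by linarith, by linarith⟩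
  have hclose : ∀ z, ‖z - a‖ ≤ 2 * ρ →
      ‖σ z - (p * st b (z - a) + q * st (!b) (z - a))‖ ≤ (‖p‖ - ‖q‖) / 2 * ‖z - a‖ := by
    intro z hza
    have := hb (y := z) (by rw [dist_eq_norm]; linarith)
    rw [h0, sub_zero, hL] at this
    exact this
  have hlow : ∀ (t : ℝ) (w : ℂ), 0 ≤ t → t ≤ 1 →
      (‖p‖ - ‖q‖) * ‖w‖ ≤ ‖p * st b w + (t : ℂ) * (q * st (!b) w)‖ := by
    intro t w ht0 ht1
    have h1 : ‖p * st b w‖ = ‖p‖ * ‖w‖ := by rw [norm_mul, norm_st]
    have h2 : ‖(t : ℂ) * (q * st (!b) w)‖ ≤ ‖q‖ * ‖w‖ := by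
      rw [norm_mul, norm_mul, norm_st, Complex.norm_real, Real.norm_eq_abs, abs_of_nonneg ht0]
      calc t * (‖q‖ * ‖w‖) ≤ 1 * (‖q‖ * ‖w‖) :=
            mul_le_mul_of_nonneg_right ht1 (by positivity)
        _ = ‖q‖ * ‖w‖ := one_mul _
    have h3 : ‖p * st b w‖ - ‖(t : ℂ) * (q * st (!b) w)‖ ≤
        ‖p * st b w + (t : ℂ) * (q * st (!b) w)‖ := by
      have := norm_sub_norm_le (p * st b w) (-((t : ℂ) * (q * st (!b) w)))
      rwa [norm_neg, sub_neg_eq_add] at this
    rw [sub_mul]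
    linarith
  refine ⟨fun z => ((1 - χ z : ℝ) : ℂ) * σ z + ((χ z : ℝ) : ℂ) *
    (p * st b (z - a) + ((1 - φ z : ℝ) : ℂ) * (q * st (!b) (z - a))), ρ / 2, by linarith,
    ?_, ?_, ?_, ?_⟩
  · -- smoothness
    have h1 : ContDiff ℝ ∞ fun z : ℂ => ((1 - χ z : ℝ) : ℂ) :=
      Complex.ofRealCLM.contDiff.comp (contDiff_const.sub χ.contDiff)
    have h2 : ContDiff ℝ ∞ fun z : ℂ => ((χ z : ℝ) : ℂ) :=
      Complex.ofRealCLM.contDiff.comp χ.contDiff
    have h3 : ContDiff ℝ ∞ fun z : ℂ => ((1 - φ z : ℝ) : ℂ) :=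
      Complex.ofRealCLM.contDiff.comp (contDiff_const.sub φ.contDiff)
    have h4 : ∀ c : Bool, ContDiff ℝ ∞ fun z : ℂ => st c (z - a) := fun c =>
      (contDiff_st c).comp (contDiff_id.sub contDiff_const)
    exact (h1.mul hσ).add (h2.mul ((contDiff_const.mul (h4 b)).add
      (h3.mul (contDiff_const.mul (h4 (!b))))))
  · -- far from the point
    intro z hza
    have : χ z = 0 := χ.zero_of_le_dist (by rw [dist_eq_norm]; show 2 * ρ ≤ _; linarith)
    simp [this]
  · -- near the point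
    intro z hza
    have h1 : χ z = 1 := χ.one_of_mem_closedBall (by
      rw [mem_closedBall_iff_norm]; show _ ≤ ρ; linarith)
    have h2 : φ z = 1 := φ.one_of_mem_closedBall (by
      rw [mem_closedBall_iff_norm]; show _ ≤ ρ / 2; linarith)
    simp [h1, h2]
  · -- zeros
    intro z hzε hz0
    by_contra hne
    have hpos : 0 < ‖z - a‖ := norm_pos_iff.2 (sub_ne_zero.2 hne)
    simp only at hz0
    rcases le_or_gt (‖z - a‖) ρ with h | h
    · -- inside: the cutoff is `1`
      have h1 : χ z = 1 := χ.one_of_mem_closedBall (by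
        rw [mem_closedBall_iff_norm]; exact h)
      rw [h1] at hz0
      simp only [sub_self, Complex.ofReal_zero, zero_mul, Complex.ofReal_one, one_mul,
        zero_add] at hz0
      have := hlow (1 - φ z) (z - a) (by linarith [φ.le_one (x := z)])
        (by linarith [φ.nonneg (x := z)])
      rw [hz0, norm_zero] at this
      have h5 : 0 < (‖p‖ - ‖q‖) * ‖z - a‖ := mul_pos (by linarith) hpos
      linarith
    · rcases lt_or_ge (‖z - a‖) (2 * ρ) with h' | h'
      · -- the annulus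
        have h2 : φ z = 0 := φ.zero_of_le_dist (by rw [dist_eq_norm]; exact h.le)
        rw [h2] at hz0
        have h3 := hclose z h'.le
        have h4 := hlow 1 (z - a) zero_le_one le_rfl
        rw [Complex.ofReal_one, one_mul] at h4
        set Lw := p * st b (z - a) + q * st (!b) (z - a) with hLw
        have h6 : Lw = ((1 - χ z : ℝ) : ℂ) * (Lw - σ z) := by
          have h7 : ((1 - χ z : ℝ) : ℂ) * σ z + ((χ z : ℝ) : ℂ) * Lw = 0 := by
            rw [← hz0]
            simp [hLw]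
          push_cast at h7 ⊢
          linear_combination h7
        have h8 : ‖Lw‖ ≤ (‖p‖ - ‖q‖) / 2 * ‖z - a‖ := by
          rw [h6, norm_mul, Complex.norm_real, Real.norm_eq_abs,
            abs_of_nonneg (by linarith [χ.le_one (x := z)]), norm_sub_rev]
          calc (1 - χ z) * ‖σ z - Lw‖ ≤ 1 * ‖σ z - Lw‖ :=
                mul_le_mul_of_nonneg_right (by linarith [χ.nonneg (x := z)]) (norm_nonneg _)
            _ ≤ _ := by rw [one_mul]; exact h3
        have h5 : 0 < (‖p‖ - ‖q‖) * ‖z - a‖ := mul_pos (by linarith) hpos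
        linarith
      · -- outside the support
        have h1 : χ z = 0 := χ.zero_of_le_dist (by rw [dist_eq_norm]; exact h')
        rw [h1] at hz0
        simp only [sub_zero, Complex.ofReal_one, one_mul, Complex.ofReal_zero, zero_mul,
          add_zero] at hz0
        exact hne (hz z hzε hz0)

/-- DL1: a nondegenerate zero can be made complex linear or antilinear -/
theorem standardize {σ : ℂ → ℂ} (hσ : ContDiff ℝ ∞ σ) {a : ℂ} (h0 : σ a = 0)
    (hinj : Function.Injective (fderiv ℝ σ a)) {ε : ℝ} (hε : 0 < ε)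
    (hz : ∀ z, ‖z - a‖ < ε → σ z = 0 → z = a) :
    ∃ (σ' : ℂ → ℂ) (b : Bool) (l : ℂ) (δ : ℝ), l ≠ 0 ∧ 0 < δ ∧ ContDiff ℝ ∞ σ' ∧
      (∀ z, ε ≤ ‖z - a‖ → σ' z = σ z) ∧ (∀ z, ‖z - a‖ < δ → σ' z = l * st b (z - a)) ∧
      ∀ z, ‖z - a‖ < ε → σ' z = 0 → z = a := by
  set L := fderiv ℝ σ a with hLdef
  set l := (L 1 - Complex.I * L Complex.I) / 2 with hl
  set m := (L 1 + Complex.I * L Complex.I) / 2 with hm
  have hL : ∀ w, L w = l * w + m * (starRingEnd ℂ) w := lin_eq L
  have hne : ‖l‖ ≠ ‖m‖ := by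
    intro heq
    have hsq : l * (starRingEnd ℂ) l = m * (starRingEnd ℂ) m := by
      rw [Complex.mul_conj, Complex.mul_conj, Complex.normSq_eq_norm_sq, Complex.normSq_eq_norm_sq,
        heq]
    have h1 : L ((starRingEnd ℂ) l - m) = 0 := by
      rw [hL, map_sub, Complex.conj_conj]
      linear_combination hsq
    have h2 : L (Complex.I * ((starRingEnd ℂ) l + m)) = 0 := by
      rw [hL, map_mul, map_add, Complex.conj_conj, Complex.conj_I]
      linear_combination Complex.I * hsq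
    have h1' : (starRingEnd ℂ) l - m = 0 := hinj (by rw [h1, map_zero])
    have h2' : Complex.I * ((starRingEnd ℂ) l + m) = 0 := hinj (by rw [h2, map_zero])
    have h2'' : (starRingEnd ℂ) l + m = 0 := by
      rcases mul_eq_zero.1 h2' with h | h
      · exact absurd h Complex.I_ne_zero
      · exact h
    have hm0 : m = 0 := by linear_combination (h2'' - h1') / 2
    have hl0 : l = 0 := by
      have : (starRingEnd ℂ) l = 0 := by linear_combination (h2'' + h1') / 2
      simpa using this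
    have : L 1 = 0 := by rw [hL, hl0, hm0]; simp
    exact one_ne_zero (hinj (this.trans (map_zero L).symm) : (1 : ℂ) = 0)
  rcases lt_or_gt_of_ne hne with h | h
  · -- antilinear
    obtain ⟨σ', δ, h1, h2, h3, h4, h5⟩ := standardize_aux hσ h0 hε hz false m l h
      (fun w => by rw [← hLdef, hL]; simp [st]; ring)
    exact ⟨σ', false, m, δ, by intro hm0; rw [hm0, norm_zero] at h; exact absurd h (not_lt.2 (norm_nonneg _)),
      h1, h2, h3, h4, h5⟩
  · obtain ⟨σ', δ, h1, h2, h3, h4, h5⟩ := standardize_aux hσ h0 hε hz true l m h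
      (fun w => by rw [← hLdef, hL]; simp [st])
    exact ⟨σ', true, l, δ, by intro hl0; rw [hl0, norm_zero] at h; exact absurd h (not_lt.2 (norm_nonneg _)),
      h1, h2, h3, h4, h5⟩

end Vale.Agent.P205.TI
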