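import Vale.Agent.P205.TI.DL1

/-!
P205, block TI, DL2: factorisation.
-/

open scoped Manifold ContDiff Topology
open Set Module

noncomputable section

namespace Vale.Agent.P205.TI

theorem dl2_st_eq_zero {b : Bool} {z : ℂ} : st b z = 0 ↔ z = 0 := by
  unfold st
  cases b <;> simp

theorem dl2_st_contDiff (b : Bool) : ContDiff ℝ ∞ (st b) := by
  cases b
  · have h : st false = fun z : ℂ => Complex.conjCLE z := by
      funext z
      simp [st]
    rw [h]
    exact Complex.conjCLE.contDiff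
  · have h : st true = id := by
      funext z
      simp [st]
    rw [h]
    exact contDiff_id

theorem dl2_isolated {σ : ℂ → ℂ} (hσ : ContDiff ℝ ∞ σ) {a : ℂ}
    (hinj : Function.Injective (fderiv ℝ σ a)) :
    ∀ᶠ z in 𝓝[≠] a, σ z ≠ 0 := by
  have hd : HasFDerivAt σ (fderiv ℝ σ a) a :=
    (hσ.differentiable (by simp) a).hasFDerivAt
  refine hd.eventually_ne ?_
  obtain ⟨K, hK, hA⟩ := (fderiv ℝ σ a : ℂ →L[ℝ] ℂ).toLinearMap.exists_antilipschitzWith
    (LinearMap.ker_eq_bot.2 hinj)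
  exact ⟨K, hA⟩

theorem dl2_finite {σ : ℂ → ℂ} (hσ : ContDiff ℝ ∞ σ)
    (hn : ∀ z, σ z = 0 → ‖z‖ ≤ 1 → Function.Injective (fderiv ℝ σ z)) :
    {z | σ z = 0 ∧ ‖z‖ ≤ 1}.Finite := by
  by_contra hinf
  have hc : IsCompact {z | σ z = 0 ∧ ‖z‖ ≤ 1} := by
    have h1 : IsCompact (Metric.closedBall (0 : ℂ) 1) := isCompact_closedBall 0 1
    refine h1.of_isClosed_subset ?_ ?_
    · exact (isClosed_eq hσ.continuous continuous_const).inter
        (isClosed_le continuous_norm continuous_const)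
    · intro z hz
      simpa using hz.2
  obtain ⟨x, hx, hacc⟩ := Set.Infinite.exists_accPt_of_subset_isCompact hinf hc subset_rfl
  have h2 := dl2_isolated hσ (hn x hx.1 hx.2)
  rw [accPt_iff_frequently_nhdsNE] at hacc
  exact hacc (h2.mono fun z hz hz' => hz hz'.1)

/-- DL2: factorisation -/
theorem factor {σ : ℂ → ℂ} (hσ : ContDiff ℝ ∞ σ)
    (hz : ∀ z, σ z = 0 → ‖z‖ ≤ 1 → ‖z‖ < 1 / 2)
    (hn : ∀ z, σ z = 0 → ‖z‖ ≤ 1 → Function.Injective (fderiv ℝ σ z)) :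
    ∃ (Z : Finset ℂ) (b : ℂ → Bool) (g : ℂ → ℂ), (∀ z, z ∈ Z ↔ σ z = 0 ∧ ‖z‖ ≤ 1) ∧
      ContDiff ℝ ∞ g ∧ (∀ z, ‖z‖ ≤ 1 → g z ≠ 0) ∧
      ∀ z, 1 / 2 ≤ ‖z‖ → ‖z‖ ≤ 1 → σ z = g z * ∏ a ∈ Z, st (b a) (z - a) := by
  classical
  have hfin := dl2_finite hσ hn
  set Z : Finset ℂ := hfin.toFinset with hZ
  have hZm : ∀ z, z ∈ Z ↔ σ z = 0 ∧ ‖z‖ ≤ 1 := by
    intro z; rw [hZ]; simp
  -- a common radius
  have hrad : ∃ ε : ℝ, 0 < ε ∧ (∀ a ∈ Z, ε ≤ 1 / 2 - ‖a‖) ∧
      ∀ a ∈ Z, ∀ a' ∈ Z, a ≠ a' → 2 * ε ≤ ‖a - a'‖ := by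
    have h1 : ∃ ε : ℝ, 0 < ε ∧ ∀ a ∈ Z, ε ≤ 1 / 2 - ‖a‖ := by
      rcases Z.eq_empty_or_nonempty with h | h
      · exact ⟨1, one_pos, by simp [h]⟩
      · refine ⟨Z.inf' h (fun a => 1 / 2 - ‖a‖), ?_, fun a ha => Finset.inf'_le _ ha⟩
        rw [Finset.lt_inf'_iff]
        intro a ha
        have := hz a ((hZm a).1 ha).1 ((hZm a).1 ha).2
        linarith
    have h2 : ∃ ε : ℝ, 0 < ε ∧ ∀ q ∈ Z.offDiag, 2 * ε ≤ ‖q.1 - q.2‖ := by
      rcases Z.offDiag.eq_empty_or_nonempty with h | h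
      · exact ⟨1, one_pos, by simp [h]⟩
      · refine ⟨Z.offDiag.inf' h (fun q => ‖q.1 - q.2‖) / 2, ?_, fun q hq => ?_⟩
        · apply half_pos
          rw [Finset.lt_inf'_iff]
          intro q hq
          rw [Finset.mem_offDiag] at hq
          exact norm_pos_iff.2 (sub_ne_zero.2 hq.2.2)
        · have := Finset.inf'_le (fun q : ℂ × ℂ => ‖q.1 - q.2‖) hq
          linarith
    obtain ⟨e1, he1, h1⟩ := h1
    obtain ⟨e2, he2, h2⟩ := h2
    refine ⟨min e1 e2, lt_min he1 he2, fun a ha => (min_le_left _ _).trans (h1 a ha), ?_⟩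
    intro a ha a' ha' hne
    have := h2 (a, a') (by rw [Finset.mem_offDiag]; exact ⟨ha, ha', hne⟩)
    have h3 := min_le_right e1 e2
    simp only at this
    linarith
  obtain ⟨ε, hε, hε1, hε2⟩ := hrad
  -- inside `B(a, ε)` the only zero is `a`
  have hball : ∀ a ∈ Z, ∀ z, ‖z - a‖ < ε → ‖z‖ < 1 / 2 := by
    intro a ha z hza
    have h1 := hε1 a ha
    have h2 : ‖z‖ ≤ ‖z - a‖ + ‖a‖ := by
      have := norm_add_le (z - a) a
      simpa using this
    linarith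
  have huniq : ∀ a ∈ Z, ∀ a' ∈ Z, ∀ z, ‖z - a‖ < ε → ‖z - a'‖ < ε → a = a' := by
    intro a ha a' ha' z h1 h2
    by_contra hne
    have h3 := hε2 a ha a' ha' hne
    have h4 : ‖a - a'‖ ≤ ‖z - a‖ + ‖z - a'‖ := by
      have : a - a' = (z - a') - (z - a) := by ring
      rw [this]
      have := norm_sub_le (z - a') (z - a)
      linarith
    linarith
  have hone : ∀ a ∈ Z, ∀ z, ‖z - a‖ < ε → σ z = 0 → z = a := by
    intro a ha z hza h0
    have hz1 := hball a ha z hza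
    have hzZ : z ∈ Z := (hZm z).2 ⟨h0, by linarith⟩
    exact huniq z hzZ a ha z (by simpa using hε) hza
  have hstd : ∀ a : ℂ, ∃ (σ' : ℂ → ℂ) (b : Bool) (l : ℂ) (δ : ℝ), a ∈ Z →
      (l ≠ 0 ∧ 0 < δ ∧ ContDiff ℝ ∞ σ' ∧
      (∀ z, ε ≤ ‖z - a‖ → σ' z = σ z) ∧ (∀ z, ‖z - a‖ < δ → σ' z = l * st b (z - a)) ∧
      ∀ z, ‖z - a‖ < ε → σ' z = 0 → z = a) := by
    intro a
    by_cases ha : a ∈ Z
    · obtain ⟨σ', b, l, δ, h⟩ := standardize hσ ((hZm a).1 ha).1
        (hn a ((hZm a).1 ha).1 ((hZm a).1 ha).2) hε (hone a ha)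
      exact ⟨σ', b, l, δ, fun _ => h⟩
    · exact ⟨σ, true, 0, 0, fun h => absurd h ha⟩
  choose s b l δ hs using hstd
  -- the global modification
  set σ' : ℂ → ℂ := fun z => σ z + ∑ a ∈ Z, (s a z - σ z) with hσ'
  have hσ's : ContDiff ℝ ∞ σ' := by
    refine hσ.add (ContDiff.sum fun a ha => ?_)
    exact (hs a ha).2.2.1.sub hσ
  have hin : ∀ a ∈ Z, ∀ z, ‖z - a‖ < ε → σ' z = s a z := by
    intro a ha z hza
    simp only [hσ']
    rw [Finset.sum_eq_single a]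
    · ring
    · intro a' ha' hne
      have : ε ≤ ‖z - a'‖ := by
        by_contra hlt
        exact hne (huniq a' ha' a ha z (not_le.1 hlt) hza)
      rw [(hs a' ha').2.2.2.1 z this, sub_self]
    · exact fun h => absurd ha h
  have hout : ∀ z, (∀ a ∈ Z, ε ≤ ‖z - a‖) → σ' z = σ z := by
    intro z hza
    simp only [hσ']
    rw [Finset.sum_eq_zero, add_zero]
    intro a ha
    rw [(hs a ha).2.2.2.1 z (hza a ha), sub_self]
  have hhalf : ∀ z, 1 / 2 ≤ ‖z‖ → σ' z = σ z := by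
    intro z h
    refine hout z fun a ha => ?_
    by_contra hlt
    have := hball a ha z (not_le.1 hlt)
    linarith
  have hzero : ∀ z, ‖z‖ ≤ 1 → σ' z = 0 → z ∈ Z := by
    intro z h1 h0
    by_cases h : ∃ a ∈ Z, ‖z - a‖ < ε
    · obtain ⟨a, ha, hza⟩ := h
      rw [hin a ha z hza] at h0
      rw [(hs a ha).2.2.2.2.2 z hza h0]
      exact ha
    · push Not at h
      rw [hout z h] at h0
      exact (hZm z).2 ⟨h0, h1⟩
  have hnear : ∀ a ∈ Z, ∀ z, ‖z - a‖ < min ε (δ a) → σ' z = l a * st (b a) (z - a) := by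
    intro a ha z hza
    rw [hin a ha z (lt_of_lt_of_le hza (min_le_left _ _)),
      (hs a ha).2.2.2.2.1 z (lt_of_lt_of_le hza (min_le_right _ _))]
  -- the products
  have hprod : ∀ (Y : Finset ℂ), ContDiff ℝ ∞ (fun z => ∏ a ∈ Y, st (b a) (z - a)) := by
    intro Y
    exact contDiff_prod fun a _ => (dl2_st_contDiff (b a)).comp (contDiff_id.sub contDiff_const)
  have hprod0 : ∀ (Y : Finset ℂ) (z : ℂ), z ∉ Y → ∏ a ∈ Y, st (b a) (z - a) ≠ 0 := by
    intro Y z hzY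
    rw [Finset.prod_ne_zero_iff]
    intro a ha h0
    rw [dl2_st_eq_zero, sub_eq_zero] at h0
    exact hzY (h0 ▸ ha)
  let g : ℂ → ℂ := fun z => if z ∈ Z then l z * (∏ a ∈ Z.erase z, st (b a) (z - a))⁻¹
    else σ' z * (∏ a ∈ Z, st (b a) (z - a))⁻¹
  refine ⟨Z, b, g, hZm, ?_, ?_, ?_⟩
  · rw [contDiff_iff_contDiffAt]
    intro z
    by_cases hzZ : z ∈ Z
    · have hev : g =ᶠ[𝓝 z] fun w => l z * (∏ a ∈ Z.erase z, st (b a) (w - a))⁻¹ := by
        have hmin : 0 < min ε (δ z) := lt_min hε (hs z hzZ).2.1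
        filter_upwards [Metric.ball_mem_nhds z hmin] with w hw
        rw [Metric.mem_ball, dist_eq_norm] at hw
        by_cases hwz : w = z
        · subst hwz
          simp only [g, if_pos hzZ]
        · have hwZ : w ∉ Z := by
            intro hwZ
            exact hwz (huniq w hwZ z hzZ w (by simpa using hε)
              (lt_of_lt_of_le hw (min_le_left _ _)))
          simp only [g, if_neg hwZ]
          rw [hnear z hzZ w hw, ← Finset.mul_prod_erase Z _ hzZ, mul_inv]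
          have h1 : st (b z) (w - z) ≠ 0 := by
            rw [Ne, dl2_st_eq_zero, sub_eq_zero]
            exact hwz
          field_simp
      refine ContDiffAt.congr_of_eventuallyEq ?_ hev
      refine contDiffAt_const.mul (ContDiffAt.inv (hprod _).contDiffAt ?_)
      exact hprod0 _ z (by simp)
    · have hev : g =ᶠ[𝓝 z] fun w => σ' w * (∏ a ∈ Z, st (b a) (w - a))⁻¹ := by
        have hop : IsOpen ((Z : Set ℂ)ᶜ) := Z.finite_toSet.isClosed.isOpen_compl
        filter_upwards [hop.mem_nhds (show z ∈ ((Z : Set ℂ)ᶜ) from by simpa using hzZ)] with w hw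
        have hw' : w ∉ Z := by simpa using hw
        simp only [g, if_neg hw']
      refine ContDiffAt.congr_of_eventuallyEq ?_ hev
      exact hσ's.contDiffAt.mul (ContDiffAt.inv (hprod _).contDiffAt (hprod0 _ z hzZ))
  · intro z hz1
    by_cases hzZ : z ∈ Z
    · simp only [g, if_pos hzZ]
      exact mul_ne_zero (hs z hzZ).1 (inv_ne_zero (hprod0 _ z (by simp)))
    · simp only [g, if_neg hzZ]
      refine mul_ne_zero (fun h0 => hzZ (hzero z hz1 h0)) (inv_ne_zero (hprod0 _ z hzZ))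
  · intro z hz1 hz2
    have hzZ : z ∉ Z := by
      intro h
      have := hz z ((hZm z).1 h).1 hz2
      linarith
    simp only [g, if_neg hzZ]
    rw [hhalf z hz1, mul_assoc, inv_mul_cancel₀ (hprod0 _ z hzZ), mul_one]

end Vale.Agent.P205.TI
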