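import Vale.Agent.P205.TI.Defs

/-!
P205, block TI: `recentre` (DL3) and `kill_factor` (DL4).
-/

open scoped Manifold ContDiff Topology
open Set Module

noncomputable section

namespace Vale.Agent.P205.TI

theorem dl3_contDiff_st (b : Bool) : ContDiff ℝ ∞ (st b) := by
  cases b
  · exact Complex.conjCLE.contDiff
  · exact contDiff_id

theorem dl3_st_eq_zero {b : Bool} {z : ℂ} (h : st b z = 0) : z = 0 := by
  cases b
  · simpa [st] using h
  · simpa [st] using h

/-- a radial cut-off -/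
theorem dl3_cutoff (c : ℂ) {s r : ℝ} (hs : 0 < s) (hsr : s < r) : ∃ th : ℂ → ℝ, ContDiff ℝ ∞ th ∧
    (∀ z, 0 ≤ th z) ∧ (∀ z, th z ≤ 1) ∧ (∀ z, ‖z - c‖ ≤ s → th z = 0) ∧
    ∀ z, r ≤ ‖z - c‖ → th z = 1 := by
  have hd : 0 < r ^ 2 - s ^ 2 := by nlinarith
  refine ⟨fun z => Real.smoothTransition ((‖z - c‖ ^ 2 - s ^ 2) / (r ^ 2 - s ^ 2)), ?_,
    fun z => Real.smoothTransition.nonneg _, fun z => Real.smoothTransition.le_one _, ?_, ?_⟩
  · refine Real.smoothTransition.contDiff.comp ?_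
    have h1 : ContDiff ℝ ∞ fun z : ℂ => ‖z - c‖ ^ 2 :=
      (contDiff_norm_sq ℝ).comp (contDiff_id.sub contDiff_const)
    exact (h1.sub contDiff_const).div_const _
  · intro z hz
    refine Real.smoothTransition.zero_of_nonpos ?_
    have : ‖z - c‖ ^ 2 ≤ s ^ 2 := by
      have := norm_nonneg (z - c)
      nlinarith
    exact div_nonpos_of_nonpos_of_nonneg (by linarith) hd.le
  · intro z hz
    refine Real.smoothTransition.one_of_one_le ?_
    rw [le_div_iff₀ hd]
    have : r ^ 2 ≤ ‖z - c‖ ^ 2 := by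
      have : 0 < r := hs.trans hsr
      nlinarith
    linarith

/-- DL3: one pair is re-centred -/
theorem recentre (a a' c : ℂ) (b b' : Bool) (ha : ‖a‖ < 1 / 2) (ha' : ‖a'‖ < 1 / 2)
    (hc : ‖c‖ < 1 / 2) : ∃ T : ℂ → ℂ, ContDiff ℝ ∞ T ∧
      (∀ z, 11 / 16 ≤ ‖z‖ → T z = st b (z - a) * st b' (z - a')) ∧
      (∀ z, ‖z‖ ≤ 5 / 8 → T z = st b (z - c) * st b' (z - c)) ∧
      ∀ z, T z = 0 → z = c := by
  obtain ⟨th, hth, h0, h1, hin, hout⟩ := dl3_cutoff 0 (s := 5 / 8) (r := 11 / 16) (by norm_num)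
    (by norm_num)
  simp only [sub_zero] at hin hout
  have hsm : ∀ x : ℂ, ContDiff ℝ ∞ fun z : ℂ => z - (c + (th z : ℂ) * (x - c)) := by
    intro x
    have h2 : ContDiff ℝ ∞ fun z : ℂ => (th z : ℂ) := Complex.ofRealCLM.contDiff.comp hth
    exact contDiff_id.sub (contDiff_const.add (h2.mul contDiff_const))
  have hz : ∀ x : ℂ, ‖x‖ < 1 / 2 → ∀ z : ℂ, z - (c + (th z : ℂ) * (x - c)) = 0 → z = c := by
    intro x hx z hzz
    have e1 : z = ((1 - th z : ℝ) : ℂ) * c + ((th z : ℝ) : ℂ) * x := by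
      have := sub_eq_zero.1 hzz
      push_cast
      rw [this]
      have h3 : th (c + ↑(th z) * (x - c)) = th z := by rw [← this]
      rw [h3]
      ring
    have e2 : ‖z‖ ≤ (1 - th z) * ‖c‖ + th z * ‖x‖ := by
      calc ‖z‖ = ‖((1 - th z : ℝ) : ℂ) * c + ((th z : ℝ) : ℂ) * x‖ := by rw [← e1]
        _ ≤ ‖((1 - th z : ℝ) : ℂ) * c‖ + ‖((th z : ℝ) : ℂ) * x‖ := norm_add_le _ _
        _ = (1 - th z) * ‖c‖ + th z * ‖x‖ := by
            rw [norm_mul, norm_mul, Complex.norm_real, Complex.norm_real, Real.norm_eq_abs,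
              Real.norm_eq_abs, abs_of_nonneg (by linarith [h1 z]), abs_of_nonneg (h0 z)]
    have e3 : ‖z‖ ≤ 5 / 8 := by
      have h4 := h0 z
      have h5 := h1 z
      nlinarith [norm_nonneg c, norm_nonneg x]
    have e4 := hin z e3
    rw [e4] at hzz
    simpa [sub_eq_zero] using hzz
  refine ⟨fun z => st b (z - (c + (th z : ℂ) * (a - c))) * st b' (z - (c + (th z : ℂ) * (a' - c))),
    ((dl3_contDiff_st b).comp (hsm a)).mul ((dl3_contDiff_st b').comp (hsm a')), ?_, ?_, ?_⟩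
  · intro z hz1
    simp only [hout z hz1, Complex.ofReal_one, one_mul, add_sub_cancel]
  · intro z hz1
    simp only [hin z hz1, Complex.ofReal_zero, zero_mul, add_zero]
  · intro z hz1
    rcases mul_eq_zero.1 hz1 with h | h
    · exact hz a ha z (dl3_st_eq_zero h)
    · exact hz a' ha' z (dl3_st_eq_zero h)

/-- DL4: a nonvanishing factor can be made constant `1` near a point -/
theorem kill_factor {w : ℂ → ℂ} (hw : ContDiff ℝ ∞ w) {c : ℂ} {ε : ℝ} (hε : 0 < ε)
    (hc : ∀ z, ‖z - c‖ < ε → w z ≠ 0) : ∃ (w' : ℂ → ℂ) (δ : ℝ), 0 < δ ∧ δ < ε ∧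
      ContDiff ℝ ∞ w' ∧ (∀ z, ‖z - c‖ < δ → w' z = 1) ∧ (∀ z, ε ≤ ‖z - c‖ → w' z = w z) ∧
      ∀ z, ‖z - c‖ < ε → w' z ≠ 0 := by
  have hwc : w c ≠ 0 := hc c (by simpa using hε)
  -- the quotient stays in the slit plane
  have hnear : ∀ᶠ z in 𝓝 c, w z / w c ∈ Complex.slitPlane := by
    have h1 : ContinuousAt (fun z => w z / w c) c :=
      (hw.continuous.div_const _).continuousAt
    refine h1.eventually_mem ?_
    refine Complex.isOpen_slitPlane.mem_nhds ?_
    simp only [div_self hwc]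
    exact Complex.one_mem_slitPlane
  obtain ⟨r0, hr0, hr0'⟩ := Metric.eventually_nhds_iff_ball.1 hnear
  set r : ℝ := min r0 ε with hr
  have hrpos : 0 < r := lt_min hr0 hε
  have hslit : ∀ z, ‖z - c‖ < r → w z / w c ∈ Complex.slitPlane := by
    intro z hz
    exact hr0' z (by rw [Metric.mem_ball, dist_eq_norm]; exact hz.trans_le (min_le_left _ _))
  obtain ⟨th, hth, h0, h1, hin, hout⟩ := dl3_cutoff c (s := r / 3) (r := 2 * r / 3) (by positivity)
    (by linarith)
  set G : ℂ → ℂ := fun z => Complex.exp ((th z : ℂ) * (Complex.log (w z / w c) + Complex.log (w c)))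
    with hG
  have hGsm : ∀ z, ‖z - c‖ < r → ContDiffAt ℝ ∞ G z := by
    intro z hz
    have h2 : ContDiffAt ℝ ∞ (fun z : ℂ => (th z : ℂ)) z :=
      (Complex.ofRealCLM.contDiff.comp hth).contDiffAt
    have h3 : ContDiffAt ℝ ∞ (fun z : ℂ => w z / w c) z :=
      (hw.div_const _).contDiffAt
    have h4 : ContDiffAt ℝ ∞ Complex.log (w z / w c) :=
      (Complex.contDiffAt_log (hslit z hz)).restrict_scalars ℝ
    have h5 : ContDiffAt ℝ ∞ (fun z : ℂ => Complex.log (w z / w c)) z :=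
      ContDiffAt.comp (g := Complex.log) (f := fun z : ℂ => w z / w c) z h4 h3
    exact (h2.mul (h5.add contDiffAt_const)).cexp
  have hGw : ∀ z, ‖z - c‖ < r → 2 * r / 3 ≤ ‖z - c‖ → G z = w z := by
    intro z hz hz2
    have h2 : w z / w c ≠ 0 := Complex.slitPlane_ne_zero (hslit z hz)
    simp only [hG, hout z hz2, Complex.ofReal_one, one_mul]
    rw [Complex.exp_add, Complex.exp_log h2, Complex.exp_log hwc, div_mul_cancel₀ _ hwc]
  classical
  refine ⟨fun z => if ‖z - c‖ < r then G z else w z, r / 3, by positivity, ?_, ?_, ?_, ?_, ?_⟩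
  · have : r ≤ ε := min_le_right _ _
    linarith
  · rw [contDiff_iff_contDiffAt]
    intro z
    have hcont : Continuous fun z : ℂ => ‖z - c‖ := (continuous_id.sub continuous_const).norm
    by_cases hz : ‖z - c‖ < r
    · refine (hGsm z hz).congr_of_eventuallyEq ?_
      filter_upwards [hcont.continuousAt.eventually_lt continuousAt_const hz] with y hy
      exact if_pos hy
    · refine hw.contDiffAt.congr_of_eventuallyEq ?_
      have hz2 : 2 * r / 3 < ‖z - c‖ := by
        have := not_lt.1 hz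
        linarith
      filter_upwards [continuousAt_const.eventually_lt hcont.continuousAt hz2] with y hy
      by_cases hy2 : ‖y - c‖ < r
      · simp only [if_pos hy2]
        exact hGw y hy2 hy.le
      · exact if_neg hy2
  · intro z hz
    have hz2 : ‖z - c‖ < r := by linarith
    simp only [if_pos hz2, hG, hin z hz.le, Complex.ofReal_zero, zero_mul, Complex.exp_zero]
  · intro z hz
    have : r ≤ ε := min_le_right _ _
    exact if_neg (not_lt.2 (this.trans hz))
  · intro z hz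
    by_cases hz2 : ‖z - c‖ < r
    · simp only [if_pos hz2, hG]
      exact Complex.exp_ne_zero _
    · simp only [if_neg hz2]
      exact hc z hz

end Vale.Agent.P205.TI
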