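import Vale.Agent.P205.TI.DL2
import Vale.Agent.P205.TI.DL3

/-!
P205, block TI, DL5 (helper969): the result of the function theory, from DL2 (`factor`),
DL3 (`recentre`), DL4 (`kill_factor`).
-/

open scoped Manifold ContDiff Topology
open Set Module

noncomputable section

namespace Vale.Agent.P205.TI

lemma dl5_contDiff_st (b : Bool) : ContDiff ℝ ∞ (st b) := by
  cases b
  · have : st false = fun z => (starRingEnd ℂ) z := by
      funext z
      simp [st]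
    rw [this]
    exact Complex.conjCLE.contDiff
  · have : st true = fun z => z := by
      funext z
      simp [st]
    rw [this]
    exact contDiff_id

/-- A finite set with an even number of elements splits in pairs. -/
lemma dl5_pairing (r : ℝ) (m : ℕ) : ∀ Z : Finset ℂ, Z.card = 2 * m → (∀ a ∈ Z, ‖a‖ < r) →
    ∃ a a' : Fin m → ℂ, (∀ k, ‖a k‖ < r) ∧ (∀ k, ‖a' k‖ < r) ∧
      ∀ φ : ℂ → ℂ, ∏ x ∈ Z, φ x = ∏ k, φ (a k) * φ (a' k) := by
  induction m with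
  | zero =>
    intro Z hZ _
    have : Z = ∅ := Finset.card_eq_zero.1 (by simpa using hZ)
    subst this
    exact ⟨Fin.elim0, Fin.elim0, fun k => k.elim0, fun k => k.elim0, fun φ => by simp⟩
  | succ m ih =>
    intro Z hZ hr
    obtain ⟨x, hx⟩ : Z.Nonempty := by
      rw [← Finset.card_pos]
      omega
    have h1 : (Z.erase x).card = 2 * m + 1 := by
      rw [Finset.card_erase_of_mem hx]
      omega
    obtain ⟨y, hy⟩ : (Z.erase x).Nonempty := by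
      rw [← Finset.card_pos]
      omega
    have h2 : ((Z.erase x).erase y).card = 2 * m := by
      rw [Finset.card_erase_of_mem hy]
      omega
    obtain ⟨a, a', ha, ha', hφ⟩ := ih _ h2 fun z hz =>
      hr z (Finset.mem_of_mem_erase (Finset.mem_of_mem_erase hz))
    refine ⟨Fin.cons x a, Fin.cons y a', ?_, ?_, ?_⟩
    · intro k
      refine Fin.cases ?_ (fun j => ?_) k
      · simpa using hr x hx
      · simpa using ha j
    · intro k
      refine Fin.cases ?_ (fun j => ?_) k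
      · simpa using hr y (Finset.mem_of_mem_erase hy)
      · simpa using ha' j
    · intro φ
      rw [Fin.prod_univ_succ]
      simp only [Fin.cons_zero, Fin.cons_succ]
      rw [← hφ φ, ← Finset.mul_prod_erase Z φ hx, ← Finset.mul_prod_erase (Z.erase x) φ hy]
      ring

lemma dl5_small {m : ℕ} (f : Fin m → ℝ) (hf : ∀ k, 0 < f k) {ε : ℝ} (hε : 0 < ε) :
    ∃ δ : ℝ, 0 < δ ∧ δ < ε ∧ ∀ k, δ ≤ f k := by
  have h1 : ∀ᶠ δ in 𝓝[>] (0 : ℝ), ∀ k, δ ≤ f k := by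
    rw [Filter.eventually_all]
    intro k
    filter_upwards [Ioo_mem_nhdsGT (hf k)] with δ hδ using hδ.2.le
  have h2 : ∀ᶠ δ in 𝓝[>] (0 : ℝ), 0 < δ ∧ δ < ε := by
    filter_upwards [Ioo_mem_nhdsGT hε] with δ hδ using hδ
  obtain ⟨δ, h3, h4⟩ := (h1.and h2).exists
  exact ⟨δ, h4.1, h4.2, h3⟩

/-- One pair: for opposite signs the zero is removed, for equal signs nothing happens. -/
lemma dl5_factor {T : ℂ → ℂ} (hT : ContDiff ℝ ∞ T) {b b' : Bool} (hbb : b ≠ b') {c : ℂ} {ε : ℝ}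
    (hε : 0 < ε) (hc : ∀ z, ‖z - c‖ < ε → T z = st b (z - c) * st b' (z - c))
    (h0 : ∀ z, T z = 0 → z = c) :
    ∃ T' : ℂ → ℂ, ContDiff ℝ ∞ T' ∧ (∀ z, ε ≤ ‖z - c‖ → T' z = T z) ∧ ∀ z, T' z ≠ 0 := by
  let f : ContDiffBump c := ⟨ε / 2, ε, by positivity, by linarith⟩
  refine ⟨fun z => T z + ((f z : ℝ) : ℂ), ?_, ?_, ?_⟩
  · exact hT.add (Complex.ofRealCLM.contDiff.comp f.contDiff)
  · intro z hz
    have : f z = 0 := f.zero_of_le_dist (by rw [dist_eq_norm]; exact hz)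
    simp [this]
  · intro z hz
    rcases lt_or_ge ‖z - c‖ ε with h | h
    · have hpos : 0 < f z := f.pos_of_mem_ball (by rw [Metric.mem_ball, dist_eq_norm]; exact h)
      have hTz : T z = ((Complex.normSq (z - c) : ℝ) : ℂ) := by
        rw [hc z h]
        cases b <;> cases b'
        · exact absurd rfl hbb
        · simp only [st, if_true, Bool.false_eq_true, if_false]
          rw [mul_comm, Complex.mul_conj]
        · simp only [st, if_true, Bool.false_eq_true, if_false]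
          rw [Complex.mul_conj]
        · exact absurd rfl hbb
      simp only [hTz] at hz
      have h1 : (Complex.normSq (z - c) + f z : ℝ) = 0 := by exact_mod_cast hz
      have h2 := Complex.normSq_nonneg (z - c)
      linarith
    · have hf : f z = 0 := f.zero_of_le_dist (by rw [dist_eq_norm]; exact h)
      have hTz : T z = 0 := by simpa [hf] using hz
      rw [h0 z hTz] at h
      simp only [sub_self, norm_zero] at h
      linarith

theorem sigma_final_of {σ : ℂ → ℂ}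
    (hfac : ∃ (Z : Finset ℂ) (b : ℂ → Bool) (g : ℂ → ℂ), (∀ z, z ∈ Z ↔ σ z = 0 ∧ ‖z‖ ≤ 1) ∧
      ContDiff ℝ ∞ g ∧ (∀ z, ‖z‖ ≤ 1 → g z ≠ 0) ∧
      ∀ z, 1 / 2 ≤ ‖z‖ → ‖z‖ ≤ 1 → σ z = g z * ∏ a ∈ Z, st (b a) (z - a))
    (hrec : ∀ (a a' c : ℂ) (b b' : Bool), ‖a‖ < 1 / 2 → ‖a'‖ < 1 / 2 → ‖c‖ < 1 / 2 →
      ∃ T : ℂ → ℂ, ContDiff ℝ ∞ T ∧
      (∀ z, 11 / 16 ≤ ‖z‖ → T z = st b (z - a) * st b' (z - a')) ∧
      (∀ z, ‖z‖ ≤ 5 / 8 → T z = st b (z - c) * st b' (z - c)) ∧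
      ∀ z, T z = 0 → z = c)
    (hkill : ∀ w : ℂ → ℂ, ContDiff ℝ ∞ w → ∀ (c : ℂ) (ε : ℝ), 0 < ε →
      (∀ z, ‖z - c‖ < ε → w z ≠ 0) → ∃ (w' : ℂ → ℂ) (δ : ℝ), 0 < δ ∧ δ < ε ∧
      ContDiff ℝ ∞ w' ∧ (∀ z, ‖z - c‖ < δ → w' z = 1) ∧ (∀ z, ε ≤ ‖z - c‖ → w' z = w z) ∧
      ∀ z, ‖z - c‖ < ε → w' z ≠ 0)
    (hz : ∀ z, σ z = 0 → ‖z‖ ≤ 1 → ‖z‖ < 1 / 2)
    (heven : Even {z | σ z = 0 ∧ ‖z‖ ≤ 1}.ncard) :
    ∃ (J : Finset ℂ) (b : ℂ → Bool) (δ : ℝ) (τ : ℂ → ℂ), 0 < δ ∧ ContDiff ℝ ∞ τ ∧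
      (∀ z, 11 / 16 ≤ ‖z‖ → ‖z‖ ≤ 1 → τ z = σ z) ∧ (∀ c ∈ J, ‖c‖ < 1 / 2) ∧ δ < 1 / 8 ∧
      (∀ c ∈ J, ∀ c' ∈ J, c ≠ c' → 2 * δ < ‖c - c'‖) ∧
      (∀ c ∈ J, ∀ z, ‖z - c‖ < δ → τ z = st (b c) (z - c) ^ 2) ∧
      ∀ z, ‖z‖ ≤ 1 → τ z = 0 → z ∈ J := by
  classical
  obtain ⟨Z, b, g, hZ, hg, hg0, hfz⟩ := hfac
  have hset : {z | σ z = 0 ∧ ‖z‖ ≤ 1} = (Z : Set ℂ) := by
    ext z
    rw [Finset.mem_coe, hZ]
    rfl
  rw [hset, Set.ncard_coe_finset] at heven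
  obtain ⟨m, hm⟩ := heven
  obtain ⟨a, a', ha, ha', hprod⟩ := dl5_pairing (1 / 2) m Z (by omega) fun z hzZ =>
    hz z ((hZ z).1 hzZ).1 ((hZ z).1 hzZ).2
  -- the centres
  set M : ℝ := (m : ℝ) + 1 with hM
  have hM0 : 0 < M := by positivity
  have hM1 : 1 ≤ M := by rw [hM]; linarith [Nat.cast_nonneg (α := ℝ) m]
  set c : Fin m → ℂ := fun k => (((k : ℕ) : ℝ) / (2 * M) : ℝ) with hc
  set ε : ℝ := 1 / (8 * M) with hε
  have hε0 : 0 < ε := by positivity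
  have hε1 : ε ≤ 1 / 8 := by
    rw [hε]
    exact one_div_le_one_div_of_le (by norm_num) (by linarith)
  have hcn : ∀ k, ‖c k‖ < 1 / 2 := by
    intro k
    have hk : ((k : ℕ) : ℝ) < M := by
      have : ((k : ℕ) : ℝ) < (m : ℝ) := by exact_mod_cast k.2
      rw [hM]
      linarith
    simp only [hc]
    rw [Complex.norm_real, Real.norm_of_nonneg (by positivity), div_lt_iff₀ (by positivity)]
    linarith
  have hcd : ∀ j k, j ≠ k → 4 * ε ≤ ‖c j - c k‖ := by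
    intro j k hjk
    simp only [hc]
    rw [← Complex.ofReal_sub, Complex.norm_real, Real.norm_eq_abs, ← sub_div, abs_div,
      abs_of_pos (show (0 : ℝ) < 2 * M by positivity), le_div_iff₀ (by positivity)]
    have h1 : (1 : ℝ) ≤ |((j : ℕ) : ℝ) - ((k : ℕ) : ℝ)| := by
      have h2 : ((j : ℕ) : ℤ) ≠ ((k : ℕ) : ℤ) := fun h => hjk (Fin.ext (by exact_mod_cast h))
      have h3 : (1 : ℤ) ≤ |((j : ℕ) : ℤ) - ((k : ℕ) : ℤ)| := Int.one_le_abs (sub_ne_zero.2 h2)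
      exact_mod_cast h3
    have h4 : 4 * ε * (2 * M) = 1 := by
      rw [hε]
      field_simp
      norm_num
    rw [h4]
    exact h1
  have hcinj : Function.Injective c := by
    intro j k hjk
    by_contra hne
    have := hcd j k hne
    rw [hjk, sub_self, norm_zero] at this
    linarith
  have hball : ∀ k z, ‖z - c k‖ < ε → ‖z‖ < 5 / 8 := by
    intro k z h
    have h1 : ‖z‖ ≤ ‖z - c k‖ + ‖c k‖ := by
      have := norm_add_le (z - c k) (c k)
      simpa using this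
    linarith [hcn k]
  have hout : ∀ j k z, j ≠ k → ‖z - c k‖ < ε → ε ≤ ‖z - c j‖ := by
    intro j k z hjk h
    have h1 := hcd j k hjk
    have h2 : ‖c j - c k‖ ≤ ‖z - c j‖ + ‖z - c k‖ := by
      have : c j - c k = -(z - c j) + (z - c k) := by ring
      rw [this]
      refine (norm_add_le _ _).trans ?_
      rw [norm_neg]
    linarith
  have hfar : ∀ k z, 11 / 16 ≤ ‖z‖ → ε ≤ ‖z - c k‖ := by
    intro k z h
    by_contra hlt
    have := hball k z (not_le.1 hlt)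
    linarith
  -- the pairs
  choose T hT hT1 hT2 hT3 using fun k => hrec (a k) (a' k) (c k) (b (a k)) (b (a' k)) (ha k)
    (ha' k) (hcn k)
  have hT2' : ∀ k z, ‖z - c k‖ < ε → T k z = st (b (a k)) (z - c k) * st (b (a' k)) (z - c k) :=
    fun k z h => hT2 k z (hball k z h).le
  have hU : ∀ k, ∃ U : ℂ → ℂ, ContDiff ℝ ∞ U ∧ (∀ z, ε ≤ ‖z - c k‖ → U z = T k z) ∧
      (b (a k) ≠ b (a' k) → ∀ z, U z ≠ 0) ∧ (b (a k) = b (a' k) → U = T k) := by
    intro k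
    by_cases hbb : b (a k) = b (a' k)
    · exact ⟨T k, hT k, fun z _ => rfl, fun h => absurd hbb h, fun _ => rfl⟩
    · obtain ⟨T', h1, h2, h3⟩ := dl5_factor (hT k) hbb hε0 (hT2' k) (hT3 k)
      exact ⟨T', h1, h2, fun _ => h3, fun h => absurd h hbb⟩
  choose U hU1 hU2 hU3 hU4 using hU
  set I : Finset (Fin m) := Finset.univ.filter fun k => b (a k) = b (a' k) with hI
  have hUI : ∀ k ∈ I, U k = T k := fun k hk => hU4 k (Finset.mem_filter.1 hk).2
  have hU0 : ∀ k z, U k z = 0 → k ∈ I ∧ z = c k := by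
    intro k z h
    by_cases hbb : b (a k) = b (a' k)
    · refine ⟨Finset.mem_filter.2 ⟨Finset.mem_univ _, hbb⟩, hT3 k z ?_⟩
      rw [← hU4 k hbb]
      exact h
    · exact absurd h (hU3 k hbb z)
  -- the other factors
  set W : Fin m → ℂ → ℂ := fun k z => g z * ∏ j ∈ Finset.univ.erase k, U j z with hW
  have hWs : ∀ k, ContDiff ℝ ∞ (W k) := by
    intro k
    exact hg.mul (contDiff_prod fun j _ => hU1 j)
  have hW0 : ∀ k z, ‖z - c k‖ < ε → W k z ≠ 0 := by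
    intro k z h
    have hz1 : ‖z‖ ≤ 1 := by linarith [hball k z h]
    refine mul_ne_zero (hg0 z hz1) (Finset.prod_ne_zero_iff.2 fun j hj h0 => ?_)
    have hjk : j ≠ k := (Finset.mem_erase.1 hj).1
    have h1 := hout j k z hjk h
    rw [(hU0 j z h0).2, sub_self, norm_zero] at h1
    linarith
  choose W' d hd hdε hW's hW'1 hW'2 hW'0 using fun k =>
    hkill (W k) (hWs k) (c k) ε hε0 (hW0 k)
  obtain ⟨δ, hδ, hδε, hδd⟩ := dl5_small d hd hε0
  have hWU : ∀ k z, W k z * U k z = g z * ∏ j, U j z := by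
    intro k z
    simp only [hW]
    rw [mul_assoc, Finset.prod_erase_mul _ _ (Finset.mem_univ k)]
  set τ : ℂ → ℂ := fun z => g z * ∏ j, U j z + ∑ k ∈ I, (W' k z - W k z) * U k z with hτ
  have hτs : ContDiff ℝ ∞ τ := by
    refine (hg.mul (contDiff_prod fun j _ => hU1 j)).add (ContDiff.sum fun k _ => ?_)
    exact ((hW's k).sub (hWs k)).mul (hU1 k)
  have hτout : ∀ z, (∀ k ∈ I, ε ≤ ‖z - c k‖) → τ z = g z * ∏ j, U j z := by
    intro z h
    simp only [hτ]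
    rw [Finset.sum_eq_zero, add_zero]
    intro k hk
    rw [hW'2 k z (h k hk), sub_self, zero_mul]
  have hτin : ∀ k ∈ I, ∀ z, ‖z - c k‖ < ε → τ z = W' k z * T k z := by
    intro k hk z h
    simp only [hτ]
    rw [Finset.sum_eq_single_of_mem k hk, sub_mul, hWU k z, hUI k hk]
    · ring
    · intro j _ hjk
      rw [hW'2 j z (hout j k z hjk h), sub_self, zero_mul]
  refine ⟨I.image c, Function.extend c (fun k => b (a k)) (fun _ => true), δ, τ, hδ, hτs,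
    ?_, ?_, lt_of_lt_of_le hδε hε1, ?_, ?_, ?_⟩
  · intro z h1 h2
    rw [hτout z fun k _ => hfar k z h1, hfz z (by linarith) h2,
      hprod fun x => st (b x) (z - x)]
    congr 1
    refine Finset.prod_congr rfl fun k _ => ?_
    rw [hU2 k z (hfar k z h1), hT1 k z h1]
  · intro x hx
    obtain ⟨k, _, rfl⟩ := Finset.mem_image.1 hx
    exact hcn k
  · intro x hx y hy hxy
    obtain ⟨k, _, rfl⟩ := Finset.mem_image.1 hx
    obtain ⟨j, _, rfl⟩ := Finset.mem_image.1 hy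
    have h1 := hcd k j fun h => hxy (by rw [h])
    linarith
  · intro x hx z h
    obtain ⟨k, hk, rfl⟩ := Finset.mem_image.1 hx
    rw [hcinj.extend_apply, hτin k hk z (h.trans hδε), hW'1 k z (lt_of_lt_of_le h (hδd k)),
      hT2' k z (h.trans hδε), ← (Finset.mem_filter.1 hk).2]
    ring
  · intro z hz1 h0
    by_cases hin : ∃ k ∈ I, ‖z - c k‖ < ε
    · obtain ⟨k, hk, h⟩ := hin
      rw [hτin k hk z h] at h0
      rcases mul_eq_zero.1 h0 with h0 | h0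
      · exact absurd h0 (hW'0 k z h)
      · exact Finset.mem_image.2 ⟨k, hk, (hT3 k z h0).symm⟩
    · push_neg at hin
      rw [hτout z hin] at h0
      rcases mul_eq_zero.1 h0 with h0 | h0
      · exact absurd h0 (hg0 z hz1)
      · obtain ⟨k, _, h1⟩ := Finset.prod_eq_zero_iff.1 h0
        obtain ⟨hk, h2⟩ := hU0 k z h1
        exact Finset.mem_image.2 ⟨k, hk, h2.symm⟩

/-- DL5: the result of the function theory -/
theorem sigma_final {σ : ℂ → ℂ} (hσ : ContDiff ℝ ∞ σ)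
    (hz : ∀ z, σ z = 0 → ‖z‖ ≤ 1 → ‖z‖ < 1 / 2)
    (hn : ∀ z, σ z = 0 → ‖z‖ ≤ 1 → Function.Injective (fderiv ℝ σ z))
    (heven : Even {z | σ z = 0 ∧ ‖z‖ ≤ 1}.ncard) :
    ∃ (J : Finset ℂ) (b : ℂ → Bool) (δ : ℝ) (τ : ℂ → ℂ), 0 < δ ∧ ContDiff ℝ ∞ τ ∧
      (∀ z, 11 / 16 ≤ ‖z‖ → ‖z‖ ≤ 1 → τ z = σ z) ∧ (∀ c ∈ J, ‖c‖ < 1 / 2) ∧ δ < 1 / 8 ∧
      (∀ c ∈ J, ∀ c' ∈ J, c ≠ c' → 2 * δ < ‖c - c'‖) ∧
      (∀ c ∈ J, ∀ z, ‖z - c‖ < δ → τ z = st (b c) (z - c) ^ 2) ∧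
      ∀ z, ‖z‖ ≤ 1 → τ z = 0 → z ∈ J :=
  sigma_final_of (factor hσ hz hn) recentre
    (fun w hw c ε hε hc => kill_factor hw hε hc) hz heven

end Vale.Agent.P205.TI
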