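import Mathlib

/-!
P205, block TI (helper259): every compact T2 smooth 2-manifold has a smooth immersion in `ℝ⁴` with
a nowhere zero smooth normal field.  Definitions.
-/

open scoped Manifold ContDiff Topology
open Set Module

noncomputable section

namespace Vale.Agent.P205.TI

/-! ## Definitions (file `Vale/Agent/P205/TI/Defs.lean`) -/

abbrev V4 := EuclideanSpace ℝ (Fin 4)

section Mfd

variable (E : Type*) [NormedAddCommGroup E] [NormedSpace ℝ E]
  {M : Type*} [TopologicalSpace M] [ChartedSpace E M]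

/-- smooth immersion in `ℝ⁴` -/
structure Imm (f : M → V4) : Prop where
  sm : ContMDiff 𝓘(ℝ, E) 𝓘(ℝ, V4) ∞ f
  inj : ∀ p, Function.Injective (mfderiv 𝓘(ℝ, E) 𝓘(ℝ, V4) f p)

/-- smooth normal field along `f` -/
structure Nrm (f s : M → V4) : Prop where
  sm : ContMDiff 𝓘(ℝ, E) 𝓘(ℝ, V4) ∞ s
  perp : ∀ (p : M) (v : E), inner ℝ (s p) ((mfderiv 𝓘(ℝ, E) 𝓘(ℝ, V4) f p : E →L[ℝ] V4) v) = 0

/-- all zeros of `s` are nondegenerate -/
def NDeg (s : M → V4) : Prop :=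
  ∀ p, s p = 0 → Function.Injective (mfderiv 𝓘(ℝ, E) 𝓘(ℝ, V4) s p)

end Mfd

/-- the inner product of `ℂ × ℂ = ℝ⁴` -/
def ip (a b : ℂ × ℂ) : ℝ :=
  a.1.re * b.1.re + a.1.im * b.1.im + (a.2.re * b.2.re + a.2.im * b.2.im)

/-- the vector `(·, w)` normal to the graph `z ↦ (z, F z)` -/
def nrm (F : ℂ → ℂ) (w z : ℂ) : ℂ × ℂ :=
  (⟨-(w.re * (fderiv ℝ F z 1).re + w.im * (fderiv ℝ F z 1).im),
    -(w.re * (fderiv ℝ F z Complex.I).re + w.im * (fderiv ℝ F z Complex.I).im)⟩, w)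

/-- `z` or its conjugate -/
def st (b : Bool) (z : ℂ) : ℂ := if b then z else (starRingEnd ℂ) z

end Vale.Agent.P205.TI
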