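import Mathlib

/-!
P205, block TI: smooth signed degree integral (copied from the degree part of
`Vale/Agent/P228/Bdl/B1.lean`, namespace renamed).
-/

set_option linter.all false

section

open MeasureTheory Matrix Set Topology

namespace Vale.Agent.P205.TI.Deg

/-- The determinant as a continuous multilinear function of the rows. -/
noncomputable def detC (n : ℕ) : ContinuousMultilinearMap ℝ (fun _ : Fin n => (Fin n → ℝ)) ℝ :=
  { toMultilinearMap := (Matrix.detRowAlternating : (Fin n → ℝ) [⋀^Fin n]→ₗ[ℝ] ℝ).toMultilinearMap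
    cont := by
      have : Continuous fun a : Fin n → (Fin n → ℝ) => Matrix.det (Matrix.of a) := by
        apply Continuous.matrix_det
        exact continuous_id
      exact this }

lemma detC_apply (n : ℕ) (a : Fin n → (Fin n → ℝ)) : detC n a = Matrix.det (Matrix.of a) := rfl

lemma detC_swap {n : ℕ} (a : Fin n → (Fin n → ℝ)) {i j : Fin n} (hij : i ≠ j) :
    detC n (a ∘ Equiv.swap i j) = - detC n a :=
  (Matrix.detRowAlternating : (Fin n → ℝ) [⋀^Fin n]→ₗ[ℝ] ℝ).map_swap a hij

variable {n : ℕ}

/-- rows of the (transposed) Jacobian matrix -/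
noncomputable def rows (f : (Fin n → ℝ) → (Fin n → ℝ)) (x : Fin n → ℝ) : Fin n → (Fin n → ℝ) :=
  fun j => fderiv ℝ f x (Pi.single j 1)

lemma det_fderiv_eq (f : (Fin n → ℝ) → (Fin n → ℝ)) (x : Fin n → ℝ) :
    (fderiv ℝ f x).det = detC n (rows f x) := by
  rw [detC_apply, ContinuousLinearMap.det, ← LinearMap.det_toMatrix', ← Matrix.det_transpose]
  congr 1

lemma cramer_rows (a : Fin n → (Fin n → ℝ)) (u : Fin n → ℝ) :
    ∑ j, detC n (Function.update a j u) • a j = detC n a • u := by
  have h := Matrix.mulVec_cramer (Matrix.of a)ᵀ u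
  rw [Matrix.det_transpose] at h
  ext k
  have hk := congrFun h k
  simp only [Matrix.mulVec, dotProduct, Matrix.transpose_apply, Matrix.of_apply,
    Matrix.cramer_transpose_apply] at hk
  simp only [Finset.sum_apply, Pi.smul_apply, smul_eq_mul, detC_apply]
  rw [Pi.smul_apply, smul_eq_mul] at hk
  rw [← hk]
  refine Finset.sum_congr rfl fun j _ => ?_
  rw [mul_comm]
  rfl

lemma hasFDerivAt_rows {f : (Fin n → ℝ) → (Fin n → ℝ)} (hf : ContDiff ℝ 2 f) (x : Fin n → ℝ)
    (i : Fin n) :
    HasFDerivAt (fun y => rows f y i)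
      ((ContinuousLinearMap.apply ℝ (Fin n → ℝ) (Pi.single i (1 : ℝ))).comp
        (fderiv ℝ (fderiv ℝ f) x)) x := by
  have h1 : HasFDerivAt (fderiv ℝ f) (fderiv ℝ (fderiv ℝ f) x) x := by
    have : ContDiff ℝ 1 (fderiv ℝ f) := hf.fderiv_right (by norm_num)
    exact (this.differentiable (by norm_num) x).hasFDerivAt
  exact (ContinuousLinearMap.apply ℝ (Fin n → ℝ) (Pi.single i (1 : ℝ))).hasFDerivAt.comp x h1

/-- antisymmetric double sums vanish -/
lemma sum_antisymm {T : Fin n → Fin n → ℝ} (hT : ∀ i j, i ≠ j → T i j = - T j i) :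
    ∑ j, ∑ i, (if i = j then 0 else T i j) = 0 := by
  have h1 : ∑ j, ∑ i, (if i = j then 0 else T i j) = ∑ j, ∑ i, (if i = j then 0 else T j i) := by
    rw [Finset.sum_comm]
    refine Finset.sum_congr rfl fun i _ => Finset.sum_congr rfl fun j _ => ?_
    by_cases h : i = j
    · simp [h]
    · simp [h, Ne.symm h]
  have h2 : ∑ j, ∑ i, (if i = j then 0 else T j i) = - ∑ j, ∑ i, (if i = j then 0 else T i j) := by
    rw [← Finset.sum_neg_distrib]
    refine Finset.sum_congr rfl fun i _ => ?_
    rw [← Finset.sum_neg_distrib]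
    refine Finset.sum_congr rfl fun j _ => ?_
    by_cases h : j = i
    · simp [h]
    · simp [h, hT i j (Ne.symm h)]
  linarith

lemma hasFDerivAt_upd {f u : (Fin n → ℝ) → (Fin n → ℝ)} (hf : ContDiff ℝ 2 f) {x : Fin n → ℝ}
    {u' : (Fin n → ℝ) →L[ℝ] (Fin n → ℝ)}
    (hu : HasFDerivAt u u' x) (j : Fin n) :
    HasFDerivAt (fun y => Function.update (rows f y) j (u y))
      (ContinuousLinearMap.pi fun i => if i = j then u' else
        ((ContinuousLinearMap.apply ℝ (Fin n → ℝ) (Pi.single i (1 : ℝ))).comp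
        (fderiv ℝ (fderiv ℝ f) x))) x := by
  rw [hasFDerivAt_pi]
  intro i
  by_cases h : i = j
  · subst h
    simpa only [Function.update_self, ↓reduceIte, hasFDerivAt_pi'] using hu
  · simpa only [ne_eq, h, not_false_eq_true, Function.update_of_ne, ↓reduceIte,
      hasFDerivAt_pi'] using hasFDerivAt_rows hf x i

lemma swap_update {a : Fin n → (Fin n → ℝ)} {u b : Fin n → ℝ} {i j : Fin n} (h : i ≠ j) :
    (Function.update (Function.update a j u) i b) ∘ Equiv.swap i j
      = Function.update (Function.update a i u) j b := by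
  funext k
  simp only [Function.comp_apply]
  by_cases hi : k = i
  · subst hi
    rw [Equiv.swap_apply_left]
    simp [h, h.symm]
  · by_cases hj : k = j
    · subst hj
      rw [Equiv.swap_apply_right]
      simp
    · rw [Equiv.swap_apply_of_ne_of_ne hi hj]
      simp [hi, hj]

/-- **Piola identity** -/
lemma piola {f u : (Fin n → ℝ) → (Fin n → ℝ)} (hf : ContDiff ℝ 2 f) {x : Fin n → ℝ}
    {u' : (Fin n → ℝ) →L[ℝ] (Fin n → ℝ)} (hu : HasFDerivAt u u' x) :
    ∑ j, fderiv ℝ (fun y => detC n (Function.update (rows f y) j (u y))) x (Pi.single j 1)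
      = ∑ j, detC n (Function.update (rows f x) j (u' (Pi.single j 1))) := by
  set B : Fin n → Fin n → (Fin n → ℝ) := fun i j =>
    fderiv ℝ (fderiv ℝ f) x (Pi.single j 1) (Pi.single i 1) with hB
  have hBs : ∀ i j, B i j = B j i := by
    intro i j
    have := (hf.contDiffAt (x := x)).isSymmSndFDerivAt (by simp)
    exact this _ _
  set a := rows f x with ha
  have key : ∀ j, fderiv ℝ (fun y => detC n (Function.update (rows f y) j (u y))) x (Pi.single j 1)
      = detC n (Function.update a j (u' (Pi.single j 1))) +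
        ∑ i, (if i = j then 0 else detC n (Function.update (Function.update a j (u x)) i (B i j))) := by
    intro j
    have h1 := ((detC n).hasFDerivAt (Function.update (rows f x) j (u x))).comp x
      (hasFDerivAt_upd hf hu j)
    have h2 : fderiv ℝ (fun y => detC n (Function.update (rows f y) j (u y))) x = _ :=
      h1.fderiv
    rw [h2]
    simp only [ContinuousLinearMap.comp_apply, ContinuousMultilinearMap.linearDeriv_apply,
      ContinuousLinearMap.pi_apply]
    rw [← Finset.add_sum_erase Finset.univ _ (Finset.mem_univ j)]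
    congr 1
    · simp [Function.update_idem, ha]
    · rw [← Finset.add_sum_erase Finset.univ (fun i => if i = j then 0 else _) (Finset.mem_univ j)]
      simp only [if_true, zero_add]
      refine Finset.sum_congr rfl fun i hi => ?_
      have hij : i ≠ j := Finset.ne_of_mem_erase hi
      simp only [if_neg hij]
      rfl
  rw [Finset.sum_congr rfl fun j _ => key j, Finset.sum_add_distrib]
  rw [sum_antisymm (T := fun i j => detC n (Function.update (Function.update a j (u x)) i (B i j)))]
  · simp only [add_zero]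
  · intro i j hij
    have h3 := detC_swap (Function.update (Function.update a j (u x)) i (B i j)) hij
    rw [swap_update hij] at h3
    rw [hBs j i, h3]
    simp

lemma contDiff_rows {f : (Fin n → ℝ) → (Fin n → ℝ)} {m k : WithTop ℕ∞} (hf : ContDiff ℝ m f)
    (hk : k + 1 ≤ m) : ContDiff ℝ k (rows f) := by
  rw [contDiff_pi]
  intro i
  exact (hf.fderiv_right hk).clm_apply contDiff_const

lemma differentiable_upd {f u : (Fin n → ℝ) → (Fin n → ℝ)} (hf : ContDiff ℝ 2 f)
    (hu : Differentiable ℝ u) (j : Fin n) :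
    Differentiable ℝ (fun y => detC n (Function.update (rows f y) j (u y))) := by
  intro x
  exact (((detC n).hasFDerivAt (Function.update (rows f x) j (u x))).comp x
      (hasFDerivAt_upd hf (hu x).hasFDerivAt j)).differentiableAt

lemma div_eq {f u : (Fin n → ℝ) → (Fin n → ℝ)} {φ : (Fin n → ℝ) → ℝ} (hf : ContDiff ℝ 2 f)
    (hu : Differentiable ℝ u) (hφ : Differentiable ℝ φ) (x : Fin n → ℝ) :
    ∑ j, fderiv ℝ (fun y => φ (f y) * detC n (Function.update (rows f y) j (u y))) x
        (Pi.single j 1)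
      = fderiv ℝ φ (f x) (u x) * detC n (rows f x)
        + φ (f x) * ∑ j, detC n (Function.update (rows f x) j (rows u x j)) := by
  have hfd : Differentiable ℝ f := hf.differentiable (by norm_num)
  have h1 : ∀ j, fderiv ℝ (fun y => φ (f y) * detC n (Function.update (rows f y) j (u y))) x
      (Pi.single j 1) = fderiv ℝ φ (f x) (detC n (Function.update (rows f x) j (u x)) • rows f x j)
        + φ (f x) * fderiv ℝ (fun y => detC n (Function.update (rows f y) j (u y))) x
          (Pi.single j 1) := by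
    intro j
    have hφf : HasFDerivAt (fun y => φ (f y)) ((fderiv ℝ φ (f x)).comp (fderiv ℝ f x)) x :=
      (hφ (f x)).hasFDerivAt.comp x (hfd x).hasFDerivAt
    have h2 : HasFDerivAt (fun y => φ (f y) * detC n (Function.update (rows f y) j (u y))) _ x :=
      hφf.mul (differentiable_upd hf hu j x).hasFDerivAt
    rw [h2.fderiv]
    simp only [_root_.add_apply, _root_.smul_apply,
      ContinuousLinearMap.comp_apply, smul_eq_mul, map_smul, rows]
    ring
  rw [Finset.sum_congr rfl fun j _ => h1 j, Finset.sum_add_distrib, ← map_sum, cramer_rows,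
    ← Finset.mul_sum, piola hf (hu x).hasFDerivAt]
  simp only [map_smul, smul_eq_mul, rows]
  ring

lemma rows_add_smul {f u : (Fin n → ℝ) → (Fin n → ℝ)} (hf : Differentiable ℝ f)
    (hu : Differentiable ℝ u) (t : ℝ) (x : Fin n → ℝ) :
    rows (fun y => f y + t • u y) x = rows f x + t • rows u x := by
  funext j
  simp only [rows, Pi.add_apply, Pi.smul_apply]
  have h : HasFDerivAt (fun y => f y + t • u y) (fderiv ℝ f x + t • fderiv ℝ u x) x :=
    (hf x).hasFDerivAt.add ((hu x).hasFDerivAt.const_smul t)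
  rw [h.fderiv]
  rfl

lemma hasDerivAt_time {f u : (Fin n → ℝ) → (Fin n → ℝ)} {φ : (Fin n → ℝ) → ℝ}
    (hf : Differentiable ℝ f)
    (hu : Differentiable ℝ u) (hφ : Differentiable ℝ φ) (x : Fin n → ℝ) (t : ℝ) :
    HasDerivAt (fun s : ℝ => φ (f x + s • u x) * detC n (rows (fun y => f y + s • u y) x))
      (fderiv ℝ φ (f x + t • u x) (u x) * detC n (rows (fun y => f y + t • u y) x)
        + φ (f x + t • u x) *
          ∑ j, detC n (Function.update (rows (fun y => f y + t • u y) x) j (rows u x j))) t := by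
  have h0 : HasDerivAt (fun s : ℝ => f x + s • u x) (u x) t := by
    simpa using ((hasDerivAt_id t).smul_const (u x)).const_add (f x)
  have h1 : HasDerivAt (fun s : ℝ => φ (f x + s • u x)) (fderiv ℝ φ (f x + t • u x) (u x)) t :=
    (hφ (f x + t • u x)).hasFDerivAt.comp_hasDerivAt t h0
  have h2 : HasDerivAt (fun s : ℝ => rows f x + s • rows u x) (rows u x) t := by
    simpa using ((hasDerivAt_id t).smul_const (rows u x)).const_add (rows f x)
  have h3 : HasDerivAt (fun s : ℝ => detC n (rows f x + s • rows u x))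
      (∑ j, detC n (Function.update (rows f x + t • rows u x) j (rows u x j))) t := by
    have := ((detC n).hasFDerivAt (rows f x + t • rows u x)).comp_hasDerivAt t h2
    rwa [ContinuousMultilinearMap.linearDeriv_apply] at this
  simp only [rows_add_smul hf hu]
  exact h1.mul h3

end Vale.Agent.P205.TI.Deg
end

section

open MeasureTheory Matrix Set Topology

namespace Vale.Agent.P205.TI.Deg

variable {n : ℕ}

lemma continuous_detC : Continuous (detC n) := (detC n).cont

/-- time derivative of the integrand -/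
noncomputable def tder (φ : (Fin n → ℝ) → ℝ) (f u : (Fin n → ℝ) → (Fin n → ℝ)) (t : ℝ)
    (x : Fin n → ℝ) : ℝ :=
  fderiv ℝ φ (f x + t • u x) (u x) * detC n (rows f x + t • rows u x)
    + φ (f x + t • u x) *
      ∑ j, detC n (Function.update (rows f x + t • rows u x) j (rows u x j))

lemma continuous_tder {φ : (Fin n → ℝ) → ℝ} {f u : (Fin n → ℝ) → (Fin n → ℝ)}
    (hφ : ContDiff ℝ 1 φ) (hf : ContDiff ℝ 2 f) (hu : ContDiff ℝ 2 u) :
    Continuous (fun q : ℝ × (Fin n → ℝ) => tder φ f u q.1 q.2) := by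
  have h1 : Continuous (rows f) := (contDiff_rows (k := 1) hf (by norm_num)).continuous
  have h2 : Continuous (rows u) := (contDiff_rows (k := 1) hu (by norm_num)).continuous
  have h3 : Continuous f := hf.continuous
  have h4 : Continuous u := hu.continuous
  have h5 : Continuous φ := hφ.continuous
  have h6 : Continuous (fderiv ℝ φ) := hφ.continuous_fderiv (by norm_num)
  have h7 : Continuous (detC n) := continuous_detC
  unfold tder
  refine Continuous.add (Continuous.mul ?_ ?_) (Continuous.mul ?_ ?_)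
  · exact (h6.comp (by fun_prop)).clm_apply (by fun_prop)
  · exact h7.comp (by fun_prop)
  · exact h5.comp (by fun_prop)
  · refine continuous_finsetSum _ fun j _ => h7.comp ?_
    refine Continuous.update (by fun_prop) j ?_
    exact (continuous_apply j).comp (h2.comp continuous_snd)

lemma integral_const_in_time {φ χ : (Fin n → ℝ) → ℝ} {f u : (Fin n → ℝ) → (Fin n → ℝ)}
    (hφ : ContDiff ℝ 1 φ) (hf : ContDiff ℝ 2 f) (hu : ContDiff ℝ 2 u)
    (hχ : ContDiff ℝ 1 χ) (hχc : HasCompactSupport χ)
    (h : ∀ t ∈ Icc (0:ℝ) 1, ∀ x, φ (f x + t • u x) ≠ 0 → fderiv ℝ χ x = 0) :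
    ∫ x, χ x * (φ (f x + u x) * detC n (rows (fun y => f y + u y) x))
      = ∫ x, χ x * (φ (f x) * detC n (rows f x)) := by
  have hfd : Differentiable ℝ f := hf.differentiable (by norm_num)
  have hud : Differentiable ℝ u := hu.differentiable (by norm_num)
  have hφd : Differentiable ℝ φ := hφ.differentiable (by norm_num)
  have c1 : Continuous (rows f) := (contDiff_rows (k := 1) hf (by norm_num)).continuous
  have c2 : Continuous (rows u) := (contDiff_rows (k := 1) hu (by norm_num)).continuous
  have c3 : Continuous f := hf.continuous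
  have c4 : Continuous u := hu.continuous
  have c5 : Continuous φ := hφ.continuous
  have c7 : Continuous (detC n) := continuous_detC
  have c8 : Continuous χ := hχ.continuous
  set G : ℝ → (Fin n → ℝ) → ℝ := fun t x =>
    χ x * (φ (f x + t • u x) * detC n (rows (fun y => f y + t • u y) x)) with hG
  set G' : ℝ → (Fin n → ℝ) → ℝ := fun t x => χ x * tder φ f u t x with hG'
  have hGcont : ∀ t, Continuous (G t) := by
    intro t
    simp only [hG, rows_add_smul hfd hud]
    exact c8.mul ((c5.comp (by fun_prop)).mul (c7.comp (by fun_prop)))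
  have hG'cont : Continuous (fun q : ℝ × (Fin n → ℝ) => G' q.1 q.2) :=
    (c8.comp continuous_snd).mul (continuous_tder hφ hf hu)
  have hderiv : ∀ t x, HasDerivAt (fun s => G s x) (G' t x) t := by
    intro t x
    have := (hasDerivAt_time hfd hud hφd x t).const_mul (χ x)
    simp only [hG, hG', tder]
    simpa only [rows_add_smul hfd hud] using this
  have hD : ∀ t, HasDerivAt (fun s => ∫ x, G s x) (∫ x, G' t x) t := by
    intro t
    have hK : IsCompact (Icc (t - 1) (t + 1) ×ˢ tsupport χ) := isCompact_Icc.prod hχc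
    obtain ⟨C, hC⟩ := hK.exists_bound_of_continuousOn hG'cont.continuousOn
    refine (hasDerivAt_integral_of_dominated_loc_of_deriv_le (μ := volume) (F := G) (F' := G')
      (bound := (tsupport χ).indicator (fun _ => C)) (s := Icc (t - 1) (t + 1)) (x₀ := t)
      (Icc_mem_nhds (by linarith) (by linarith)) ?_ ?_ ?_ ?_ ?_ ?_).2
    · exact Filter.Eventually.of_forall fun s => (hGcont s).aestronglyMeasurable
    · exact (hGcont t).integrable_of_hasCompactSupport (hχc.mul_right)
    · exact (hG'cont.comp (Continuous.prodMk_right t)).aestronglyMeasurable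
    · refine Filter.Eventually.of_forall fun x s hs => ?_
      by_cases hx : x ∈ tsupport χ
      · rw [indicator_of_mem hx]
        exact hC (s, x) ⟨hs, hx⟩
      · rw [indicator_of_notMem hx]
        simp [hG', image_eq_zero_of_notMem_tsupport hx]
    · rw [integrable_indicator_iff (isClosed_tsupport χ).measurableSet]
      exact integrableOn_const hχc.measure_lt_top.ne
    · exact Filter.Eventually.of_forall fun x s _ => hderiv s x
  have hzero : ∀ t ∈ Icc (0:ℝ) 1, ∫ x, G' t x = 0 := by
    intro t ht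
    set ft : (Fin n → ℝ) → (Fin n → ℝ) := fun y => f y + t • u y with hft
    have hftC : ContDiff ℝ 2 ft := hf.add (hu.const_smul t)
    set hj : Fin n → (Fin n → ℝ) → ℝ := fun j y =>
      φ (ft y) * detC n (Function.update (rows ft y) j (u y)) with hhj
    have hjC : ∀ j, ContDiff ℝ 1 (hj j) := by
      intro j
      refine (hφ.comp (hftC.of_le (by norm_num))).mul ?_
      refine (detC n).contDiff.comp ?_
      rw [contDiff_pi]
      intro i
      by_cases hij : i = j
      · subst hij
        simpa using hu.of_le (by norm_num)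
      · simp only [Function.update_of_ne hij]
        exact contDiff_pi.1 (contDiff_rows (k := 1) hftC (by norm_num)) i
    have e1 : ∀ x, G' t x = ∑ j, χ x * fderiv ℝ (hj j) x (Pi.single j 1) := by
      intro x
      rw [← Finset.mul_sum]
      simp only [hG', hhj]
      rw [div_eq hftC hud hφd x]
      simp only [tder, hft, rows_add_smul hfd hud]
    have hint : ∀ j, Integrable (fun x => χ x * fderiv ℝ (hj j) x (Pi.single j 1)) := by
      intro j
      refine Continuous.integrable_of_hasCompactSupport ?_ hχc.mul_right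
      exact c8.mul (((hjC j).continuous_fderiv (by norm_num)).clm_apply continuous_const)
    rw [integral_congr_ae (Filter.Eventually.of_forall e1), integral_finsetSum _ fun j _ => hint j]
    refine Finset.sum_eq_zero fun j _ => ?_
    have hz : ∀ x, fderiv ℝ χ x (Pi.single j 1) * hj j x = 0 := by
      intro x
      by_cases hx : φ (ft x) = 0
      · simp [hhj, hx]
      · rw [h t ht x hx]
        simp
    rw [integral_mul_fderiv_eq_neg_fderiv_mul_of_integrable]
    · simp [hz]
    · simp only [hz, integrable_fun_zero]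
    · exact hint j
    · exact Continuous.integrable_of_hasCompactSupport (c8.mul (hjC j).continuous) hχc.mul_right
    · exact fun x _ => (hχ.differentiable (by norm_num)) x
    · exact fun x _ => ((hjC j).differentiable (by norm_num)) x
  have hconst := constant_of_has_deriv_right_zero (f := fun s => ∫ x, G s x) (a := 0) (b := 1)
    (fun s _ => (hD s).continuousAt.continuousWithinAt) (fun s hs => by
      have := (hD s).hasDerivWithinAt (s := Ici s)
      rwa [hzero s ⟨hs.1, hs.2.le⟩] at this) 1 (by simp only [mem_Icc, zero_le_one, Std.le_refl,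
                                                     and_self])
  simpa [hG] using hconst

end Vale.Agent.P205.TI.Deg
end

section

open MeasureTheory Matrix Set Topology Bornology
open scoped ContDiff Manifold

namespace Vale.Agent.P205.TI.Deg

variable {n : ℕ}

lemma two_le_infty : (2 : WithTop ℕ∞) ≤ ∞ := WithTop.coe_le_coe.2 le_top

lemma exists_smooth_approx {f : (Fin n → ℝ) → (Fin n → ℝ)} {K : Set (Fin n → ℝ)}
    (hK : IsCompact K) (hf : ContinuousOn f K) {ε : ℝ} (hε : 0 < ε) :
    ∃ g : (Fin n → ℝ) → (Fin n → ℝ), ContDiff ℝ ∞ g ∧ ∀ x ∈ K, ‖g x - f x‖ < ε := by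
  obtain ⟨F, hF⟩ := ContinuousMap.exists_restrict_eq hK.isClosed
    (⟨K.domRestrict f, continuousOn_iff_continuous_domRestrict.1 hf⟩ : C(K, Fin n → ℝ))
  have hFf : ∀ x ∈ K, F x = f x := by
    intro x hx
    exact congrArg (fun G : C(K, Fin n → ℝ) => G ⟨x, hx⟩) hF
  have hd := ContinuousMap.dense_setOfPred_contDiff (E := Fin n → ℝ) (F := Fin n → ℝ) F
  rw [mem_closure_iff_nhds_basis
    (nhds_basis_uniformity Metric.uniformity_basis_dist.compactConvergenceUniformity)] at hd
  obtain ⟨g, hg1, hg2⟩ := hd (K, ε) ⟨hK, hε⟩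
  refine ⟨g, hg1, fun x hx => ?_⟩
  have := hg2 x hx
  rw [← hFf x hx, ← dist_eq_norm]
  exact this

lemma exists_cutoff {C W : Set (Fin n → ℝ)} (hC : IsCompact C) (hW : IsOpen W)
    (hWb : IsBounded W) (hCW : C ⊆ W) :
    ∃ χ : (Fin n → ℝ) → ℝ, ContDiff ℝ ∞ χ ∧ HasCompactSupport χ ∧ tsupport χ ⊆ W ∧
      ∀ x ∈ C, χ =ᶠ[𝓝 x] fun _ => 1 := by
  obtain ⟨χ, h0, h1, -⟩ := exists_contMDiffMap_zero_one_nhds_of_isClosed (n := ⊤)
    𝓘(ℝ, Fin n → ℝ) (s := Wᶜ) (t := C) hW.isClosed_compl hC.isClosed
    (disjoint_left.2 fun x hx hx' => hx (hCW hx'))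
  have hts : tsupport χ ⊆ W := by
    rw [Filter.eventually_iff_exists_mem] at h0
    obtain ⟨U, hU, hU0⟩ := h0
    rw [mem_nhdsSet_iff_exists] at hU
    obtain ⟨U', hU'o, hU'1, hU'2⟩ := hU
    have h2 : tsupport χ ⊆ U'ᶜ := by
      apply closure_minimal _ hU'o.isClosed_compl
      intro x hx hxU
      exact hx (hU0 x (hU'2 hxU))
    intro x hx
    by_contra hxW
    exact h2 hx (hU'1 hxW)
  refine ⟨χ, χ.contMDiff.contDiff, ?_, hts, ?_⟩
  · exact Metric.isCompact_of_isClosed_isBounded (isClosed_tsupport _) (hWb.subset hts)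
  · intro x hx
    exact (eventually_nhdsSet_iff_forall.1 h1) x hx

/-- A fixed smooth bump function on `ℝⁿ`, supported in the unit ball, with integral one. -/
noncomputable def bumpFun (n : ℕ) : ContDiffBump (0 : Fin n → ℝ) := ⟨1 / 2, 1, by norm_num, by norm_num⟩

noncomputable def phi (n : ℕ) : (Fin n → ℝ) → ℝ := (bumpFun n).normed volume

lemma phi_contDiff : ContDiff ℝ ∞ (phi n) := (bumpFun n).contDiff_normed

lemma phi_integral : ∫ x, phi n x = 1 := (bumpFun n).integral_normed

lemma phi_zero {x : Fin n → ℝ} (hx : 1 ≤ ‖x‖) : phi n x = 0 := by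
  have h : Function.support (phi n) = Metric.ball 0 1 := (bumpFun n).support_normed_eq
  by_contra h'
  have : x ∈ Function.support (phi n) := h'
  rw [h, mem_ball_zero_iff] at this
  linarith

lemma phi_ne_zero {x : Fin n → ℝ} (hx : phi n x ≠ 0) : ‖x‖ < 1 := by
  by_contra h
  exact hx (phi_zero (not_lt.1 h))

/-- The smooth degree integral -/
noncomputable def J (f : (Fin n → ℝ) → (Fin n → ℝ)) (W : Set (Fin n → ℝ)) : ℝ :=
  ∫ x in W, phi n (f x) * detC n (rows f x)

lemma J_eq_cutoff {f : (Fin n → ℝ) → (Fin n → ℝ)} {W : Set (Fin n → ℝ)} (hW : IsOpen W)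
    {χ : (Fin n → ℝ) → ℝ} (h1 : tsupport χ ⊆ W) (h2 : ∀ x ∈ W, ‖f x‖ < 1 → χ x = 1) :
    J f W = ∫ x, χ x * (phi n (f x) * detC n (rows f x)) := by
  rw [J, ← integral_indicator hW.measurableSet]
  refine integral_congr_ae (Filter.Eventually.of_forall fun x => ?_)
  by_cases hx : x ∈ W
  · simp only [indicator_of_mem hx]
    by_cases hf : phi n (f x) = 0
    · simp [hf]
    · rw [h2 x hx (phi_ne_zero hf), one_mul]
  · simp only [indicator_of_notMem hx]
    rw [image_eq_zero_of_notMem_tsupport (fun h => hx (h1 h)), zero_mul]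

lemma frontier_compact {W : Set (Fin n → ℝ)} (hWb : IsBounded W) : IsCompact (frontier W) :=
  Metric.isCompact_of_isClosed_isBounded isClosed_frontier
    (hWb.closure.subset frontier_subset_closure)

lemma closure_compact {W : Set (Fin n → ℝ)} (hWb : IsBounded W) : IsCompact (closure W) :=
  Metric.isCompact_of_isClosed_isBounded isClosed_closure hWb.closure

/-- homotopy invariance for smooth maps -/
lemma J_homotopy {f g : (Fin n → ℝ) → (Fin n → ℝ)} {W : Set (Fin n → ℝ)} (hW : IsOpen W)
    (hWb : IsBounded W) (hf : ContDiff ℝ ∞ f) (hg : ContDiff ℝ ∞ g)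
    (h : ∀ x ∈ frontier W, ∀ t ∈ Icc (0:ℝ) 1, 1 < ‖(1 - t) • f x + t • g x‖) :
    J f W = J g W := by
  set F : ℝ × (Fin n → ℝ) → (Fin n → ℝ) := fun q => (1 - q.1) • f q.2 + q.1 • g q.2 with hF
  have hFc : Continuous F := by
    have := hf.continuous
    have := hg.continuous
    fun_prop
  set C0 : Set (ℝ × (Fin n → ℝ)) := (Icc (0:ℝ) 1 ×ˢ closure W) ∩ {q | ‖F q‖ ≤ 1} with hC0
  have hC0c : IsCompact C0 :=
    (isCompact_Icc.prod (closure_compact hWb)).inter_right
      (isClosed_le hFc.norm continuous_const)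
  set C := Prod.snd '' C0 with hC
  have hCc : IsCompact C := hC0c.image continuous_snd
  have hCW : C ⊆ W := by
    rintro x ⟨⟨t, y⟩, ⟨⟨ht, hy⟩, hq⟩, rfl⟩
    simp only at ht hy hq ⊢
    by_contra hyW
    have hyf : y ∈ frontier W := by
      rw [hW.frontier_eq]
      exact ⟨hy, hyW⟩
    have := h y hyf t ht
    simp only [hF, mem_ofPred_eq] at hq
    linarith only [this, hq]
  obtain ⟨χ, hχ1, hχ2, hχ3, hχ4⟩ := exists_cutoff hCc hW hWb hCW
  have e : ∀ t ∈ Icc (0:ℝ) 1, ∀ x ∈ closure W, ‖(1 - t) • f x + t • g x‖ ≤ 1 → x ∈ C := by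
    intro t ht x hx hn
    exact ⟨(t, x), ⟨⟨ht, hx⟩, hn⟩, rfl⟩
  rw [J_eq_cutoff hW hχ3 (f := f), J_eq_cutoff hW hχ3 (f := g)]
  · have := integral_const_in_time (φ := phi n) (χ := χ) (f := f) (u := fun x => g x - f x)
      (phi_contDiff.of_le (by exact_mod_cast le_top)) (hf.of_le two_le_infty)
      ((hg.sub hf).of_le two_le_infty)
      (hχ1.of_le (by exact_mod_cast le_top)) hχ2 ?_
    · simpa using this.symm
    · intro t ht x hx
      by_cases hxW : x ∈ closure W
      · have hxC : x ∈ C := by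
          apply e t ht x hxW
          have h1 : f x + t • (g x - f x) = (1 - t) • f x + t • g x := by
            rw [smul_sub, sub_smul, one_smul]; abel
          rw [← h1]
          exact (phi_ne_zero hx).le
        have h2 := hχ4 x hxC
        rw [h2.fderiv_eq]
        simp
      · have h3 : χ =ᶠ[𝓝 x] fun _ => 0 := by
          have : (tsupport χ)ᶜ ∈ 𝓝 x :=
            (isClosed_tsupport χ).isOpen_compl.mem_nhds
              (fun h' => hxW (subset_closure (hχ3 h')))
          filter_upwards [this] with y hy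
          exact image_eq_zero_of_notMem_tsupport hy
        rw [h3.fderiv_eq]
        simp
  · intro x hx hn
    have := hχ4 x (e 1 (by simp) x (subset_closure hx) (by simpa using hn.le))
    exact this.eq_of_nhds
  · intro x hx hn
    have := hχ4 x (e 0 (by simp only [mem_Icc, Std.le_refl, zero_le_one, and_self]) x (subset_closure hx) (by simpa using hn.le))
    exact this.eq_of_nhds

end Vale.Agent.P205.TI.Deg
end

section

open MeasureTheory Matrix Set Topology Bornology
open scoped ContDiff Manifold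

namespace Vale.Agent.P205.TI.Deg

variable {n : ℕ}

/-- sign of a real number as a real number -/
noncomputable def sg (x : ℝ) : ℤ := ((SignType.sign x : SignType) : ℤ)

lemma sg_pos {x : ℝ} (h : 0 < x) : sg x = 1 := by simp [sg, sign_pos h]

lemma sg_neg {x : ℝ} (h : x < 0) : sg x = -1 := by simp [sg, sign_neg h]

lemma sg_mul (x y : ℝ) : sg (x * y) = sg x * sg y := by simp only [sg, sign_mul, SignType.coe_mul]

lemma sg_mul_abs (x : ℝ) : (sg x : ℝ) * |x| = x := by
  rcases lt_trichotomy x 0 with h | h | h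
  · rw [sg_neg h, abs_of_neg h]; push_cast; ring
  · simp [h]
  · rw [sg_pos h, abs_of_pos h]; push_cast; ring

lemma continuous_integrand {f : (Fin n → ℝ) → (Fin n → ℝ)} (hf : ContDiff ℝ ∞ f) :
    Continuous fun x => phi n (f x) * detC n (rows f x) := by
  have h1 : Continuous (rows f) :=
    (contDiff_rows (k := 1) (hf.of_le two_le_infty) (by norm_num)).continuous
  exact (phi_contDiff.continuous.comp hf.continuous).mul (continuous_detC.comp h1)

lemma integrableOn_integrand {f : (Fin n → ℝ) → (Fin n → ℝ)} (hf : ContDiff ℝ ∞ f)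
    {W : Set (Fin n → ℝ)} (hWb : IsBounded W) :
    IntegrableOn (fun x => phi n (f x) * detC n (rows f x)) W :=
  ((continuous_integrand hf).continuousOn.integrableOn_compact (closure_compact hWb)).mono_set
    subset_closure

lemma J_sum {f : (Fin n → ℝ) → (Fin n → ℝ)} (hf : ContDiff ℝ ∞ f)
    {W : Set (Fin n → ℝ)} (hWb : IsBounded W) (hW : IsOpen W) {ι : Type*} (s : Finset ι)
    {U : ι → Set (Fin n → ℝ)} (hU : ∀ i ∈ s, IsOpen (U i)) (hUW : ∀ i ∈ s, U i ⊆ W)
    (hd : (s : Set ι).PairwiseDisjoint U)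
    (h : ∀ x ∈ W, (∀ i ∈ s, x ∉ U i) → 1 ≤ ‖f x‖) :
    J f W = ∑ i ∈ s, J f (U i) := by
  have h1 : ∑ i ∈ s, J f (U i)
      = ∫ x in ⋃ i ∈ s, U i, phi n (f x) * detC n (rows f x) := by
    rw [integral_biUnion_finset s (fun i hi => (hU i hi).measurableSet) hd
      (fun i hi => integrableOn_integrand hf (hWb.subset (hUW i hi)))]
    rfl
  rw [h1, J]
  have hsub : (⋃ i ∈ s, U i) ⊆ W := iUnion₂_subset hUW
  refine setIntegral_eq_of_subset_of_forall_sdiff_eq_zero hW.measurableSet hsub ?_
  intro x hx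
  have h2 : ∀ i ∈ s, x ∉ U i := by
    intro i hi hxi
    exact hx.2 (mem_iUnion₂.2 ⟨i, hi, hxi⟩)
  rw [phi_zero (h x hx.1 h2), zero_mul]

lemma rows_smul {f : (Fin n → ℝ) → (Fin n → ℝ)} (hf : Differentiable ℝ f) (c : ℝ)
    (x : Fin n → ℝ) : rows (fun y => c • f y) x = c • rows f x := by
  funext j
  simp only [rows, Pi.smul_apply]
  have h : HasFDerivAt (fun y => c • f y) (c • fderiv ℝ f x) x := (hf x).hasFDerivAt.const_smul c
  rw [h.fderiv]
  rfl

lemma detC_smul (c : ℝ) (a : Fin n → (Fin n → ℝ)) : detC n (c • a) = c ^ n * detC n a := by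
  have h := (detC n).map_smul_univ (fun _ => c) a
  have h2 : (c • a) = fun i => c • a i := rfl
  rw [h2]
  simpa only [Finset.prod_const, Finset.card_univ, Fintype.card_fin, smul_eq_mul] using h

/-- local computation of the degree integral at a nondegenerate zero -/
lemma local_regular {f : (Fin n → ℝ) → (Fin n → ℝ)} (hf : ContDiff ℝ ∞ f) {z : Fin n → ℝ}
    (hz : f z = 0) (hdet : (fderiv ℝ f z).det ≠ 0) {U : Set (Fin n → ℝ)} (hU : U ∈ 𝓝 z) :
    ∃ r > 0, Metric.closedBall z r ⊆ U ∧ (∀ x ∈ Metric.closedBall z r, f x = 0 → x = z) ∧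
      ∃ Λ > (0 : ℝ), ∀ c ≥ Λ, J (fun x => c • f x) (Metric.ball z r) = sg (fderiv ℝ f z).det := by
  have hfd : Differentiable ℝ f := hf.differentiable (by simp)
  have hst : HasStrictFDerivAt f
      (((fderiv ℝ f z).toContinuousLinearEquivOfDetNeZero hdet :
        (Fin n → ℝ) ≃L[ℝ] (Fin n → ℝ)) : (Fin n → ℝ) →L[ℝ] (Fin n → ℝ)) z := by
    rw [ContinuousLinearMap.coe_toContinuousLinearEquivOfDetNeZero]
    exact hf.contDiffAt.hasStrictFDerivAt (by simp)
  set e := hst.toOpenPartialHomeomorph f with he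
  have hecoe : (e : (Fin n → ℝ) → (Fin n → ℝ)) = f := hst.toOpenPartialHomeomorph_coe
  have hez : z ∈ e.source := hst.mem_toOpenPartialHomeomorph_source
  have hdc : Continuous fun x => (fderiv ℝ f x).det := by
    have h1 : Continuous (rows f) :=
      (contDiff_rows (k := 1) (hf.of_le two_le_infty) (by norm_num)).continuous
    simp only [det_fderiv_eq]
    exact continuous_detC.comp h1
  have hS : {x | 0 < (fderiv ℝ f x).det * (fderiv ℝ f z).det} ∈ 𝓝 z := by
    refine (isOpen_lt continuous_const (hdc.mul continuous_const)).mem_nhds ?_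
    exact mul_self_pos.2 hdet
  have hN : U ∩ e.source ∩ {x | 0 < (fderiv ℝ f x).det * (fderiv ℝ f z).det} ∈ 𝓝 z :=
    Filter.inter_mem (Filter.inter_mem hU (e.open_source.mem_nhds hez)) hS
  obtain ⟨r, hr, hrN⟩ := Metric.nhds_basis_closedBall.mem_iff.1 hN
  have hinj : InjOn f e.source := by
    have := e.injOn
    rwa [hecoe] at this
  refine ⟨r, hr, fun x hx => (hrN hx).1.1, fun x hx hx0 => ?_, ?_⟩
  · exact hinj (hrN hx).1.2 hez (by rw [hx0, hz])
  set B := Metric.ball z r with hB
  have hBN : B ⊆ Metric.closedBall z r := Metric.ball_subset_closedBall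
  have hopen : IsOpen (f '' B) := by
    have := e.isOpen_image_of_subset_source (s := B) Metric.isOpen_ball
      (fun x hx => (hrN (hBN hx)).1.2)
    rwa [hecoe] at this
  have h0 : (0 : Fin n → ℝ) ∈ f '' B := ⟨z, Metric.mem_ball_self hr, hz⟩
  obtain ⟨ρ, hρ, hρB⟩ := Metric.isOpen_iff.1 hopen 0 h0
  refine ⟨1 / ρ, by positivity, fun c hc => ?_⟩
  have hc0 : 0 < c := lt_of_lt_of_le (by positivity) hc
  have hsg : ∀ x ∈ B, sg ((fderiv ℝ f x).det) = sg (fderiv ℝ f z).det := by
    intro x hx
    have h1 : 0 < (fderiv ℝ f x).det * (fderiv ℝ f z).det := (hrN (hBN hx)).2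
    rcases lt_or_gt_of_ne hdet with h2 | h2
    · rw [sg_neg h2, sg_neg (by nlinarith only [h1, h2])]
    · rw [sg_pos h2, sg_pos (by nlinarith only [h1, h2])]
  set F : (Fin n → ℝ) → (Fin n → ℝ) := fun x => c • f x with hF
  have hF' : ∀ x, HasFDerivAt F (c • fderiv ℝ f x) x := fun x =>
    (hfd x).hasFDerivAt.const_smul c
  have hFdet : ∀ x, (fderiv ℝ F x).det = c ^ n * (fderiv ℝ f x).det := by
    intro x
    rw [det_fderiv_eq, det_fderiv_eq, rows_smul hfd, detC_smul]
  have hFinj : InjOn F B := by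
    intro x hx y hy hxy
    have : f x = f y := smul_right_injective _ hc0.ne' hxy
    exact hinj (hrN (hBN hx)).1.2 (hrN (hBN hy)).1.2 this
  have h3 := integral_image_eq_integral_abs_det_fderiv_smul (μ := volume) (s := B) (f := F)
    (f' := fun x => fderiv ℝ F x) measurableSet_ball
    (fun x _ => ((hF' x).differentiableAt.hasFDerivAt).hasFDerivWithinAt) hFinj (phi n)
  have h4 : ∫ x in F '' B, phi n x = 1 := by
    rw [setIntegral_eq_integral_of_forall_compl_eq_zero, phi_integral]
    intro y hy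
    by_contra h5
    apply hy
    have h6 := phi_ne_zero h5
    have h7 : c⁻¹ • y ∈ f '' B := by
      apply hρB
      rw [mem_ball_zero_iff, norm_smul, norm_inv, Real.norm_eq_abs, abs_of_pos hc0]
      calc c⁻¹ * ‖y‖ < c⁻¹ * 1 := by
            apply mul_lt_mul_of_pos_left h6 (by positivity)
        _ ≤ ρ := by
            rw [mul_one]
            rw [ge_iff_le, div_le_iff₀ hρ] at hc
            rw [inv_le_iff_one_le_mul₀ hc0]
            linarith
    obtain ⟨x, hx, hxy⟩ := h7
    refine ⟨x, hx, ?_⟩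
    simp only [hF, hxy]
    rw [smul_smul, mul_inv_cancel₀ hc0.ne', one_smul]
  rw [h4] at h3
  have h8 : J F B = ∫ x in B, (sg (fderiv ℝ f z).det : ℝ) * (|(fderiv ℝ F x).det| • phi n (F x)) := by
    rw [J]
    refine setIntegral_congr_fun measurableSet_ball fun x hx => ?_
    simp only [smul_eq_mul]
    rw [← hsg x hx, ← det_fderiv_eq]
    have h9 : sg (fderiv ℝ F x).det = sg (fderiv ℝ f x).det := by
      rw [hFdet, sg_mul, sg_pos (by positivity), one_mul]
    rw [← h9]
    have h10 := sg_mul_abs (fderiv ℝ F x).det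
    calc phi n (F x) * (fderiv ℝ F x).det
        = phi n (F x) * ((sg (fderiv ℝ F x).det : ℝ) * |(fderiv ℝ F x).det|) := by rw [h10]
      _ = _ := by ring
  rw [h8, integral_const_mul, ← h3, mul_one]

end Vale.Agent.P205.TI.Deg
end

section

open MeasureTheory Matrix Set Topology Bornology
open scoped ContDiff Manifold

namespace Vale.Agent.P205.TI.Deg

variable {n : ℕ}

lemma exists_pos_lower_bound {K : Set (Fin n → ℝ)} (hK : IsCompact K)
    {f : (Fin n → ℝ) → (Fin n → ℝ)} (hf : ContinuousOn f K) (h : ∀ x ∈ K, f x ≠ 0) :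
    ∃ m > 0, ∀ x ∈ K, m ≤ ‖f x‖ := by
  rcases K.eq_empty_or_nonempty with rfl | hne
  · exact ⟨1, one_pos, by simp⟩
  · obtain ⟨x, hx, hm⟩ := hK.exists_isMinOn hne hf.norm
    exact ⟨‖f x‖, norm_pos_iff.2 (h x hx), fun y hy => hm hy⟩

/-- the degree integral at a regular value -/
lemma regular_formula {f : (Fin n → ℝ) → (Fin n → ℝ)} (hf : ContDiff ℝ ∞ f)
    {W : Set (Fin n → ℝ)} (hW : IsOpen W) (hWb : IsBounded W)
    (hfr : ∀ x ∈ frontier W, f x ≠ 0)
    (hreg : ∀ x ∈ W, f x = 0 → (fderiv ℝ f x).det ≠ 0) :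
    ∃ Z : Finset (Fin n → ℝ), (∀ z, z ∈ Z ↔ z ∈ W ∧ f z = 0) ∧
      ∃ Λ > (0 : ℝ), ∀ c ≥ Λ, J (fun x => c • f x) W = ∑ z ∈ Z, (sg (fderiv ℝ f z).det : ℝ) := by
  classical
  set Z0 : Set (Fin n → ℝ) := {z | z ∈ W ∧ f z = 0} with hZ0
  have hZ0' : Z0 = closure W ∩ f ⁻¹' {0} := by
    ext z
    constructor
    · rintro ⟨h1, h2⟩
      exact ⟨subset_closure h1, h2⟩
    · rintro ⟨h1, h2⟩
      refine ⟨?_, h2⟩
      by_contra h3
      exact hfr z (by rw [hW.frontier_eq]; exact ⟨h1, h3⟩) h2
  have hZc : IsCompact Z0 := by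
    rw [hZ0']
    exact (closure_compact hWb).inter_right (isClosed_singleton.preimage hf.continuous)
  -- finiteness
  have hfin : Z0.Finite := by
    have h1 : ∀ z ∈ Z0, ∃ V ∈ 𝓝 z, ∀ x ∈ V, f x = 0 → x = z := by
      intro z hz
      obtain ⟨r, hr, -, h2, -⟩ := local_regular hf hz.2 (hreg z hz.1 hz.2) Filter.univ_mem
      exact ⟨_, Metric.closedBall_mem_nhds z hr, h2⟩
    choose! V hV hV' using h1
    obtain ⟨t, ht, ht'⟩ := hZc.elim_nhds_subcover V hV
    refine t.finite_toSet.subset fun x hx => ?_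
    obtain ⟨z, hz, hxz⟩ := mem_iUnion₂.1 (ht' hx)
    rw [hV' z (ht z hz) x hxz hx.2]
    exact hz
  obtain ⟨U, hU, hUd⟩ := hfin.t2_separation
  have h1 : ∀ z ∈ Z0, ∃ r > 0, Metric.closedBall z r ⊆ U z ∩ W ∧
      ∃ Λ > (0 : ℝ), ∀ c ≥ Λ, J (fun x => c • f x) (Metric.ball z r) = sg (fderiv ℝ f z).det := by
    intro z hz
    obtain ⟨r, hr, h2, -, h3⟩ := local_regular hf hz.2 (hreg z hz.1 hz.2)
      (Filter.inter_mem ((hU z).2.mem_nhds (hU z).1) (hW.mem_nhds hz.1))
    exact ⟨r, hr, h2, h3⟩
  choose! r hr hrU Λ hΛ hJ using h1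
  refine ⟨hfin.toFinset, fun z => by simp [hZ0], ?_⟩
  set K : Set (Fin n → ℝ) := closure W \ ⋃ z ∈ hfin.toFinset, Metric.ball z (r z) with hK
  have hKc : IsCompact K :=
    (closure_compact hWb).diff (isOpen_biUnion fun z _ => Metric.isOpen_ball)
  obtain ⟨m, hm, hmK⟩ := exists_pos_lower_bound hKc hf.continuous.continuousOn (by
    intro x hx hx0
    have hxZ : x ∈ Z0 := by rw [hZ0']; exact ⟨hx.1, hx0⟩
    exact hx.2 (mem_iUnion₂.2 ⟨x, by simpa using hxZ, Metric.mem_ball_self (hr x hxZ)⟩))
  refine ⟨1 / m + ∑ z ∈ hfin.toFinset, Λ z, ?_, ?_⟩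
  · have : 0 ≤ ∑ z ∈ hfin.toFinset, Λ z :=
      Finset.sum_nonneg fun z hz => (hΛ z (by simpa using hz)).le
    (clear * - hfin hm this; positivity)
  · intro c hc
    have hs : 0 ≤ ∑ z ∈ hfin.toFinset, Λ z :=
      Finset.sum_nonneg fun z hz => (hΛ z (by simpa using hz)).le
    have hc0 : 0 < c := lt_of_lt_of_le (by positivity) hc
    have hcs : ContDiff ℝ ∞ (fun x => c • f x) := hf.const_smul c
    rw [J_sum hcs hWb hW hfin.toFinset (U := fun z => Metric.ball z (r z))
      (fun z _ => Metric.isOpen_ball) ?_ ?_ ?_]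
    · refine Finset.sum_congr rfl fun z hz => hJ z (by simpa using hz) c ?_
      have h2 : Λ z ≤ ∑ z ∈ hfin.toFinset, Λ z :=
        Finset.single_le_sum (fun y hy => (hΛ y (by simpa using hy)).le) hz
      have h3 : 0 ≤ 1 / m := by positivity
      linarith
    · intro z hz x hx
      exact (hrU z (by simpa using hz) (Metric.ball_subset_closedBall hx)).2
    · intro z hz w hw hzw
      have h2 := hUd (by simpa using hz) (by simpa using hw) hzw
      refine h2.mono ?_ ?_
      · intro x hx
        exact (hrU z (by simpa using hz) (Metric.ball_subset_closedBall hx)).1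
      · intro x hx
        exact (hrU w (by simpa using hw) (Metric.ball_subset_closedBall hx)).1
    · intro x hx hxn
      have hxK : x ∈ K := ⟨subset_closure hx, by
        intro h2
        obtain ⟨z, hz, hxz⟩ := mem_iUnion₂.1 h2
        exact hxn z hz hxz⟩
      have h2 := hmK x hxK
      rw [norm_smul, Real.norm_eq_abs, abs_of_pos hc0]
      have h3 : 1 / m ≤ c := by linarith
      rw [div_le_iff₀ hm] at h3
      nlinarith only [hc0, h2, h3]


end Vale.Agent.P205.TI.Deg
end
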