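import Vale.Agent.P205.TI.Defs

/-!
The disc lemma: the zeros of a normal field over a graph, even in number, are removed by kinks.
-/

open scoped Manifold ContDiff Topology
open Set Module

noncomputable section

namespace Vale.Agent.P205.TI

theorem disc_contDiff_st (b : Bool) : ContDiff ℝ ∞ (st b) := by
  cases b
  · have h : st false = fun z => Complex.conjCLE z := by
      funext z
      simp [st]
    rw [h]
    exact Complex.conjCLE.contDiff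
  · have h : st true = fun z => z := by
      funext z
      simp [st]
    rw [h]
    exact contDiff_id

/-- the normal vector is normal -/
theorem ip_nrm (F : ℂ → ℂ) (w z v : ℂ) : ip (nrm F w z) (v, fderiv ℝ F z v) = 0 := by
  have hv : fderiv ℝ F z v = v.re • fderiv ℝ F z 1 + v.im • fderiv ℝ F z Complex.I := by
    rw [← map_smul, ← map_smul, ← map_add]
    congr 1
    simp [Complex.re_add_im]
  rw [hv]
  simp only [ip, nrm, Complex.add_re, Complex.add_im, Complex.real_smul, Complex.mul_re,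
    Complex.mul_im, Complex.ofReal_re, Complex.ofReal_im]
  ring

theorem contDiff_nrm {F τ : ℂ → ℂ} (hF : ContDiff ℝ ∞ F) (hτ : ContDiff ℝ ∞ τ) :
    ContDiff ℝ ∞ fun z => nrm F (τ z) z := by
  have hd : ContDiff ℝ ∞ (fderiv ℝ F) := hF.fderiv_right (m := ∞) (by simp)
  have h1 : ContDiff ℝ ∞ fun z => fderiv ℝ F z 1 := hd.clm_apply contDiff_const
  have h2 : ContDiff ℝ ∞ fun z => fderiv ℝ F z Complex.I := hd.clm_apply contDiff_const
  have hre : ∀ {g : ℂ → ℂ}, ContDiff ℝ ∞ g → ContDiff ℝ ∞ fun z => (g z).re :=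
    fun hg => Complex.reCLM.contDiff.comp hg
  have him : ∀ {g : ℂ → ℂ}, ContDiff ℝ ∞ g → ContDiff ℝ ∞ fun z => (g z).im :=
    fun hg => Complex.imCLM.contDiff.comp hg
  have hmk : ∀ {u v : ℂ → ℝ}, ContDiff ℝ ∞ u → ContDiff ℝ ∞ v →
      ContDiff ℝ ∞ fun z => (⟨u z, v z⟩ : ℂ) := by
    intro u v hu hv
    have h : (fun z => (⟨u z, v z⟩ : ℂ)) = fun z => Complex.equivRealProdCLM.symm (u z, v z) := by
      funext z
      rfl
    rw [h]
    exact Complex.equivRealProdCLM.symm.contDiff.comp (hu.prodMk hv)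
  refine ContDiff.prodMk (hmk ?_ ?_) hτ
  · exact (((hre hτ).mul (hre h1)).add ((him hτ).mul (him h1))).neg
  · exact (((hre hτ).mul (hre h2)).add ((him hτ).mul (him h2))).neg

/-- DISC with the two ingredients as hypotheses -/
theorem disc_of {F σ : ℂ → ℂ} (hF : ContDiff ℝ ∞ F)
    (hsf : ∃ (J : Finset ℂ) (b : ℂ → Bool) (δ : ℝ) (τ : ℂ → ℂ), 0 < δ ∧ ContDiff ℝ ∞ τ ∧
      (∀ z, 11 / 16 ≤ ‖z‖ → ‖z‖ ≤ 1 → τ z = σ z) ∧ (∀ c ∈ J, ‖c‖ < 1 / 2) ∧ δ < 1 / 8 ∧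
      (∀ c ∈ J, ∀ c' ∈ J, c ≠ c' → 2 * δ < ‖c - c'‖) ∧
      (∀ c ∈ J, ∀ z, ‖z - c‖ < δ → τ z = st (b c) (z - c) ^ 2) ∧
      ∀ z, ‖z‖ ≤ 1 → τ z = 0 → z ∈ J)
    (hkink : ∀ (b : Bool) {δ : ℝ}, 0 < δ → ∃ K κ : ℂ → ℂ × ℂ, ContDiff ℝ ∞ K ∧
      ContDiff ℝ ∞ κ ∧ (∀ z, Function.Injective (fderiv ℝ K z)) ∧ (∀ z, κ z ≠ 0) ∧
      (∀ z v, ip (κ z) (fderiv ℝ K z v) = 0) ∧
      ∀ z, δ / 2 ≤ ‖z‖ → K z = (z, 0) ∧ κ z = (0, st b z ^ 2)) :
    ∃ Φ Ξ : ℂ → ℂ × ℂ, ContDiff ℝ ∞ Φ ∧ ContDiff ℝ ∞ Ξ ∧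
      (∀ z, Function.Injective (fderiv ℝ Φ z)) ∧ (∀ z, ‖z‖ ≤ 1 → Ξ z ≠ 0) ∧
      (∀ z v, ip (Ξ z) (fderiv ℝ Φ z v) = 0) ∧
      ∀ z, 3 / 4 ≤ ‖z‖ → ‖z‖ ≤ 1 → Φ z = (z, F z) ∧ Ξ z = nrm F (σ z) z := by
  classical
  obtain ⟨J, b, δ, τ, hδ, hτ, hτσ, hJ, hδ8, hsep, hloc, hzero⟩ := hsf
  choose K κ hK hκ hKi hκ0 hKκ hout using fun b : Bool => hkink b hδ
  -- the bumps
  let ρ : ∀ c : ℂ, ContDiffBump c := fun c =>
    { rIn := 3 * δ / 4, rOut := 7 * δ / 8, rIn_pos := by linarith, rIn_lt_rOut := by linarith }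
  have hρ1 : ∀ c z : ℂ, ‖z - c‖ < 3 * δ / 4 → ρ c z = 1 := fun c z hz =>
    (ρ c).one_of_mem_closedBall (by rw [mem_closedBall_iff_norm]; exact hz.le)
  have hρ0 : ∀ c z : ℂ, 7 * δ / 8 ≤ ‖z - c‖ → ρ c z = 0 := fun c z hz =>
    (ρ c).zero_of_le_dist (by rw [dist_eq_norm]; exact hz)
  set Fs : ℂ → ℂ := fun z => F z + ∑ c ∈ J, (ρ c z) • (F c - F z) with hFs
  have hFsc : ContDiff ℝ ∞ Fs := by
    refine hF.add (ContDiff.sum fun c _ => ?_)
    exact ((ρ c).contDiff).smul (contDiff_const.sub hF)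
  set P : ℂ → ℂ → ℂ × ℂ := fun c z => K (b c) (z - c) - (z - c, 0) with hP
  set Q : ℂ → ℂ → ℂ × ℂ := fun c z => κ (b c) (z - c) - (0, st (b c) (z - c) ^ 2) with hQ
  have hP0 : ∀ c z : ℂ, δ / 2 ≤ ‖z - c‖ → P c z = 0 := fun c z hz => by
    simp only [hP, (hout (b c) (z - c) hz).1, sub_self]
  have hQ0 : ∀ c z : ℂ, δ / 2 ≤ ‖z - c‖ → Q c z = 0 := fun c z hz => by
    simp only [hQ, (hout (b c) (z - c) hz).2, sub_self]
  have hsubc : ∀ c : ℂ, ContDiff ℝ ∞ fun z : ℂ => z - c := fun c => contDiff_id.sub contDiff_const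
  have hPc : ∀ c, ContDiff ℝ ∞ (P c) := fun c =>
    ((hK (b c)).comp (hsubc c)).sub ((hsubc c).prodMk contDiff_const)
  have hQc : ∀ c, ContDiff ℝ ∞ (Q c) := fun c =>
    ((hκ (b c)).comp (hsubc c)).sub
      (contDiff_const.prodMk (((disc_contDiff_st (b c)).comp (hsubc c)).pow 2))
  set Φ : ℂ → ℂ × ℂ := fun z => (z, Fs z) + ∑ c ∈ J, P c z with hΦ
  set Ξ : ℂ → ℂ × ℂ := fun z => nrm Fs (τ z) z + ∑ c ∈ J, Q c z with hΞ
  have hΦc : ContDiff ℝ ∞ Φ := (contDiff_id.prodMk hFsc).add (ContDiff.sum fun c _ => hPc c)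
  have hΞc : ContDiff ℝ ∞ Ξ := (contDiff_nrm hFsc hτ).add (ContDiff.sum fun c _ => hQc c)
  -- near a centre
  have hfar : ∀ c ∈ J, ∀ z, ‖z - c‖ < 3 * δ / 4 → ∀ c' ∈ J, c' ≠ c → 7 * δ / 8 ≤ ‖z - c'‖ := by
    intro c hc z hz c' hc' hne
    have h1 := hsep c hc c' hc' (Ne.symm hne)
    have h2 : ‖c - c'‖ ≤ ‖c - z‖ + ‖z - c'‖ := norm_sub_le_norm_sub_add_norm_sub c z c'
    rw [norm_sub_rev c z] at h2
    linarith
  have hFsin : ∀ c ∈ J, ∀ z, ‖z - c‖ < 3 * δ / 4 → Fs z = F c := by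
    intro c hc z hz
    simp only [hFs]
    rw [Finset.sum_eq_single c, hρ1 c z hz, one_smul]
    · ring
    · intro c' hc' hne
      rw [hρ0 c' z (hfar c hc z hz c' hc' hne), zero_smul]
    · intro h
      exact absurd hc h
  have hopen : ∀ c : ℂ, IsOpen {z : ℂ | ‖z - c‖ < 3 * δ / 4} := fun c =>
    isOpen_lt (by fun_prop) continuous_const
  have hdFs : ∀ c ∈ J, ∀ z, ‖z - c‖ < 3 * δ / 4 → fderiv ℝ Fs z = 0 := by
    intro c hc z hz
    have h1 : Fs =ᶠ[𝓝 z] fun _ => F c := by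
      filter_upwards [(hopen c).mem_nhds hz] with y hy
      exact hFsin c hc y hy
    rw [h1.fderiv_eq]
    simp
  have hΦin : ∀ c ∈ J, ∀ z, ‖z - c‖ < 3 * δ / 4 → Φ z = (c, F c) + K (b c) (z - c) := by
    intro c hc z hz
    simp only [hΦ]
    rw [Finset.sum_eq_single c, hFsin c hc z hz]
    · simp only [hP]
      refine Prod.ext ?_ ?_
      · simp only [Prod.fst_add, Prod.fst_sub]
        ring
      · simp
    · intro c' hc' hne
      exact hP0 c' z (by have := hfar c hc z hz c' hc' hne; linarith)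
    · intro h
      exact absurd hc h
  have hΞin : ∀ c ∈ J, ∀ z, ‖z - c‖ < 3 * δ / 4 → Ξ z = κ (b c) (z - c) := by
    intro c hc z hz
    simp only [hΞ]
    rw [Finset.sum_eq_single c]
    · have h1 : nrm Fs (τ z) z = (0, st (b c) (z - c) ^ 2) := by
        rw [← hloc c hc z (by linarith)]
        simp only [nrm, hdFs c hc z hz]
        refine Prod.ext ?_ rfl
        refine Complex.ext ?_ ?_ <;> simp
      rw [h1]
      simp only [hQ]
      abel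
    · intro c' hc' hne
      exact hQ0 c' z (by have := hfar c hc z hz c' hc' hne; linarith)
    · intro h
      exact absurd hc h
  -- away from the centres
  have hΦout : ∀ z, (∀ c ∈ J, δ / 2 < ‖z - c‖) → Φ z = (z, Fs z) := by
    intro z hz
    simp only [hΦ]
    rw [Finset.sum_eq_zero fun c hc => hP0 c z (hz c hc).le, add_zero]
  have hΞout : ∀ z, (∀ c ∈ J, δ / 2 < ‖z - c‖) → Ξ z = nrm Fs (τ z) z := by
    intro z hz
    simp only [hΞ]
    rw [Finset.sum_eq_zero fun c hc => hQ0 c z (hz c hc).le, add_zero]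
  have hopen' : ∀ r : ℝ, IsOpen {z : ℂ | ∀ c ∈ J, r < ‖z - c‖} := by
    intro r
    have : {z : ℂ | ∀ c ∈ J, r < ‖z - c‖} = ⋂ c ∈ J, {z : ℂ | r < ‖z - c‖} := by
      ext z
      simp
    rw [this]
    exact isOpen_biInter_finset fun c _ => isOpen_lt continuous_const (by fun_prop)
  have hdin : ∀ c ∈ J, ∀ z, ‖z - c‖ < 3 * δ / 4 → fderiv ℝ Φ z = fderiv ℝ (K (b c)) (z - c) := by
    intro c hc z hz
    have h1 : Φ =ᶠ[𝓝 z] fun y => (c, F c) + K (b c) (y - c) := by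
      filter_upwards [(hopen c).mem_nhds hz] with y hy
      exact hΦin c hc y hy
    rw [h1.fderiv_eq, fderiv_const_add, fderiv_comp_sub]
  have hdout : ∀ z, (∀ c ∈ J, δ / 2 < ‖z - c‖) → ∀ v, fderiv ℝ Φ z v = (v, fderiv ℝ Fs z v) := by
    intro z hz v
    have h1 : Φ =ᶠ[𝓝 z] fun y => (y, Fs y) := by
      filter_upwards [(hopen' (δ / 2)).mem_nhds hz] with y hy
      exact hΦout y hy
    have h2 : DifferentiableAt ℝ Fs z := (hFsc.differentiable (by simp)).differentiableAt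
    have h3 := differentiableAt_id.fderiv_prodMk h2
    rw [h1.fderiv_eq]
    have h4 : fderiv ℝ (fun y => (y, Fs y)) z = (fderiv ℝ id z).prod (fderiv ℝ Fs z) := h3
    rw [h4, fderiv_id]
    rfl
  have hcase : ∀ z, (∃ c ∈ J, ‖z - c‖ < 3 * δ / 4) ∨ ∀ c ∈ J, δ / 2 < ‖z - c‖ := by
    intro z
    by_cases h : ∃ c ∈ J, ‖z - c‖ < 3 * δ / 4
    · exact Or.inl h
    · push Not at h
      exact Or.inr fun c hc => by have := h c hc; linarith
  refine ⟨Φ, Ξ, hΦc, hΞc, ?_, ?_, ?_, ?_⟩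
  · intro z
    rcases hcase z with ⟨c, hc, hz⟩ | hz
    · rw [hdin c hc z hz]
      exact hKi (b c) (z - c)
    · intro v w hvw
      rw [hdout z hz v, hdout z hz w] at hvw
      exact (Prod.ext_iff.1 hvw).1
  · intro z hz1
    rcases hcase z with ⟨c, hc, hz⟩ | hz
    · rw [hΞin c hc z hz]
      exact hκ0 (b c) (z - c)
    · rw [hΞout z hz]
      intro h
      have h2 : τ z = 0 := (Prod.ext_iff.1 h).2
      have h3 := hz z (hzero z hz1 h2)
      rw [sub_self, norm_zero] at h3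
      linarith
  · intro z v
    rcases hcase z with ⟨c, hc, hz⟩ | hz
    · rw [hdin c hc z hz, hΞin c hc z hz]
      exact hKκ (b c) (z - c) v
    · rw [hdout z hz v, hΞout z hz]
      exact ip_nrm Fs (τ z) z v
  · intro z hz1 hz2
    have hz : ∀ c ∈ J, δ < ‖z - c‖ := by
      intro c hc
      have h1 := hJ c hc
      have h2 : ‖z‖ - ‖c‖ ≤ ‖z - c‖ := norm_sub_norm_le z c
      linarith
    have hz' : ∀ c ∈ J, δ / 2 < ‖z - c‖ := fun c hc => by have := hz c hc; linarith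
    have hFF : ∀ y, (∀ c ∈ J, δ < ‖y - c‖) → Fs y = F y := by
      intro y hy
      simp only [hFs]
      rw [Finset.sum_eq_zero fun c hc => ?_, add_zero]
      rw [hρ0 c y (by have := hy c hc; linarith), zero_smul]
    have h1 : Fs =ᶠ[𝓝 z] F := by
      filter_upwards [(hopen' δ).mem_nhds hz] with y hy
      exact hFF y hy
    rw [hΦout z hz', hΞout z hz', hFF z hz, hτσ z (by linarith) hz2]
    refine ⟨rfl, ?_⟩
    simp only [nrm, h1.fderiv_eq]

end Vale.Agent.P205.TI
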