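import Vale.Agent.P205.TI.Deg

/-!
P205, block TI, EZ0: parity of the number of zeros in a bounded open set depends on the boundary
values only.
-/

open scoped Manifold ContDiff Topology
open Set Module Bornology

noncomputable section

namespace Vale.Agent.P205.TI

lemma sum_sg_parity {α : Type*} (Z : Finset α) (s : α → ℤ) (hs : ∀ z ∈ Z, s z = 1 ∨ s z = -1) :
    Even (∑ z ∈ Z, s z) ↔ Even Z.card := by
  classical
  induction Z using Finset.induction_on with
  | empty => simp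
  | insert a Z ha ih =>
    rw [Finset.sum_insert ha, Finset.card_insert_of_notMem ha, Int.even_add,
      ih (fun z hz => hs z (Finset.mem_insert_of_mem hz)), Nat.even_add_one]
    have h : ¬ Even (s a) := by
      rcases hs a (Finset.mem_insert_self a Z) with h | h <;> rw [h] <;> decide
    tauto

lemma parity_core {n : ℕ} {g0 g1 : (Fin n → ℝ) → (Fin n → ℝ)} (h0 : ContDiff ℝ ∞ g0)
    (h1 : ContDiff ℝ ∞ g1) {W : Set (Fin n → ℝ)} (hW : IsOpen W) (hb : IsBounded W)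
    (hfr : ∀ x ∈ frontier W, g0 x = g1 x ∧ g0 x ≠ 0)
    (hr0 : ∀ x ∈ W, g0 x = 0 → (fderiv ℝ g0 x).det ≠ 0)
    (hr1 : ∀ x ∈ W, g1 x = 0 → (fderiv ℝ g1 x).det ≠ 0) :
    {x ∈ W | g0 x = 0}.Finite ∧ {x ∈ W | g1 x = 0}.Finite ∧
      (Even {x ∈ W | g0 x = 0}.ncard ↔ Even {x ∈ W | g1 x = 0}.ncard) := by
  classical
  obtain ⟨Z0, hZ0, L0, hL0, hJ0⟩ := Deg.regular_formula h0 hW hb (fun x hx => (hfr x hx).2) hr0
  obtain ⟨Z1, hZ1, L1, hL1, hJ1⟩ := Deg.regular_formula h1 hW hb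
    (fun x hx => (hfr x hx).1 ▸ (hfr x hx).2) hr1
  have e0 : {x ∈ W | g0 x = 0} = (Z0 : Set (Fin n → ℝ)) := by
    ext z; exact (hZ0 z).symm
  have e1 : {x ∈ W | g1 x = 0} = (Z1 : Set (Fin n → ℝ)) := by
    ext z; exact (hZ1 z).symm
  rw [e0, e1]
  refine ⟨Z0.finite_toSet, Z1.finite_toSet, ?_⟩
  rw [ncard_coe_finset, ncard_coe_finset]
  obtain ⟨m, hm, hmb⟩ := Deg.exists_pos_lower_bound (Deg.frontier_compact hb)
    h0.continuous.continuousOn (fun x hx => (hfr x hx).2)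
  set c : ℝ := max (max L0 L1) (2 / m) with hc
  have hc0 : 0 < c := lt_of_lt_of_le hL0 ((le_max_left _ _).trans (le_max_left _ _))
  have hJ : Deg.J (fun x => c • g0 x) W = Deg.J (fun x => c • g1 x) W := by
    refine Deg.J_homotopy hW hb (h0.const_smul c) (h1.const_smul c) (fun x hx t ht => ?_)
    rw [← (hfr x hx).1, ← add_smul, sub_add_cancel, one_smul, norm_smul, Real.norm_eq_abs,
      abs_of_pos hc0]
    have h2 : 2 / m ≤ c := le_max_right _ _
    have h3 : 2 / m * m ≤ c * ‖g0 x‖ := mul_le_mul h2 (hmb x hx) hm.le hc0.le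
    rw [div_mul_cancel₀ _ hm.ne'] at h3
    linarith
  rw [hJ0 c ((le_max_left _ _).trans (le_max_left _ _)),
    hJ1 c ((le_max_right _ _).trans (le_max_left _ _))] at hJ
  have hJ' : ∑ z ∈ Z0, Deg.sg (fderiv ℝ g0 z).det = ∑ z ∈ Z1, Deg.sg (fderiv ℝ g1 z).det := by
    exact_mod_cast hJ
  rw [← sum_sg_parity Z0 (fun z => Deg.sg (fderiv ℝ g0 z).det),
    ← sum_sg_parity Z1 (fun z => Deg.sg (fderiv ℝ g1 z).det), hJ']
  · intro z hz
    obtain ⟨hz1, hz2⟩ := (hZ1 z).1 hz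
    rcases lt_or_gt_of_ne (hr1 z hz1 hz2) with h | h
    · exact Or.inr (Deg.sg_neg h)
    · exact Or.inl (Deg.sg_pos h)
  · intro z hz
    obtain ⟨hz1, hz2⟩ := (hZ0 z).1 hz
    rcases lt_or_gt_of_ne (hr0 z hz1 hz2) with h | h
    · exact Or.inr (Deg.sg_neg h)
    · exact Or.inl (Deg.sg_pos h)

lemma det_ne_zero_of_injective {n : ℕ} {A : (Fin n → ℝ) →L[ℝ] (Fin n → ℝ)}
    (hA : Function.Injective A) : A.det ≠ 0 := by
  intro h
  have h1 := LinearMap.bot_lt_ker_of_det_eq_zero (f := (A : (Fin n → ℝ) →ₗ[ℝ] (Fin n → ℝ))) h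
  rw [LinearMap.ker_eq_bot.2 hA] at h1
  exact lt_irrefl _ h1

/-- EZ0: parity of the number of zeros in a bounded open set depends on the boundary values only -/
theorem parity_local {F : Type*} [NormedAddCommGroup F] [NormedSpace ℝ F] [FiniteDimensional ℝ F]
    {g0 g1 : F → F} (h0 : ContDiff ℝ ∞ g0) (h1 : ContDiff ℝ ∞ g1) {W : Set F} (hW : IsOpen W)
    (hb : Bornology.IsBounded W) (hfr : ∀ x ∈ frontier W, g0 x = g1 x ∧ g0 x ≠ 0)
    (hr0 : ∀ x ∈ W, g0 x = 0 → Function.Injective (fderiv ℝ g0 x))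
    (hr1 : ∀ x ∈ W, g1 x = 0 → Function.Injective (fderiv ℝ g1 x)) :
    {x ∈ W | g0 x = 0}.Finite ∧ {x ∈ W | g1 x = 0}.Finite ∧
      (Even {x ∈ W | g0 x = 0}.ncard ↔ Even {x ∈ W | g1 x = 0}.ncard) := by
  classical
  set L : F ≃L[ℝ] (Fin (finrank ℝ F) → ℝ) :=
    ContinuousLinearEquiv.ofFinrankEq (by simp) with hL
  have key : ∀ g : F → F, {x ∈ L '' W | L (g (L.symm x)) = 0} = L '' {x ∈ W | g x = 0} := by
    intro g
    ext y
    constructor
    · rintro ⟨⟨x, hx, rfl⟩, hy⟩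
      refine ⟨x, ⟨hx, ?_⟩, rfl⟩
      simpa using hy
    · rintro ⟨x, ⟨hx, hx0⟩, rfl⟩
      refine ⟨⟨x, hx, rfl⟩, ?_⟩
      simp [hx0]
  have hsm : ∀ g : F → F, ContDiff ℝ ∞ g → ContDiff ℝ ∞ (fun x => L (g (L.symm x))) :=
    fun g hg => L.contDiff.comp (hg.comp L.symm.contDiff)
  have hder : ∀ g : F → F, ContDiff ℝ ∞ g → (∀ x ∈ W, g x = 0 → Function.Injective (fderiv ℝ g x)) →
      ∀ x ∈ L '' W, L (g (L.symm x)) = 0 →
        (fderiv ℝ (fun x => L (g (L.symm x))) x).det ≠ 0 := by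
    rintro g hg hr _ ⟨x, hx, rfl⟩ hx0
    apply det_ne_zero_of_injective
    have hgd : HasFDerivAt g (fderiv ℝ g x) (L.symm (L x)) := by
      rw [L.symm_apply_apply]
      exact (hg.differentiable (by simp) x).hasFDerivAt
    have h2 : HasFDerivAt (fun x => L (g (L.symm x)))
        ((L : F →L[ℝ] _).comp ((fderiv ℝ g x).comp (L.symm : _ →L[ℝ] F))) (L x) :=
      L.hasFDerivAt.comp (L x) (hgd.comp (L x) L.symm.hasFDerivAt)
    rw [h2.fderiv]
    have h3 := hr x hx (by simpa using hx0)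
    intro a b hab
    simp only [ContinuousLinearMap.coe_comp, Function.comp_apply,
      ContinuousLinearEquiv.coe_coe] at hab
    exact L.symm.injective (h3 (L.injective hab))
  have hbd : IsBounded (L '' W) := L.lipschitz.isBounded_image hb
  have hop : IsOpen (L '' W) := L.toHomeomorph.isOpenMap W hW
  have hfr' : ∀ x ∈ frontier (L '' W), L (g0 (L.symm x)) = L (g1 (L.symm x)) ∧
      L (g0 (L.symm x)) ≠ 0 := by
    intro x hx
    have hx' : x ∈ L '' frontier W := by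
      have := L.toHomeomorph.image_frontier W
      have h4 : frontier (L '' W) = L '' frontier W := this.symm
      rwa [h4] at hx
    obtain ⟨y, hy, rfl⟩ := hx'
    rw [L.symm_apply_apply]
    refine ⟨by rw [(hfr y hy).1], fun h => (hfr y hy).2 ?_⟩
    simpa using h
  obtain ⟨k1, k2, k3⟩ := parity_core (hsm g0 h0) (hsm g1 h1) hop hbd hfr' (hder g0 h0 hr0)
    (hder g1 h1 hr1)
  rw [key] at k1 k2 k3
  rw [key g1] at k3
  rw [ncard_image_of_injective _ L.injective, ncard_image_of_injective _ L.injective] at k3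
  exact ⟨k1.of_finite_image L.injective.injOn, k2.of_finite_image L.injective.injOn, k3⟩

end Vale.Agent.P205.TI
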