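import Mathlib

/-!
P205, block TI, EZ1: equal dimensional Sard for the family `g + ψ c`.
-/

open MeasureTheory Set Filter Module
open scoped Topology ContDiff

namespace Vale.Agent.P205.TI

/-- EZ1: Sard in a chart -/
theorem sard_pert {E' F : Type*} [NormedAddCommGroup E'] [NormedSpace ℝ E']
    [FiniteDimensional ℝ E'] [NormedAddCommGroup F] [NormedSpace ℝ F] [FiniteDimensional ℝ F]
    [MeasurableSpace F] [BorelSpace F] (μ : MeasureTheory.Measure F) [μ.IsAddHaarMeasure]
    (hdim : finrank ℝ E' = finrank ℝ F) {O : Set E'} (hO : IsOpen O) {g : E' → F} {ψ : E' → ℝ}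
    (hg : ContDiffOn ℝ ∞ g O) (hψ : ContDiffOn ℝ ∞ ψ O) :
    ∀ᵐ c ∂μ, ∀ x ∈ O, ψ x ≠ 0 → g x + ψ x • c = 0 →
      Function.Injective (fderiv ℝ (fun y => g y + ψ y • c) x) := by
  set e : F ≃L[ℝ] E' := ContinuousLinearEquiv.ofFinrankEq hdim.symm with he
  set O' : Set E' := O ∩ ψ ⁻¹' {0}ᶜ with hO'
  have hO'o : IsOpen O' := hψ.continuousOn.isOpen_inter_preimage hO isOpen_compl_singleton
  set Φ : E' → F := fun x => -((ψ x)⁻¹ • g x) with hΦ
  have hΦd : ∀ x ∈ O', ContDiffAt ℝ 1 Φ x := by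
    intro x hx
    have h1 : ContDiffAt ℝ 1 g x :=
      (hg.contDiffAt (hO.mem_nhds hx.1)).of_le (by exact_mod_cast le_top)
    have h2 : ContDiffAt ℝ 1 ψ x :=
      (hψ.contDiffAt (hO.mem_nhds hx.1)).of_le (by exact_mod_cast le_top)
    exact ((h2.inv hx.2).smul h1).neg
  set f : F → F := fun z => Φ (e z) with hf
  set s : Set F := e ⁻¹' O' with hs
  set s0 : Set F := {z ∈ s | (fderiv ℝ f z).det = 0} with hs0
  have hfd : ∀ z ∈ s, HasFDerivAt f ((fderiv ℝ Φ (e z)).comp (e : F →L[ℝ] E')) z := by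
    intro z hz
    exact ((hΦd (e z) hz).differentiableAt one_ne_zero).hasFDerivAt.comp z e.hasFDerivAt
  have hnull : μ (f '' s0) = 0 := by
    refine addHaar_image_eq_zero_of_det_fderivWithin_eq_zero μ (f' := fun z => fderiv ℝ f z) ?_ ?_
    · intro z hz
      exact (hfd z hz.1).differentiableAt.hasFDerivAt.hasFDerivWithinAt
    · intro z hz
      exact hz.2
  have h2 : ∀ᵐ c ∂μ, c ∉ f '' s0 := measure_eq_zero_iff_ae_notMem.1 hnull
  filter_upwards [h2] with c hc x hx hψx hgx
  have hxO' : x ∈ O' := ⟨hx, hψx⟩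
  have hΦx : Φ x = c := by
    have h3 : g x = -(ψ x • c) := eq_neg_of_add_eq_zero_left hgx
    simp only [hΦ]
    rw [h3, smul_neg, neg_neg, smul_smul, inv_mul_cancel₀ hψx, one_smul]
  have hzs : e.symm x ∈ s := by
    simp only [hs, mem_preimage, ContinuousLinearEquiv.apply_symm_apply]
    exact hxO'
  have hfz : f (e.symm x) = c := by
    simp only [hf, ContinuousLinearEquiv.apply_symm_apply]
    exact hΦx
  have hdet : (fderiv ℝ f (e.symm x)).det ≠ 0 := fun h => hc ⟨e.symm x, ⟨hzs, h⟩, hfz⟩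
  have hfe : fderiv ℝ f (e.symm x) = (fderiv ℝ Φ x).comp (e : F →L[ℝ] E') := by
    have h3 := (hfd _ hzs).fderiv
    rwa [ContinuousLinearEquiv.apply_symm_apply] at h3
  have hinj : Function.Injective (fderiv ℝ Φ x) := by
    have h4 : Function.Injective (fderiv ℝ f (e.symm x)) := by
      have h5 := ((fderiv ℝ f (e.symm x)).toContinuousLinearEquivOfDetNeZero hdet).injective
      intro a b hab
      exact h5 (by simpa using hab)
    rw [hfe] at h4
    intro a b hab
    have h6 : ((fderiv ℝ Φ x).comp (e : F →L[ℝ] E')) (e.symm a) =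
        ((fderiv ℝ Φ x).comp (e : F →L[ℝ] E')) (e.symm b) := by
      simpa using hab
    exact e.symm.injective (h4 h6)
  have hΦf : HasFDerivAt Φ (fderiv ℝ Φ x) x :=
    ((hΦd x hxO').differentiableAt one_ne_zero).hasFDerivAt
  have hψf : HasFDerivAt ψ (fderiv ℝ ψ x) x :=
    ((hψ.contDiffAt (hO.mem_nhds hx)).differentiableAt (by simp)).hasFDerivAt
  have h7 := (hψf.smul (hΦf.sub_const c)).neg
  have h8 : (fun y => g y + ψ y • c) =ᶠ[𝓝 x] fun y => -(ψ y • (Φ y - c)) := by
    filter_upwards [hO'o.mem_nhds hxO'] with y hy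
    have h9 : ψ y ≠ 0 := hy.2
    simp only [hΦ]
    rw [smul_sub, smul_neg, smul_smul, mul_inv_cancel₀ h9, one_smul]
    abel
  have h10 := (h7.congr_of_eventuallyEq h8).fderiv
  rw [h10, hΦx, sub_self]
  intro a b hab
  simp only [ContinuousLinearMap.smulRight_zero, add_zero, ContinuousLinearMap.neg_apply,
    ContinuousLinearMap.smul_apply, neg_inj] at hab
  exact hinj (smul_right_injective F hψx hab)

end Vale.Agent.P205.TI
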