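import Vale.Agent.P205.TI.EZ1

open scoped Manifold ContDiff Topology
open Set Module

noncomputable section

namespace Vale.Agent.P205.TI

section EZ

variable {E' : Type*} [NormedAddCommGroup E'] [NormedSpace ℝ E']
  {H : Type*} [TopologicalSpace H] (I : ModelWithCorners ℝ E' H) [I.Boundaryless]
  {N : Type*} [TopologicalSpace N] [ChartedSpace H N] [IsManifold I ∞ N]
  {F : Type*} [NormedAddCommGroup F] [NormedSpace ℝ F]

lemma contDiffOn_ext {K : N → F} (hK : ContMDiff I 𝓘(ℝ, F) ∞ K) (p : N) :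
    ContDiffOn ℝ ∞ (K ∘ (extChartAt I p).symm) (extChartAt I p).target := by
  rw [← contMDiffOn_iff_contDiffOn]
  exact hK.comp_contMDiffOn (contMDiffOn_extChartAt_symm p)

lemma mfderiv_ext {K : N → F} (hK : ContMDiff I 𝓘(ℝ, F) ∞ K) (p : N) {q : N}
    (hq : q ∈ (extChartAt I p).source) :
    mfderiv I 𝓘(ℝ, F) K q = (fderiv ℝ (K ∘ (extChartAt I p).symm) (extChartAt I p q)).comp
      (mfderiv I 𝓘(ℝ, E') (extChartAt I p) q) := by
  have : IsManifold I 1 N := IsManifold.of_le (n := ∞) (by simp)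
  have hx : extChartAt I p q ∈ (extChartAt I p).target := (extChartAt I p).map_source hq
  have hnhds : (extChartAt I p).target ∈ 𝓝 (extChartAt I p q) :=
    (isOpen_extChartAt_target p).mem_nhds hx
  have h1 : MDifferentiableAt 𝓘(ℝ, E') 𝓘(ℝ, F) (K ∘ (extChartAt I p).symm)
      (extChartAt I p q) := by
    have := ((contDiffOn_ext I hK p).contDiffAt hnhds).differentiableAt (by simp)
    exact this.mdifferentiableAt
  have h2 : MDifferentiableAt I 𝓘(ℝ, E') (extChartAt I p) q :=
    mdifferentiableAt_extChartAt (by rwa [extChartAt_source] at hq)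
  have h3 : K =ᶠ[𝓝 q] (K ∘ (extChartAt I p).symm) ∘ (extChartAt I p) := by
    filter_upwards [(isOpen_extChartAt_source (I := I) p).mem_nhds hq] with y hy
    show K y = K ((extChartAt I p).symm (extChartAt I p y))
    rw [(extChartAt I p).left_inv hy]
  rw [h3.mfderiv_eq, mfderiv_comp q h1 h2, mfderiv_eq_fderiv]
  rfl

lemma mfderiv_inj_iff {K : N → F} (hK : ContMDiff I 𝓘(ℝ, F) ∞ K) (p : N) {q : N}
    (hq : q ∈ (extChartAt I p).source) :
    Function.Injective (mfderiv I 𝓘(ℝ, F) K q) ↔
      Function.Injective (fderiv ℝ (K ∘ (extChartAt I p).symm) (extChartAt I p q)) := by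
  have : IsManifold I 1 N := IsManifold.of_le (n := ∞) (by simp)
  obtain ⟨e, he⟩ := isInvertible_mfderiv_extChartAt (I := I) hq
  rw [mfderiv_ext I hK p hq, ← he]
  constructor
  · intro h a b hab
    obtain ⟨a', rfl⟩ := e.surjective a
    obtain ⟨b', rfl⟩ := e.surjective b
    exact congrArg e (h hab)
  · intro h a b hab
    exact e.injective (h hab)

/-- EZ2: Sard on a compact manifold -/
theorem sard_mfd [FiniteDimensional ℝ E'] [FiniteDimensional ℝ F] [CompactSpace N]
    [MeasurableSpace F] [BorelSpace F] (μ : MeasureTheory.Measure F)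
    [μ.IsAddHaarMeasure] (hdim : finrank ℝ E' = finrank ℝ F) {G : N → F} {ψ : N → ℝ}
    (hG : ContMDiff I 𝓘(ℝ, F) ∞ G) (hψ : ContMDiff I 𝓘(ℝ, ℝ) ∞ ψ) :
    ∀ᵐ c ∂μ, ∀ p, ψ p ≠ 0 → G p + ψ p • c = 0 →
      Function.Injective (mfderiv I 𝓘(ℝ, F) (fun q => G q + ψ q • c) p) := by
  obtain ⟨t, ht⟩ := CompactSpace.elim_nhds_subcover (fun p : N => (extChartAt I p).source)
    (fun p => extChartAt_source_mem_nhds p)
  have hae : ∀ᵐ c ∂μ, ∀ p ∈ t, ∀ x ∈ (extChartAt I p).target,
      (ψ ∘ (extChartAt I p).symm) x ≠ 0 → (G ∘ (extChartAt I p).symm) x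
        + (ψ ∘ (extChartAt I p).symm) x • c = 0 →
      Function.Injective (fderiv ℝ (fun y => (G ∘ (extChartAt I p).symm) y
        + (ψ ∘ (extChartAt I p).symm) y • c) x) := by
    refine (MeasureTheory.ae_ball_iff t.countable_toSet).2 fun p _ => ?_
    exact sard_pert μ hdim (isOpen_extChartAt_target p) (contDiffOn_ext I hG p)
      (contDiffOn_ext I hψ p)
  filter_upwards [hae] with c hc q hq0 hq
  have hqt : q ∈ ⋃ p ∈ t, (extChartAt I p).source := by rw [ht]; trivial
  obtain ⟨p, hp, hqp⟩ := mem_iUnion₂.1 hqt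
  have hK : ContMDiff I 𝓘(ℝ, F) ∞ (fun q => G q + ψ q • c) :=
    hG.add (hψ.smul contMDiff_const)
  rw [mfderiv_inj_iff I hK p hqp]
  have hl : (extChartAt I p).symm (extChartAt I p q) = q := (extChartAt I p).left_inv hqp
  refine hc p hp _ ((extChartAt I p).map_source hqp) ?_ ?_
  · simpa only [Function.comp_apply, hl] using hq0
  · simpa only [Function.comp_apply, hl] using hq

/-- EZ3: nondegenerate zeros are finite in number -/
theorem finite_zeros [FiniteDimensional ℝ E'] [CompactSpace N]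
    {G : N → F} (hG : ContMDiff I 𝓘(ℝ, F) ∞ G)
    (h0 : ∀ p, G p = 0 → Function.Injective (mfderiv I 𝓘(ℝ, F) G p)) :
    {p | G p = 0}.Finite := by
  have hU : ∀ p : N, ∃ U ∈ 𝓝 p, ∀ q ∈ U, G q = 0 → q = p := by
    intro p
    by_cases hp : G p = 0
    · have hinj := h0 p hp
      rw [mfderiv_inj_iff I hG p (mem_extChartAt_source p)] at hinj
      have hx : extChartAt I p p ∈ (extChartAt I p).target := mem_extChartAt_target p
      have hnhds : (extChartAt I p).target ∈ 𝓝 (extChartAt I p p) :=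
        (isOpen_extChartAt_target p).mem_nhds hx
      have hd := (((contDiffOn_ext I hG p).contDiffAt hnhds).differentiableAt
        (by simp)).hasFDerivAt
      have hanti : ∃ C, AntilipschitzWith C (fderiv ℝ (G ∘ (extChartAt I p).symm)
          (extChartAt I p p)) := by
        obtain ⟨C, -, hC⟩ := LinearMap.exists_antilipschitzWith
          (fderiv ℝ (G ∘ (extChartAt I p).symm) (extChartAt I p p)).toLinearMap
          (LinearMap.ker_eq_bot.2 hinj)
        exact ⟨C, hC⟩
      have he := hd.eventually_ne (c := (0 : F)) hanti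
      rw [eventually_nhdsWithin_iff] at he
      have hc : ContinuousAt (extChartAt I p) p := continuousAt_extChartAt p
      refine ⟨_, Filter.inter_mem (extChartAt_source_mem_nhds (I := I) p) (hc.eventually he), ?_⟩
      rintro q ⟨hq1, hq2⟩ hq0
      by_contra hne
      have hne' : extChartAt I p q ≠ extChartAt I p p := fun h =>
        hne ((extChartAt I p).injOn hq1 (mem_extChartAt_source p) h)
      refine hq2 hne' ?_
      rw [Function.comp_apply, (extChartAt I p).left_inv hq1, hq0]
    · refine ⟨{q | G q ≠ 0}, ?_, fun q hq hq0 => (hq hq0).elim⟩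
      exact (isOpen_ne.preimage hG.continuous).mem_nhds hp
  choose U hU1 hU2 using hU
  obtain ⟨t, ht⟩ := CompactSpace.elim_nhds_subcover U hU1
  refine t.finite_toSet.subset fun q hq => ?_
  have hqt : q ∈ ⋃ p ∈ t, U p := by rw [ht]; trivial
  obtain ⟨p, hp, hqp⟩ := mem_iUnion₂.1 hqt
  rw [hU2 p q hqp hq]
  exact hp

end EZ

end Vale.Agent.P205.TI
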