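import Vale.Agent.P205.TI.EZ4a

/-!
P205, block TI, EZ4: the step lemma.
-/

open scoped Manifold ContDiff Topology
open Set Module Metric

namespace Vale.Agent.P205.TI

variable {E' : Type*} [NormedAddCommGroup E'] [NormedSpace ℝ E'] [FiniteDimensional ℝ E']
  {H : Type*} [TopologicalSpace H] {I : ModelWithCorners ℝ E' H} [I.Boundaryless]
  {N : Type*} [TopologicalSpace N] [ChartedSpace H N] [IsManifold I ∞ N]
  {F : Type*} [NormedAddCommGroup F] [NormedSpace ℝ F] [FiniteDimensional ℝ F]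

/-- the local parity statement -/
def ParLoc (F : Type*) [NormedAddCommGroup F] [NormedSpace ℝ F] : Prop :=
  ∀ g0 g1 : F → F, ContDiff ℝ ∞ g0 → ContDiff ℝ ∞ g1 → ∀ W : Set F, IsOpen W →
    Bornology.IsBounded W → (∀ x ∈ frontier W, g0 x = g1 x ∧ g0 x ≠ 0) →
    (∀ x ∈ W, g0 x = 0 → Function.Injective (fderiv ℝ g0 x)) →
    (∀ x ∈ W, g1 x = 0 → Function.Injective (fderiv ℝ g1 x)) →
      (Even {x ∈ W | g0 x = 0}.ncard ↔ Even {x ∈ W | g1 x = 0}.ncard)

/-- cut off a chart expression -/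
theorem ez_cut {T : Set E'} (hT : IsOpen T) {k : E' → F} (hk : ContDiffOn ℝ ∞ k T)
    {b : E' → ℝ} (hb : ContDiff ℝ ∞ b) (h0 : ∀ x ∉ T, ∀ᶠ y in 𝓝 x, b y = 0) :
    ContDiff ℝ ∞ (fun y => b y • k y) := by
  rw [contDiff_iff_contDiffAt]
  intro x
  by_cases hx : x ∈ T
  · exact hb.contDiffAt.smul (hk.contDiffAt (hT.mem_nhds hx))
  · have h1 : (fun y => b y • k y) =ᶠ[𝓝 x] fun _ => (0 : F) := by
      filter_upwards [h0 x hx] with y hy
      rw [hy, zero_smul]
    exact contDiffAt_const.congr_of_eventuallyEq h1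

theorem ez_step [CompactSpace N] (hP : ParLoc F) (hdim : finrank ℝ E' = finrank ℝ F)
    {G0 G1 : N → F}
    (s0 : ContMDiff I 𝓘(ℝ, F) ∞ G0) (s1 : ContMDiff I 𝓘(ℝ, F) ∞ G1)
    (n0 : ∀ p, G0 p = 0 → Function.Injective (mfderiv I 𝓘(ℝ, F) G0 p))
    (n1 : ∀ p, G1 p = 0 → Function.Injective (mfderiv I 𝓘(ℝ, F) G1 p))
    (f0 : {p | G0 p = 0}.Finite) (f1 : {p | G1 p = 0}.Finite) (c : N) {C : Set N}
    (hC : IsClosed C) (hCs : C ⊆ (extChartAt I c).source) (heq : ∀ p ∉ C, G0 p = G1 p) :
    Even {p | G0 p = 0}.ncard ↔ Even {p | G1 p = 0}.ncard := by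
  classical
  set φ := extChartAt I c with hφ
  have hTo : IsOpen φ.target := isOpen_extChartAt_target c
  set K : Set E' := φ '' C with hK
  have hKc : IsCompact K :=
    hC.isCompact.image_of_continuousOn ((continuousOn_extChartAt c).mono hCs)
  have hKT : K ⊆ φ.target := by
    rintro _ ⟨p, hp, rfl⟩
    exact φ.map_source (hCs hp)
  obtain ⟨δ, hδ, hKδ⟩ := hKc.exists_cthickening_subset_open hTo hKT
  have hbad : ((fun z => (infEDist z K).toReal) '' (φ '' ({p | G0 p = 0} ∪
      {p | G1 p = 0}))).Finite := ((f0.union f1).image _).image _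
  obtain ⟨r, hr, hrb⟩ := (Set.Ioo_infinite hδ).exists_notMem_finite hbad
  have hr0 : 0 < r := hr.1
  have hrδ : r < δ := hr.2
  have hrz : ∀ p, (G0 p = 0 ∨ G1 p = 0) → infEDist (φ p) K ≠ ENNReal.ofReal r := by
    intro p hp h
    apply hrb
    refine ⟨φ p, ⟨p, hp, rfl⟩, ?_⟩
    simp only [h, ENNReal.toReal_ofReal hr0.le]
  set W : Set E' := thickening r K with hW
  have hWo : IsOpen W := isOpen_thickening
  have hWb : Bornology.IsBounded W := hKc.isBounded.thickening
  have hWt : closure W ⊆ cthickening r K := closure_thickening_subset_cthickening r K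
  have hKW : K ⊆ W := self_subset_thickening hr0 K
  have htδ : cthickening r K ⊆ thickening δ K := cthickening_subset_thickening' hδ hrδ K
  have hδT : thickening δ K ⊆ φ.target := (thickening_subset_cthickening δ K).trans hKδ
  have hWT : W ⊆ φ.target := subset_closure.trans (hWt.trans (htδ.trans hδT))
  obtain ⟨b, hb0, hb1, -⟩ := exists_contMDiffMap_zero_one_nhds_of_isClosed (n := ⊤)
    𝓘(ℝ, E') (s := (thickening δ K)ᶜ) (t := cthickening r K)
    isOpen_thickening.isClosed_compl isClosed_cthickening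
    (disjoint_left.2 fun x hx hx' => hx (htδ hx'))
  have hb : ContDiff ℝ ∞ (b : E' → ℝ) := contMDiff_iff_contDiff.1 b.contMDiff
  have hbT : ∀ x ∉ φ.target, ∀ᶠ y in 𝓝 x, b y = 0 := by
    intro x hx
    exact (eventually_nhdsSet_iff_forall.1 hb0) x fun h => hx (hδT h)
  have hbW : ∀ x ∈ closure W, ∀ᶠ y in 𝓝 x, b y = 1 := by
    intro x hx
    exact (eventually_nhdsSet_iff_forall.1 hb1) x (hWt hx)
  set e : F ≃L[ℝ] E' := ContinuousLinearEquiv.ofFinrankEq hdim.symm with he
  -- the two cut off functions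
  have key : ∀ G : N → F, ContMDiff I 𝓘(ℝ, F) ∞ G →
      (∀ p, G p = 0 → Function.Injective (mfderiv I 𝓘(ℝ, F) G p)) →
      ContDiff ℝ ∞ (fun x : F => b (e x) • G (φ.symm (e x))) ∧
      (∀ x ∈ e ⁻¹' W, b (e x) • G (φ.symm (e x)) = 0 →
        Function.Injective (fderiv ℝ (fun x : F => b (e x) • G (φ.symm (e x))) x)) ∧
      {x ∈ e ⁻¹' W | b (e x) • G (φ.symm (e x)) = 0}.ncard =
        ({p | G p = 0} ∩ (φ.source ∩ φ ⁻¹' W)).ncard := by
    intro G hG hn
    have hk := ez_cut hTo (ez_contDiffOn hG c) hb hbT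
    refine ⟨hk.comp e.contDiff, ?_, ?_⟩
    · intro x hx hx0
      have hxW : e x ∈ W := hx
      have h1 := hbW (e x) (subset_closure hxW)
      have hb1x : b (e x) = 1 := h1.self_of_nhds
      rw [hb1x, one_smul] at hx0
      have h2 : fderiv ℝ (fun y => b y • G (φ.symm y)) (e x) =
          fderiv ℝ (fun y => G (φ.symm y)) (e x) := by
        apply Filter.EventuallyEq.fderiv_eq
        filter_upwards [h1] with y hy
        rw [hy, one_smul]
      have h3 : fderiv ℝ (fun x : F => b (e x) • G (φ.symm (e x))) x =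
          (fderiv ℝ (fun y => b y • G (φ.symm y)) (e x)).comp (e : F →L[ℝ] E') := by
        have h4 := (hk.differentiable (by simp) (e x)).hasFDerivAt.comp x e.hasFDerivAt
        exact h4.fderiv
      rw [h3, h2]
      have h5 := ez_inj hG c (hWT hxW) (hn _ hx0)
      intro v w hvw
      exact e.injective (h5 hvw)
    · have him : (fun x : F => φ.symm (e x)) '' {x ∈ e ⁻¹' W | b (e x) • G (φ.symm (e x)) = 0} =
          {p | G p = 0} ∩ (φ.source ∩ φ ⁻¹' W) := by
        ext p
        constructor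
        · rintro ⟨x, ⟨hx, hx0⟩, rfl⟩
          have hxW : e x ∈ W := hx
          have hb1x : b (e x) = 1 := (hbW (e x) (subset_closure hxW)).self_of_nhds
          rw [hb1x, one_smul] at hx0
          refine ⟨hx0, φ.map_target (hWT hxW), ?_⟩
          simp only [mem_preimage]
          rw [φ.right_inv (hWT hxW)]
          exact hxW
        · rintro ⟨hp0, hps, hpW⟩
          refine ⟨e.symm (φ p), ⟨?_, ?_⟩, ?_⟩
          · simpa using hpW
          · rw [ContinuousLinearEquiv.apply_symm_apply, φ.left_inv hps, hp0, smul_zero]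
          · simp only [ContinuousLinearEquiv.apply_symm_apply]
            exact φ.left_inv hps
      rw [← him, InjOn.ncard_image]
      intro x hx y hy hxy
      have h1 : e x ∈ φ.target := hWT hx.1
      have h2 : e y ∈ φ.target := hWT hy.1
      exact e.injective (φ.symm.injOn h1 h2 hxy)
  obtain ⟨k0, m0, c0⟩ := key G0 s0 n0
  obtain ⟨k1, m1, c1⟩ := key G1 s1 n1
  have hmain := hP _ _ k0 k1 (e ⁻¹' W) (hWo.preimage e.continuous)
    (e.antilipschitz.isBounded_preimage hWb) ?_ m0 m1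
  · rw [c0, c1] at hmain
    have hout : {p | G0 p = 0} \ (φ.source ∩ φ ⁻¹' W) = {p | G1 p = 0} \ (φ.source ∩ φ ⁻¹' W) := by
      ext p
      simp only [mem_sdiff, mem_ofPred_eq]
      constructor
      · rintro ⟨h1, h2⟩
        have h3 : p ∉ C := fun h => h2 ⟨hCs h, hKW ⟨p, h, rfl⟩⟩
        exact ⟨by rw [← heq p h3]; exact h1, h2⟩
      · rintro ⟨h1, h2⟩
        have h3 : p ∉ C := fun h => h2 ⟨hCs h, hKW ⟨p, h, rfl⟩⟩
        exact ⟨by rw [heq p h3]; exact h1, h2⟩
    have e0 := ncard_inter_add_ncard_sdiff_eq_ncard {p | G0 p = 0} (φ.source ∩ φ ⁻¹' W) f0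
    have e1 := ncard_inter_add_ncard_sdiff_eq_ncard {p | G1 p = 0} (φ.source ∩ φ ⁻¹' W) f1
    rw [← e0, ← e1, hout, Nat.even_add, Nat.even_add, hmain]
  · intro x hx
    have hx1 : e x ∈ frontier W := by
      have := e.toHomeomorph.preimage_frontier W
      have hx' : x ∈ e.toHomeomorph ⁻¹' frontier W := by
        rw [this]
        exact hx
      exact hx'
    have hx2 : infEDist (e x) K = ENNReal.ofReal r := frontier_thickening_subset K hx1
    have hx3 : e x ∈ closure W := frontier_subset_closure hx1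
    have hx4 : e x ∈ φ.target := hδT (htδ (hWt hx3))
    have hb1x : b (e x) = 1 := (hbW (e x) hx3).self_of_nhds
    have hxK : φ.symm (e x) ∉ C := by
      intro h
      have h1 : e x ∈ K := ⟨φ.symm (e x), h, φ.right_inv hx4⟩
      have h2 : infEDist (e x) K = 0 := infEDist_zero_of_mem h1
      rw [h2] at hx2
      have := ENNReal.ofReal_pos.2 hr0
      rw [← hx2] at this
      exact lt_irrefl _ this
    rw [hb1x, one_smul, one_smul]
    refine ⟨heq _ hxK, ?_⟩
    intro h
    apply hrz (φ.symm (e x)) (Or.inl h)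
    rw [φ.right_inv hx4]
    exact hx2

end Vale.Agent.P205.TI
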