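import Vale.Agent.P205.TI.EZ0
import Vale.Agent.P205.TI.EZ2
import Vale.Agent.P205.TI.EZ4b

/-!
P205, block TI, EZ4: the number of zeros of a map of a closed manifold to a vector space of the
same dimension is even.
-/

open scoped Manifold ContDiff Topology
open Set Module

namespace Vale.Agent.P205.TI

variable {E' : Type*} [NormedAddCommGroup E'] [NormedSpace ℝ E'] [FiniteDimensional ℝ E']
  {H : Type*} [TopologicalSpace H] (I : ModelWithCorners ℝ E' H) [I.Boundaryless]
  {N : Type*} [TopologicalSpace N] [ChartedSpace H N] [IsManifold I ∞ N]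
  [CompactSpace N]
  {F : Type*} [NormedAddCommGroup F] [NormedSpace ℝ F] [FiniteDimensional ℝ F]

theorem parLoc (F : Type*) [NormedAddCommGroup F] [NormedSpace ℝ F] [FiniteDimensional ℝ F] :
    ParLoc F :=
  fun _ _ h0 h1 _ hW hb hfr hr0 hr1 => (parity_local h0 h1 hW hb hfr hr0 hr1).2.2

/-- EZ4: the number of zeros is even -/
theorem even_zeros [T2Space N] (hdim : finrank ℝ E' = finrank ℝ F) (hpos : 0 < finrank ℝ F)
    {G : N → F} (hG : ContMDiff I 𝓘(ℝ, F) ∞ G)
    (h0 : ∀ p, G p = 0 → Function.Injective (mfderiv I 𝓘(ℝ, F) G p)) :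
    Even {p | G p = 0}.ncard := by
  classical
  obtain ⟨t, ht⟩ := CompactSpace.elim_nhds_subcover (fun p : N => (extChartAt I p).source)
    (fun p => extChartAt_source_mem_nhds p)
  obtain ⟨χ, hχ⟩ := SmoothPartitionOfUnity.exists_isSubordinate I (s := (univ : Set N))
    isClosed_univ (fun i : {p : N // p ∈ t} => (extChartAt I (i : N)).source)
    (fun i => isOpen_extChartAt_source (i : N)) (by
      intro p _
      have hp : p ∈ ⋃ q ∈ t, (extChartAt I q).source := by
        rw [ht]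
        trivial
      simp only [mem_iUnion] at hp ⊢
      obtain ⟨q, hq, hpq⟩ := hp
      exact ⟨⟨q, hq⟩, hpq⟩)
  set ψ : Finset {p : N // p ∈ t} → N → ℝ := fun S p => ∑ i ∈ S, χ i p with hψdef
  have hψs : ∀ S, ContMDiff I 𝓘(ℝ, ℝ) ∞ (ψ S) := by
    intro S
    have := contMDiff_finsetSum (t := S) (I := 𝓘(ℝ, ℝ)) (I' := I) (n := ∞)
      (f := fun i : {p : N // p ∈ t} => (χ i : N → ℝ)) (fun i _ => (χ i).contMDiff)
    exact this
  have hψ0 : ∀ S p, 0 ≤ ψ S p := fun S p => Finset.sum_nonneg fun i _ => χ.nonneg i p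
  have hψ1 : ∀ p, ψ Finset.univ p = 1 := by
    intro p
    have h1 := χ.sum_eq_one (mem_univ p)
    rwa [finsum_eq_sum_of_fintype] at h1
  let _ : MeasurableSpace F := borel F
  have _ : BorelSpace F := ⟨rfl⟩
  set μ : MeasureTheory.Measure F := MeasureTheory.Measure.addHaar with hμ
  have hae : ∀ᵐ c ∂μ, ∀ S : Finset {p : N // p ∈ t}, ∀ p, ψ S p ≠ 0 → G p + ψ S p • c = 0 →
      Function.Injective (mfderiv I 𝓘(ℝ, F) (fun q => G q + ψ S q • c) p) := by
    rw [MeasureTheory.ae_all_iff]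
    intro S
    exact sard_mfd I μ hdim hG (hψs S)
  have _ : Nontrivial F := Module.nontrivial_of_finrank_pos hpos
  obtain ⟨R, hR⟩ : ∃ R : ℝ, ∀ p, ‖G p‖ ≤ R := by
    obtain ⟨R, hR⟩ := isCompact_univ.exists_bound_of_continuousOn (f := G)
      hG.continuous.continuousOn
    exact ⟨R, fun p => hR p (mem_univ p)⟩
  obtain ⟨c, hcS, hcR⟩ : ∃ c : F, (∀ S : Finset {p : N // p ∈ t}, ∀ p, ψ S p ≠ 0 →
      G p + ψ S p • c = 0 →
      Function.Injective (mfderiv I 𝓘(ℝ, F) (fun q => G q + ψ S q • c) p)) ∧ R < ‖c‖ := by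
    have hd := MeasureTheory.Measure.dense_of_ae hae
    obtain ⟨c0, hc0⟩ := NormedSpace.exists_lt_norm ℝ F R
    have ho : IsOpen {c : F | R < ‖c‖} := isOpen_lt continuous_const continuous_norm
    obtain ⟨c, hc1, hc2⟩ := hd.inter_open_nonempty _ ho ⟨c0, hc0⟩
    exact ⟨c, hc2, hc1⟩
  have hGs : ∀ S, ContMDiff I 𝓘(ℝ, F) ∞ (fun q => G q + ψ S q • c) := fun S =>
    hG.add ((hψs S).smul contMDiff_const)
  have hnd : ∀ S, ∀ p, G p + ψ S p • c = 0 →
      Function.Injective (mfderiv I 𝓘(ℝ, F) (fun q => G q + ψ S q • c) p) := fun S =>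
    ez_nondeg hG (hψs S) (hψ0 S) h0 (hcS S)
  have hfin : ∀ S, {p | G p + ψ S p • c = 0}.Finite := fun S => finite_zeros I (hGs S) (hnd S)
  have hstep : ∀ S : Finset {p : N // p ∈ t}, Even {p | G p = 0}.ncard ↔
      Even {p | G p + ψ S p • c = 0}.ncard := by
    intro S
    induction S using Finset.induction_on with
    | empty => simp [hψdef]
    | insert i S hi ih =>
      rw [ih]
      refine ez_step (parLoc F) hdim (hGs S) (hGs (insert i S)) (hnd S) (hnd (insert i S))
        (hfin S) (hfin (insert i S)) (i : N) (C := tsupport (χ i)) (isClosed_tsupport _)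
        (hχ i) ?_
      intro p hp
      have h1 : χ i p = 0 := image_eq_zero_of_notMem_tsupport hp
      have h2 : ψ (insert i S) p = ψ S p := by
        simp only [hψdef]
        rw [Finset.sum_insert hi, h1, zero_add]
      simp only [h2]
  rw [hstep Finset.univ]
  have hempty : {p | G p + ψ Finset.univ p • c = 0} = ∅ := by
    ext p
    simp only [mem_ofPred_eq, mem_empty_iff_false, iff_false]
    intro h
    rw [hψ1, one_smul] at h
    have h1 : G p = -c := eq_neg_of_add_eq_zero_left h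
    have h2 := hR p
    rw [h1, norm_neg] at h2
    exact absurd h2 (not_le.2 hcR)
  rw [hempty, ncard_empty]
  exact Even.zero

end Vale.Agent.P205.TI
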