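import Mathlib

/-!
P205, block TI, EZ4: auxiliary lemmas on charts and minima.
-/

open scoped Manifold ContDiff Topology
open Set Module

namespace Vale.Agent.P205.TI

variable {E' : Type*} [NormedAddCommGroup E'] [NormedSpace ℝ E']
  {H : Type*} [TopologicalSpace H] {I : ModelWithCorners ℝ E' H} [I.Boundaryless]
  {N : Type*} [TopologicalSpace N] [ChartedSpace H N] [IsManifold I ∞ N]
  {F : Type*} [NormedAddCommGroup F] [NormedSpace ℝ F]

/-- chart expressions are smooth -/
theorem ez_contDiffOn {G : N → F} (hG : ContMDiff I 𝓘(ℝ, F) ∞ G) (c : N) :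
    ContDiffOn ℝ ∞ (fun y => G ((extChartAt I c).symm y)) (extChartAt I c).target := by
  have h1 : ContMDiffOn 𝓘(ℝ, E') I ∞ (extChartAt I c).symm (extChartAt I c).target :=
    contMDiffOn_extChartAt_symm c
  have h2 : ContMDiffOn 𝓘(ℝ, E') 𝓘(ℝ, F) ∞ (G ∘ (extChartAt I c).symm)
      (extChartAt I c).target := hG.comp_contMDiffOn h1
  exact contMDiffOn_iff_contDiffOn.1 h2

/-- derivative of the chart expression -/
theorem ez_fderiv {G : N → F} (hG : ContMDiff I 𝓘(ℝ, F) ∞ G) (c : N) {y : E'}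
    (hy : y ∈ (extChartAt I c).target) :
    ∃ A : E' →L[ℝ] E', Function.Bijective A ∧ ∀ v : E',
      fderiv ℝ (fun y => G ((extChartAt I c).symm y)) y v =
        (mfderiv I 𝓘(ℝ, F) G ((extChartAt I c).symm y) : E' →L[ℝ] F) (A v) := by
  have h1 : MDifferentiableAt 𝓘(ℝ, E') I (extChartAt I c).symm y := by
    have := mdifferentiableWithinAt_extChartAt_symm (I := I) hy
    rwa [I.range_eq_univ, mdifferentiableWithinAt_univ] at this
  have h2 : MDifferentiableAt I 𝓘(ℝ, F) G ((extChartAt I c).symm y) :=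
    (hG _).mdifferentiableAt (by simp)
  have hinv := isInvertible_mfderivWithin_extChartAt_symm (I := I) hy
  rw [I.range_eq_univ, mfderivWithin_univ] at hinv
  refine ⟨(mfderiv 𝓘(ℝ, E') I (extChartAt I c).symm y : E' →L[ℝ] E'), ?_, ?_⟩
  · exact hinv.bijective
  · intro v
    have h3 := mfderiv_comp y h2 h1
    have h4 : fderiv ℝ (fun y => G ((extChartAt I c).symm y)) y =
        mfderiv 𝓘(ℝ, E') 𝓘(ℝ, F) (G ∘ (extChartAt I c).symm) y :=
      mfderiv_eq_fderiv.symm
    rw [h4, h3]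
    rfl

theorem ez_inj {G : N → F} (hG : ContMDiff I 𝓘(ℝ, F) ∞ G) (c : N) {y : E'}
    (hy : y ∈ (extChartAt I c).target)
    (hi : Function.Injective (mfderiv I 𝓘(ℝ, F) G ((extChartAt I c).symm y))) :
    Function.Injective (fderiv ℝ (fun y => G ((extChartAt I c).symm y)) y) := by
  obtain ⟨A, hA, h⟩ := ez_fderiv hG c hy
  intro v w hvw
  rw [h, h] at hvw
  exact hA.1 (hi hvw)

/-- at a zero of a nonnegative function the differential vanishes -/
theorem ez_min {ψ : N → ℝ} (hψ : ContMDiff I 𝓘(ℝ, ℝ) ∞ ψ) (h0 : ∀ p, 0 ≤ ψ p) {p : N}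
    (hp : ψ p = 0) (v : E') : (mfderiv I 𝓘(ℝ, ℝ) ψ p : E' →L[ℝ] ℝ) v = 0 := by
  have hy : extChartAt I p p ∈ (extChartAt I p).target := mem_extChartAt_target p
  obtain ⟨A, hA, h⟩ := ez_fderiv hψ p hy
  obtain ⟨w, rfl⟩ := hA.2 v
  have h1 : fderiv ℝ (fun y => ψ ((extChartAt I p).symm y)) (extChartAt I p p) = 0 := by
    apply IsLocalMin.fderiv_eq_zero
    refine Filter.Eventually.of_forall fun y => ?_
    simp only [extChartAt_to_inv]
    rw [hp]
    exact h0 _
  have h2 := h w
  rw [h1, extChartAt_to_inv] at h2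
  exact h2.symm

/-- nondegeneracy of the zeros of `G + ψ c` -/
theorem ez_nondeg {G : N → F} {ψ : N → ℝ} (hG : ContMDiff I 𝓘(ℝ, F) ∞ G)
    (hψ : ContMDiff I 𝓘(ℝ, ℝ) ∞ ψ) (hpos : ∀ p, 0 ≤ ψ p)
    (h0 : ∀ p, G p = 0 → Function.Injective (mfderiv I 𝓘(ℝ, F) G p)) {c : F}
    (hc : ∀ p, ψ p ≠ 0 → G p + ψ p • c = 0 →
      Function.Injective (mfderiv I 𝓘(ℝ, F) (fun q => G q + ψ q • c) p)) :
    ∀ p, G p + ψ p • c = 0 →
      Function.Injective (mfderiv I 𝓘(ℝ, F) (fun q => G q + ψ q • c) p) := by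
  intro p hp
  by_cases h : ψ p = 0
  · have hGp : G p = 0 := by simpa [h] using hp
    have hGψ : ContMDiff I 𝓘(ℝ, F) ∞ (fun q => G q + ψ q • c) :=
      hG.add (hψ.smul contMDiff_const)
    have hy : extChartAt I p p ∈ (extChartAt I p).target := mem_extChartAt_target p
    have hi : Function.Injective
        (mfderiv I 𝓘(ℝ, F) G ((extChartAt I p).symm (extChartAt I p p))) := by
      rw [extChartAt_to_inv]
      exact h0 p hGp
    have h1 := ez_inj hG p hy hi
    have h2 : fderiv ℝ (fun y => ψ ((extChartAt I p).symm y)) (extChartAt I p p) = 0 := by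
      apply IsLocalMin.fderiv_eq_zero
      refine Filter.Eventually.of_forall fun y => ?_
      simp only [extChartAt_to_inv]
      rw [h]
      exact hpos _
    have hO : IsOpen (extChartAt I p).target := isOpen_extChartAt_target p
    have d1 : DifferentiableAt ℝ (fun y => G ((extChartAt I p).symm y)) (extChartAt I p p) :=
      ((ez_contDiffOn hG p).contDiffAt (hO.mem_nhds hy)).differentiableAt (by simp)
    have d2 : DifferentiableAt ℝ (fun y => ψ ((extChartAt I p).symm y)) (extChartAt I p p) :=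
      ((ez_contDiffOn hψ p).contDiffAt (hO.mem_nhds hy)).differentiableAt (by simp)
    have h3 : fderiv ℝ (fun y => G ((extChartAt I p).symm y) + ψ ((extChartAt I p).symm y) • c)
        (extChartAt I p p) = fderiv ℝ (fun y => G ((extChartAt I p).symm y))
          (extChartAt I p p) := by
      rw [fderiv_fun_add d1 (d2.smul_const c), fderiv_smul_const d2, h2]
      ext v
      simp
    obtain ⟨A, hA, hAe⟩ := ez_fderiv hGψ p hy
    rw [extChartAt_to_inv] at hAe
    intro v w hvw
    obtain ⟨v, rfl⟩ := hA.2 v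
    obtain ⟨w, rfl⟩ := hA.2 w
    have h4 : fderiv ℝ (fun y => G ((extChartAt I p).symm y)) (extChartAt I p p) v =
        fderiv ℝ (fun y => G ((extChartAt I p).symm y)) (extChartAt I p p) w := by
      rw [← h3, hAe, hAe]
      exact hvw
    rw [h1 h4]
  · exact hc p h hp

end Vale.Agent.P205.TI
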