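import Vale.Agent.P205.TI.Main0
import Vale.Agent.P205.TI.EZ4

/-!
P205, block TI: the evenness of the number of zeros on `M × M`.
-/

open scoped Manifold ContDiff Topology
open Set Module

noncomputable section

namespace Vale.Agent.P205.TI

variable {E : Type*} [NormedAddCommGroup E] [NormedSpace ℝ E] [FiniteDimensional ℝ E]
  {M : Type*} [TopologicalSpace M] [ChartedSpace E M] [IsManifold 𝓘(ℝ, E) ∞ M]
  [CompactSpace M] [T2Space M]

theorem evenStmt (hE : finrank ℝ E = 2) : EvenStmt E M := by
  have hdim : finrank ℝ (E × E) = finrank ℝ V4 := by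
    rw [Module.finrank_prod, hE]
    simp
  intro G hG h0
  exact even_zeros (𝓘(ℝ, E).prod 𝓘(ℝ, E)) hdim (by simp) hG h0

end Vale.Agent.P205.TI
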