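import Vale.Agent.P205.TI.Defs

/-!
P205, block TI: near a point an immersed surface in `ℝ⁴` is a graph, after a homothety.
-/

open scoped Manifold ContDiff Topology
open Set Module

noncomputable section

namespace Vale.Agent.P205.TI

/-- coordinates of `ℝ⁴` adapted to a plane. -/
theorem exists_coord {T : Submodule ℝ V4} (hT : finrank ℝ T = 2) :
    ∃ L : V4 ≃L[ℝ] ℂ × ℂ, (∀ a b, ip (L a) (L b) = inner ℝ a b) ∧ ∀ v ∈ T, (L v).2 = 0 := by
  let t : OrthonormalBasis (Fin 2) ℝ T := (stdOrthonormalBasis ℝ T).reindex (finCongr hT)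
  let v : Fin 4 → V4 := ![(t 0 : V4), (t 1 : V4), 0, 0]
  let s : Set (Fin 4) := {0, 1}
  have hv : Orthonormal ℝ (s.domRestrict v) := by
    have h1 := t.orthonormal
    rw [orthonormal_iff_ite] at h1 ⊢
    rintro ⟨i, hi⟩ ⟨j, hj⟩
    have hv0 : v 0 = (t 0 : V4) := rfl
    have hv1 : v 1 = (t 1 : V4) := rfl
    have e : ∀ a b : Fin 2, inner ℝ (t a : V4) (t b : V4) = if a = b then (1 : ℝ) else 0 :=
      fun a b => h1 a b
    have hs : ∀ i : Fin 4, i ∈ s → i = 0 ∨ i = 1 := fun i hi => by simpa [s] using hi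
    have key : inner ℝ (v i) (v j) = if i = j then (1 : ℝ) else 0 := by
      rcases hs i hi with rfl | rfl <;> rcases hs j hj with rfl | rfl
      · rw [hv0, e]; rfl
      · rw [hv0, hv1, e]; rfl
      · rw [hv0, hv1, e]; rfl
      · rw [hv1, e]; rfl
    have h2 : inner ℝ (s.domRestrict v ⟨i, hi⟩) (s.domRestrict v ⟨j, hj⟩) = inner ℝ (v i) (v j) :=
      rfl
    rw [h2, key]
    simp only [Subtype.mk.injEq]
  obtain ⟨b, hb⟩ := hv.exists_orthonormalBasis_extension_of_card_eq (by simp [V4])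
  have hb0 : b 0 = (t 0 : V4) := hb 0 (by simp [s])
  have hb1 : b 1 = (t 1 : V4) := hb 1 (by simp [s])
  let L0 : V4 →ₗ[ℝ] ℂ × ℂ :=
    { toFun := fun x => (⟨inner ℝ (b 0) x, inner ℝ (b 1) x⟩, ⟨inner ℝ (b 2) x, inner ℝ (b 3) x⟩)
      map_add' := fun x y => by
        refine Prod.ext (Complex.ext ?_ ?_) (Complex.ext ?_ ?_) <;> simp [inner_add_right]
      map_smul' := fun c x => by
        refine Prod.ext (Complex.ext ?_ ?_) (Complex.ext ?_ ?_) <;> simp [inner_smul_right] }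
  have hL0 : ∀ x, L0 x = (⟨inner ℝ (b 0) x, inner ℝ (b 1) x⟩,
      ⟨inner ℝ (b 2) x, inner ℝ (b 3) x⟩) := fun x => rfl
  have hip : ∀ x y, ip (L0 x) (L0 y) = inner ℝ x y := by
    intro x y
    rw [← b.sum_inner_mul_inner x y, Fin.sum_univ_four, hL0, hL0]
    simp only [ip]
    rw [real_inner_comm x (b 0), real_inner_comm x (b 1), real_inner_comm x (b 2),
      real_inner_comm x (b 3)]
    ring
  have hinj : Function.Injective L0 := by
    rw [← LinearMap.ker_eq_bot, LinearMap.ker_eq_bot']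
    intro x hx
    have h1 := hip x x
    rw [hx] at h1
    have h2 : inner ℝ x x = (0 : ℝ) := by rw [← h1]; simp [ip]
    exact inner_self_eq_zero.1 h2
  let L1 : V4 ≃ₗ[ℝ] ℂ × ℂ := LinearEquiv.ofInjectiveOfFinrankEq L0 hinj (by
    simp [V4, Module.finrank_prod, Complex.finrank_real_complex])
  have hL1 : ∀ x, L1 x = L0 x := fun x => rfl
  refine ⟨L1.toContinuousLinearEquiv, fun a c => ?_, fun x hx => ?_⟩
  · have h3 : ∀ x, L1.toContinuousLinearEquiv x = L0 x := fun x => rfl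
    rw [h3, h3, hip]
  · have h3 : L1.toContinuousLinearEquiv x = L0 x := rfl
    rw [h3, hL0]
    simp only
    have hsum : x = (t.repr ⟨x, hx⟩ 0) • b 0 + (t.repr ⟨x, hx⟩ 1) • b 1 := by
      have h4 := t.sum_repr ⟨x, hx⟩
      rw [Fin.sum_univ_two] at h4
      have h5 := congrArg (fun z : T => (z : V4)) h4
      simp only [Submodule.coe_add, Submodule.coe_smul] at h5
      rw [hb0, hb1]
      exact h5.symm
    have hob := b.orthonormal
    rw [orthonormal_iff_ite] at hob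
    apply Complex.ext
    · simp only [Complex.zero_re]
      rw [hsum, inner_add_right, inner_smul_right, inner_smul_right, hob, hob]
      simp
    · simp only [Complex.zero_im]
      rw [hsum, inner_add_right, inner_smul_right, inner_smul_right, hob, hob]
      simp

/-- the local statement, in `E`. -/
theorem local_graph {E : Type*} [NormedAddCommGroup E] [NormedSpace ℝ E] [FiniteDimensional ℝ E]
    (hE : finrank ℝ E = 2) {Ω : Set E} (hΩ : IsOpen Ω) {g : E → V4} (hg : ContDiffOn ℝ ∞ g Ω)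
    {q : E} (hq : q ∈ Ω) (hinj : Function.Injective (fderiv ℝ g q)) :
    ∃ (k : OpenPartialHomeomorph E ℂ) (L : V4 ≃L[ℝ] ℂ × ℂ) (F : ℂ → ℂ) (r : ℝ), 0 < r ∧
      k.source ⊆ Ω ∧ q ∈ k.source ∧ k q = 0 ∧ Metric.closedBall 0 2 ⊆ k.target ∧
      ContDiffOn ℝ ∞ k k.source ∧ ContDiffOn ℝ ∞ k.symm k.target ∧ ContDiff ℝ ∞ F ∧
      (∀ a b, ip (L a) (L b) = inner ℝ a b) ∧
      ∀ x ∈ k.source, ‖k x‖ ≤ 2 → L (g x) = L (g q) + r • (k x, F (k x)) := by
  have : CompleteSpace E := FiniteDimensional.complete ℝ E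
  set D : E →L[ℝ] V4 := fderiv ℝ g q with hD
  have hT : finrank ℝ (LinearMap.range (D : E →ₗ[ℝ] V4)) = 2 := by
    rw [LinearMap.finrank_range_of_inj (by exact hinj), hE]
  obtain ⟨L, hip, hLT⟩ := exists_coord hT
  set A : V4 →L[ℝ] ℂ := (ContinuousLinearMap.fst ℝ ℂ ℂ).comp (L : V4 →L[ℝ] ℂ × ℂ) with hA
  have hAv : ∀ v, A v = (L v).1 := fun v => rfl
  set h : E → ℂ := fun y => A (g y - g q) with hh
  have hhs : ContDiffOn ℝ ∞ h Ω := A.contDiff.comp_contDiffOn (hg.sub contDiffOn_const)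
  have hgd : HasFDerivAt g D q :=
    ((hg.contDiffAt (hΩ.mem_nhds hq)).differentiableAt (by simp)).hasFDerivAt
  have hhd : HasFDerivAt h (A.comp D) q := A.hasFDerivAt.comp q (hgd.sub_const (g q))
  have hADinj : Function.Injective (A.comp D) := by
    have h0 : ∀ v, A.comp D v = 0 → v = 0 := by
      intro v hv
      have h1 : (L (D v)).1 = 0 := hv
      have h2 : (L (D v)).2 = 0 := hLT _ ⟨v, rfl⟩
      have h3 : L (D v) = 0 := Prod.ext h1 h2
      have h4 : D v = 0 := by simpa using h3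
      exact hinj (by rw [h4, map_zero])
    exact (injective_iff_map_eq_zero (A.comp D)).2 h0
  set B : E ≃L[ℝ] ℂ := (LinearEquiv.ofInjectiveOfFinrankEq ((A.comp D : E →L[ℝ] ℂ) : E →ₗ[ℝ] ℂ)
    hADinj (by rw [hE, Complex.finrank_real_complex])).toContinuousLinearEquiv with hB
  have hBe : (B : E →L[ℝ] ℂ) = A.comp D := by
    ext v
    rfl
  have hfd : fderiv ℝ h q = (B : E →L[ℝ] ℂ) := by rw [hBe]; exact hhd.fderiv
  have hstrict : HasStrictFDerivAt h (B : E →L[ℝ] ℂ) q := by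
    rw [← hfd]
    exact (hhs.contDiffAt (hΩ.mem_nhds hq)).hasStrictFDerivAt (by simp)
  set g0 := hstrict.toOpenPartialHomeomorph h with hg0
  have hgc : ∀ v, g0 v = h v := fun v => rfl
  have hqg : q ∈ g0.source := hstrict.mem_toOpenPartialHomeomorph_source
  set Ω' : Set E := Ω ∩ {v | IsUnit ((B.symm : ℂ →L[ℝ] E).comp (fderiv ℝ h v))} with hΩ'
  have hΩ'o : IsOpen Ω' := by
    have hc : ContinuousOn (fun v => (B.symm : ℂ →L[ℝ] E).comp (fderiv ℝ h v)) Ω := by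
      have h1 : ContinuousOn (fderiv ℝ h) Ω := hhs.continuousOn_fderiv_of_isOpen hΩ (by simp)
      exact (continuousOn_const).clm_comp h1
    exact hc.isOpen_inter_preimage hΩ Units.isOpen
  have hq' : q ∈ Ω' := by
    refine ⟨hq, ?_⟩
    change IsUnit ((B.symm : ℂ →L[ℝ] E).comp (fderiv ℝ h q))
    rw [hfd, ContinuousLinearEquiv.coe_symm_comp_coe]
    exact isUnit_one
  set g' := g0.restrOpen Ω' hΩ'o with hg'
  have hsrc : g'.source = g0.source ∩ Ω' := rfl
  have hgc' : ∀ v, g' v = h v := fun v => rfl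
  have hsm : ∀ v ∈ g'.source, ContDiffAt ℝ ∞ g' v := fun v hv =>
    hhs.contDiffAt (hΩ.mem_nhds (hsrc ▸ hv).2.1)
  have heq : ∀ v ∈ g'.source, ∃ N : E ≃L[ℝ] ℂ, HasFDerivAt g' (N : E →L[ℝ] ℂ) v := by
    intro v hv
    have hv' : v ∈ Ω' := (hsrc ▸ hv).2
    obtain ⟨u, hu⟩ := hv'.2
    have h1 : ((ContinuousLinearEquiv.unitsEquiv ℝ E u : E ≃L[ℝ] E) : E →L[ℝ] E) =
        (B.symm : ℂ →L[ℝ] E).comp (fderiv ℝ h v) := hu
    have h2 : (((ContinuousLinearEquiv.unitsEquiv ℝ E u).trans B : E ≃L[ℝ] ℂ) : E →L[ℝ] ℂ) =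
        fderiv ℝ h v := by
      ext w
      have := congrArg (fun C : E →L[ℝ] E => B (C w)) h1
      simpa using this
    refine ⟨(ContinuousLinearEquiv.unitsEquiv ℝ E u).trans B, ?_⟩
    rw [h2]
    exact ((hhs.contDiffAt (hΩ.mem_nhds hv'.1)).differentiableAt (by simp)).hasFDerivAt
  have hsymm : ∀ z ∈ g'.target, ContDiffAt ℝ ∞ g'.symm z := by
    intro z hz
    obtain ⟨N, hN⟩ := heq (g'.symm z) (g'.map_target hz)
    exact g'.contDiffAt_symm hz hN (hsm _ (g'.map_target hz))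
  have hq0 : g' q = 0 := by
    rw [hgc']
    simp [hh]
  have hqs : q ∈ g'.source := ⟨hqg, hq'⟩
  have h0t : (0 : ℂ) ∈ g'.target := hq0 ▸ g'.map_source hqs
  obtain ⟨ρ, hρ, hρt⟩ := Metric.isOpen_iff.1 g'.open_target 0 h0t
  set r : ℝ := ρ / 4 with hr
  have hr0 : 0 < r := by positivity
  have hrt : ∀ z : ℂ, ‖z‖ ≤ 3 → r • z ∈ g'.target := by
    intro z hz
    apply hρt
    rw [mem_ball_zero_iff, norm_smul, Real.norm_of_nonneg hr0.le]
    nlinarith
  set k : OpenPartialHomeomorph E ℂ :=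
    g'.transHomeomorph (Homeomorph.smulOfNeZero (r⁻¹) (inv_ne_zero hr0.ne')) with hk
  have hkc : ∀ x, k x = r⁻¹ • h x := fun x => rfl
  have hks : ∀ z, k.symm z = g'.symm (r • z) := by
    intro z
    have : k.symm z = g'.symm ((r⁻¹)⁻¹ • z) := rfl
    rw [this, inv_inv]
  have hksrc : k.source = g'.source := rfl
  have hkt : ∀ z, z ∈ k.target ↔ r • z ∈ g'.target := by
    intro z
    have : z ∈ k.target ↔ (r⁻¹)⁻¹ • z ∈ g'.target := Iff.rfl
    rw [this, inv_inv]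
  have hk3 : ∀ z : ℂ, ‖z‖ ≤ 3 → z ∈ k.target := fun z hz => (hkt z).2 (hrt z hz)
  have hkss : ContDiffOn ℝ ∞ k.symm k.target := by
    intro z hz
    have h1 : ContDiffAt ℝ ∞ (fun z : ℂ => g'.symm (r • z)) z :=
      ContDiffAt.comp (g := g'.symm) (f := fun z : ℂ => r • z) z (hsymm _ ((hkt z).1 hz))
        (contDiffAt_id.const_smul r)
    have h2 : (k.symm : ℂ → E) = fun z => g'.symm (r • z) := funext hks
    rw [h2]
    exact h1.contDiffWithinAt
  have hsub : g'.source ⊆ Ω := fun x hx => hx.2.1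
  let ψ : ContDiffBump (0 : ℂ) := ⟨2, 5 / 2, by norm_num, by norm_num⟩
  set F : ℂ → ℂ := fun z => (ψ z : ℝ) • (r⁻¹ • (L (g (k.symm z) - g q)).2) with hF
  have hFs : ContDiff ℝ ∞ F := by
    rw [contDiff_iff_contDiffAt]
    intro z
    rcases lt_or_ge ‖z‖ 3 with hz | hz
    · have hzt : z ∈ k.target := hk3 z hz.le
      have h1 : ContDiffAt ℝ ∞ k.symm z := hkss.contDiffAt (k.open_target.mem_nhds hzt)
      have h2 : k.symm z ∈ Ω := hsub (hksrc ▸ k.map_target hzt)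
      have h3 : ContDiffAt ℝ ∞ (fun z => g (k.symm z)) z :=
        ContDiffAt.comp (g := g) (f := k.symm) z (hg.contDiffAt (hΩ.mem_nhds h2)) h1
      have h4 : ContDiffAt ℝ ∞ (fun z => (L (g (k.symm z) - g q)).2) z :=
        ((ContinuousLinearMap.snd ℝ ℂ ℂ).comp (L : V4 →L[ℝ] ℂ × ℂ)).contDiff.contDiffAt.comp z
          (h3.sub contDiffAt_const)
      exact ψ.contDiff.contDiffAt.smul (h4.const_smul (r⁻¹))
    · have h1 : F =ᶠ[𝓝 z] fun _ => 0 := by
        have h2 : ∀ᶠ w : ℂ in 𝓝 z, 5 / 2 < ‖w‖ :=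
          continuous_norm.continuousAt.eventually (lt_mem_nhds (by linarith))
        filter_upwards [h2] with w hw
        have h3 : (ψ w : ℝ) = 0 := ψ.zero_of_le_dist (by
          rw [dist_zero_right]; exact hw.le)
        simp only [hF, h3, zero_smul]
      exact contDiffAt_const.congr_of_eventuallyEq h1
  refine ⟨k, L, F, r, hr0, ?_, ?_, ?_, ?_, ?_, hkss, hFs, hip, ?_⟩
  · rw [hksrc]; exact hsub
  · rw [hksrc]; exact hqs
  · rw [hkc, ← hgc', hq0, smul_zero]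
  · intro z hz
    rw [mem_closedBall_zero_iff] at hz
    exact hk3 z (by linarith)
  · intro x hx
    have h1 : ContDiffAt ℝ ∞ h x := hhs.contDiffAt (hΩ.mem_nhds (hsub (hksrc ▸ hx)))
    exact (h1.const_smul (r⁻¹)).contDiffWithinAt
  · intro x hx hx2
    have h1 : (ψ (k x) : ℝ) = 1 := ψ.one_of_mem_closedBall (by
      rw [mem_closedBall_zero_iff]; exact hx2)
    have h2 : k.symm (k x) = x := k.left_inv hx
    have h3 : L (g x) = L (g q) + L (g x - g q) := by rw [map_sub]; abel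
    rw [h3]
    congr 1
    refine Prod.ext ?_ ?_
    · simp only [Prod.smul_fst, hkc, smul_smul, mul_inv_cancel₀ hr0.ne', one_smul]
      rfl
    · simp only [Prod.smul_snd, hF, h1, h2, smul_smul, one_mul, mul_inv_cancel₀ hr0.ne', one_smul]

section Surf

variable {E : Type*} [NormedAddCommGroup E] [NormedSpace ℝ E] [FiniteDimensional ℝ E]
  {M : Type*} [TopologicalSpace M] [ChartedSpace E M] [IsManifold 𝓘(ℝ, E) ∞ M]

/-- GC: the surface is a graph near `p` (after a homothety) -/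
theorem graph_chart (hE : finrank ℝ E = 2) {f : M → V4} (hf : Imm E f) (p : M) :
    ∃ (κ : OpenPartialHomeomorph M ℂ) (L : V4 ≃L[ℝ] ℂ × ℂ) (F : ℂ → ℂ) (r : ℝ), 0 < r ∧
      p ∈ κ.source ∧ κ p = 0 ∧ Metric.closedBall 0 2 ⊆ κ.target ∧
      ContMDiffOn 𝓘(ℝ, E) 𝓘(ℝ, ℂ) ∞ κ κ.source ∧
      ContMDiffOn 𝓘(ℝ, ℂ) 𝓘(ℝ, E) ∞ κ.symm κ.target ∧ ContDiff ℝ ∞ F ∧
      (∀ a b, ip (L a) (L b) = inner ℝ a b) ∧
      ∀ x ∈ κ.source, ‖κ x‖ ≤ 2 → L (f x) = L (f p) + r • (κ x, F (κ x)) := by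
  set φ := chartAt E p with hφ
  have hpφ : p ∈ φ.source := mem_chart_source E p
  have hg : ContDiffOn ℝ ∞ (f ∘ φ.symm) φ.target := by
    rw [← contMDiffOn_iff_contDiffOn]
    exact hf.sm.comp_contMDiffOn (contMDiffOn_chart_symm (I := 𝓘(ℝ, E)) (x := p))
  have hfd : fderiv ℝ (f ∘ φ.symm) (φ p) = mfderiv 𝓘(ℝ, E) 𝓘(ℝ, V4) f p := by
    have h1 : MDifferentiableAt 𝓘(ℝ, E) 𝓘(ℝ, V4) f p := (hf.sm p).mdifferentiableAt (by simp)
    rw [h1.mfderiv]
    simp only [mfld_simps, fderivWithin_univ]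
    rfl
  have hinj : Function.Injective (fderiv ℝ (f ∘ φ.symm) (φ p)) := by
    rw [hfd]
    exact hf.inj p
  obtain ⟨k, L, F, r, hr, hkΩ, hqk, hk0, hk2, hks, hkss, hF, hip, hL⟩ :=
    local_graph hE φ.open_target hg (φ.map_source hpφ) hinj
  have htgt : (φ.trans k).target = k.target := by
    rw [OpenPartialHomeomorph.trans_target]
    refine inter_eq_left.2 fun z hz => hkΩ (k.map_target hz)
  refine ⟨φ.trans k, L, F, r, hr, ?_, ?_, ?_, ?_, ?_, hF, hip, ?_⟩
  · rw [OpenPartialHomeomorph.trans_source]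
    exact ⟨hpφ, hqk⟩
  · simpa using hk0
  · rw [htgt]; exact hk2
  · have h1 : ContMDiffOn 𝓘(ℝ, E) 𝓘(ℝ, E) ∞ φ φ.source := contMDiffOn_chart
    rw [OpenPartialHomeomorph.trans_source]
    exact (contMDiffOn_iff_contDiffOn.2 hks).comp (h1.mono inter_subset_left) (fun x hx => hx.2)
  · have h1 : ContMDiffOn 𝓘(ℝ, E) 𝓘(ℝ, E) ∞ φ.symm φ.target := contMDiffOn_chart_symm
    rw [htgt]
    exact h1.comp (contMDiffOn_iff_contDiffOn.2 hkss) (fun z hz => hkΩ (k.map_target hz))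
  · intro x hx hx2
    rw [OpenPartialHomeomorph.trans_source] at hx
    have h1 := hL (φ x) hx.2 hx2
    simp only [Function.comp_apply, φ.left_inv hx.1, φ.left_inv hpφ] at h1
    exact h1

end Surf

end Vale.Agent.P205.TI
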