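import Vale.Agent.P205.TW.Sard
import Vale.Agent.P205.TI.Defs

/-!
Every compact surface has a smooth immersion into four dimensional space
(generic linear projections of an embedding).
-/

set_option linter.all false

open MeasureTheory Set Filter Module
open scoped Topology ContDiff Manifold

namespace Vale.Agent.P205.TI

variable {E : Type*} [NormedAddCommGroup E] [NormedSpace ℝ E] [FiniteDimensional ℝ E]
  {G F : Type*} [NormedAddCommGroup G] [NormedSpace ℝ G] [FiniteDimensional ℝ G]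
  [NormedAddCommGroup F] [NormedSpace ℝ F] [FiniteDimensional ℝ F]

/-- generic linear images of an immersed piece are immersed when `dim F = 2 dim E` -/
theorem ae_injective_local [MeasurableSpace (G →L[ℝ] F)] [BorelSpace (G →L[ℝ] F)]
    (μ : Measure (G →L[ℝ] F)) [μ.IsAddHaarMeasure] (hdim : finrank ℝ F = 2 * finrank ℝ E)
    {V : Set E} (hV : IsOpen V) (e : E → G) (he : ContDiffOn ℝ ∞ e V)
    (hi : ∀ x ∈ V, Function.Injective (fderiv ℝ e x)) :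
    ∀ᵐ A ∂μ, ∀ x ∈ V, ∀ u : E, A (fderiv ℝ e x u) = 0 → u = 0 := by
  set W : Set (E × E) := V ×ˢ {u : E | u ≠ 0} with hW
  have hWo : IsOpen W := hV.prod isOpen_ne
  set Φ : G →L[ℝ] ((G →L[ℝ] F) →L[ℝ] F) := (ContinuousLinearMap.id ℝ (G →L[ℝ] F)).flip with hΦ
  set L : E × E → ((G →L[ℝ] F) →L[ℝ] F) := fun z => Φ (fderiv ℝ e z.1 z.2) with hL
  have hLc : ContDiffOn ℝ 1 L W := by
    rw [contDiffOn_clm_apply]
    intro A z hz
    have h1 : ContDiffAt ℝ 1 (fderiv ℝ e) z.1 :=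
      (he.contDiffAt (hV.mem_nhds hz.1)).fderiv_right (m := 1) (by norm_cast)
    have h2 : ContDiffAt ℝ 1 (fun z : E × E => fderiv ℝ e z.1 z.2) z :=
      (h1.comp z contDiffAt_fst).clm_apply contDiffAt_snd
    have h3 : ContDiffAt ℝ 1 (fun z => L z A) z := A.contDiff.contDiffAt.comp z h2
    exact h3.contDiffWithinAt
  have hdim' : finrank ℝ F = finrank ℝ (E × E) := by
    rw [Module.finrank_prod, hdim]; ring
  have hsurj : ∀ z ∈ W, Function.Surjective (L z) := by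
    intro z hz y
    have hv : fderiv ℝ e z.1 z.2 ≠ 0 := by
      intro h
      exact hz.2 (hi z.1 hz.1 (by rw [h, map_zero]))
    obtain ⟨g, -, hg⟩ := exists_dual_vector ℝ (fderiv ℝ e z.1 z.2)
      (norm_ne_zero_iff.2 hv)
    refine ⟨g.smulRight ((‖fderiv ℝ e z.1 z.2‖)⁻¹ • y), ?_⟩
    have h1 : L z (g.smulRight ((‖fderiv ℝ e z.1 z.2‖)⁻¹ • y)) =
        g (fderiv ℝ e z.1 z.2) • ((‖fderiv ℝ e z.1 z.2‖)⁻¹ • y) := rfl
    have h2 : (‖fderiv ℝ e z.1 z.2‖ : ℝ) ≠ 0 := norm_ne_zero_iff.2 hv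
    rw [h1, hg, smul_smul]
    simp [h2]
  filter_upwards [TW.ae_isolated μ hdim' hWo L hLc hsurj] with A hA x hx u hu
  by_contra hne
  have h0 : L (x, u) A = 0 := hu
  have h1 := hA (x, u) ⟨hx, hne⟩ h0
  have h2 : Tendsto (fun t : ℝ => (x, (1 + t) • u)) (𝓝 0) (𝓝 (x, u)) := by
    have : Continuous (fun t : ℝ => (x, (1 + t) • u)) := by fun_prop
    have h := this.tendsto 0
    simpa using h
  have h3 := h2.eventually h1
  have h4 : ∀ᶠ t : ℝ in 𝓝 0, t = 0 := by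
    filter_upwards [h3] with t ht
    have h5 : L (x, (1 + t) • u) A = 0 := by
      show A (fderiv ℝ e x ((1 + t) • u)) = 0
      rw [map_smul, map_smul, hu, smul_zero]
    have h6 := ht h5
    have h7 : (1 + t) • u = u := (Prod.ext_iff.1 h6).2
    have h8 : t • u = 0 := by
      have : (1 + t) • u = u + t • u := by rw [add_smul, one_smul]
      rw [this] at h7
      simpa using h7
    rcases smul_eq_zero.1 h8 with h | h
    · exact h
    · exact absurd h hne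
  obtain ⟨ε, hε, hb⟩ := Metric.eventually_nhds_iff.1 h4
  have h9 := hb (y := ε / 2) (by
    rw [Real.dist_eq, sub_zero, abs_of_pos (by linarith)]; linarith)
  linarith

variable {M : Type*} [TopologicalSpace M] [ChartedSpace E M]
  [IsManifold 𝓘(ℝ, E) ∞ M]

/-- derivative in a chart -/
theorem mfderiv_eq_chart {f : M → G} (hf : ContMDiff 𝓘(ℝ, E) 𝓘(ℝ, G) ∞ f) (x0 x : M)
    (hx : x ∈ (chartAt E x0).source) (v : TangentSpace 𝓘(ℝ, E) x) :
    mfderiv 𝓘(ℝ, E) 𝓘(ℝ, G) f x v =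
      fderiv ℝ (f ∘ (extChartAt 𝓘(ℝ, E) x0).symm) (extChartAt 𝓘(ℝ, E) x0 x)
        (mfderiv 𝓘(ℝ, E) 𝓘(ℝ, E) (extChartAt 𝓘(ℝ, E) x0) x v) := by
  have hx' : x ∈ (extChartAt 𝓘(ℝ, E) x0).source := by rwa [extChartAt_source]
  have hy : extChartAt 𝓘(ℝ, E) x0 x ∈ (extChartAt 𝓘(ℝ, E) x0).target :=
    (extChartAt 𝓘(ℝ, E) x0).map_source hx'
  have h1 : MDifferentiableAt 𝓘(ℝ, E) 𝓘(ℝ, E) (extChartAt 𝓘(ℝ, E) x0) x :=
    mdifferentiableAt_extChartAt hx
  have h2 : MDifferentiableAt 𝓘(ℝ, E) 𝓘(ℝ, G) (f ∘ (extChartAt 𝓘(ℝ, E) x0).symm)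
      (extChartAt 𝓘(ℝ, E) x0 x) := by
    have h3 : MDifferentiableAt 𝓘(ℝ, E) 𝓘(ℝ, E) (extChartAt 𝓘(ℝ, E) x0).symm
        (extChartAt 𝓘(ℝ, E) x0 x) := by
      have := (contMDiffOn_extChartAt_symm (I := 𝓘(ℝ, E)) (n := ∞) x0).contMDiffAt
        (x := extChartAt 𝓘(ℝ, E) x0 x) ((isOpen_extChartAt_target x0).mem_nhds hy)
      exact this.mdifferentiableAt (by simp)
    have h4 : MDifferentiableAt 𝓘(ℝ, E) 𝓘(ℝ, G) f
        ((extChartAt 𝓘(ℝ, E) x0).symm (extChartAt 𝓘(ℝ, E) x0 x)) :=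
      hf.mdifferentiableAt (by simp)
    exact h4.comp _ h3
  have h5 : (f ∘ (extChartAt 𝓘(ℝ, E) x0).symm) ∘ (extChartAt 𝓘(ℝ, E) x0) =ᶠ[𝓝 x] f := by
    filter_upwards [(isOpen_extChartAt_source (I := 𝓘(ℝ, E)) x0).mem_nhds hx'] with y hy
    simp only [Function.comp_apply]
    rw [(extChartAt 𝓘(ℝ, E) x0).left_inv hy]
  rw [← h5.mfderiv_eq, mfderiv_comp x h2 h1, mfderiv_eq_fderiv]
  rfl

variable [T2Space M] [CompactSpace M]

/-- every compact manifold of dimension `k` has a smooth immersion into any space of dimension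
`2 k` -/
theorem exists_immersion (hdim : finrank ℝ F = 2 * finrank ℝ E) :
    ∃ f : M → F, ContMDiff 𝓘(ℝ, E) 𝓘(ℝ, F) ∞ f ∧
      ∀ x, Function.Injective (mfderiv 𝓘(ℝ, E) 𝓘(ℝ, F) f x) := by
  obtain ⟨n, e, hsm, -, hinj⟩ :=
    exists_embedding_euclidean_of_compact (I := 𝓘(ℝ, E)) (M := M)
  letI : MeasurableSpace (EuclideanSpace ℝ (Fin n) →L[ℝ] F) := borel _
  haveI : BorelSpace (EuclideanSpace ℝ (Fin n) →L[ℝ] F) := ⟨rfl⟩
  set μ : Measure (EuclideanSpace ℝ (Fin n) →L[ℝ] F) := Measure.addHaar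
  obtain ⟨t, ht⟩ := (isCompact_univ (X := M)).elim_nhds_subcover
    (fun x => (chartAt E x).source) (fun x _ => chart_source_mem_nhds E x)
  have hA : ∀ᵐ A ∂μ, ∀ x0 ∈ (t : Set M), ∀ y ∈ (extChartAt 𝓘(ℝ, E) x0).target, ∀ u : E,
      A (fderiv ℝ (e ∘ (extChartAt 𝓘(ℝ, E) x0).symm) y u) = 0 → u = 0 := by
    rw [ae_ball_iff t.countable_toSet]
    intro x0 hx0
    refine ae_injective_local μ hdim (isOpen_extChartAt_target (I := 𝓘(ℝ, E)) x0) _ ?_ ?_
    · have h1 : ContMDiffOn 𝓘(ℝ, E) 𝓘(ℝ, EuclideanSpace ℝ (Fin n)) ∞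
          (e ∘ (extChartAt 𝓘(ℝ, E) x0).symm) (extChartAt 𝓘(ℝ, E) x0).target :=
        hsm.comp_contMDiffOn (contMDiffOn_extChartAt_symm x0)
      exact contMDiffOn_iff_contDiffOn.1 h1
    · intro y hy
      set x := (extChartAt 𝓘(ℝ, E) x0).symm y with hxd
      have hx' : x ∈ (extChartAt 𝓘(ℝ, E) x0).source := (extChartAt 𝓘(ℝ, E) x0).map_target hy
      have hx : x ∈ (chartAt E x0).source := by rwa [extChartAt_source] at hx'
      have hyx : extChartAt 𝓘(ℝ, E) x0 x = y := (extChartAt 𝓘(ℝ, E) x0).right_inv hy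
      have hinv : (mfderiv 𝓘(ℝ, E) 𝓘(ℝ, E) (extChartAt 𝓘(ℝ, E) x0) x).IsInvertible :=
        isInvertible_mfderiv_extChartAt hx'
      intro u1 u2 h12
      obtain ⟨v1, hv1⟩ := hinv.surjective u1
      obtain ⟨v2, hv2⟩ := hinv.surjective u2
      have e1 := mfderiv_eq_chart hsm x0 x hx v1
      have e2 := mfderiv_eq_chart hsm x0 x hx v2
      rw [hyx] at e1 e2
      have e1' := e1.trans (congrArg (fderiv ℝ (e ∘ (extChartAt 𝓘(ℝ, E) x0).symm) y) hv1)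
      have e2' := e2.trans (congrArg (fderiv ℝ (e ∘ (extChartAt 𝓘(ℝ, E) x0).symm) y) hv2)
      have h3 : v1 = v2 := hinj x (e1'.trans (h12.trans e2'.symm))
      rw [← hv1, ← hv2, h3]
  obtain ⟨A, hA⟩ := hA.exists
  refine ⟨fun x => A (e x), A.contMDiff.comp hsm, fun x => ?_⟩
  obtain ⟨x0, hx0, hxs⟩ := mem_iUnion₂.1 (ht.2 (mem_univ x))
  have hx' : x ∈ (extChartAt 𝓘(ℝ, E) x0).source := by rwa [extChartAt_source]
  have hinv : (mfderiv 𝓘(ℝ, E) 𝓘(ℝ, E) (extChartAt 𝓘(ℝ, E) x0) x).IsInvertible :=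
    isInvertible_mfderiv_extChartAt hx'
  have hf : mfderiv 𝓘(ℝ, E) 𝓘(ℝ, F) (fun x => A (e x)) x =
      A.comp (mfderiv 𝓘(ℝ, E) 𝓘(ℝ, EuclideanSpace ℝ (Fin n)) e x) := by
    have h1 : MDifferentiableAt 𝓘(ℝ, EuclideanSpace ℝ (Fin n)) 𝓘(ℝ, F) A (e x) :=
      A.differentiableAt.mdifferentiableAt
    have h2 := mfderiv_comp x h1 (hsm.mdifferentiableAt (x := x) (by simp))
    rw [mfderiv_eq_fderiv, ContinuousLinearMap.fderiv] at h2
    exact h2
  rw [hf]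
  refine (injective_iff_map_eq_zero _).2 (fun v hv => ?_)
  have h1 : A (mfderiv 𝓘(ℝ, E) 𝓘(ℝ, EuclideanSpace ℝ (Fin n)) e x v) = 0 := hv
  rw [mfderiv_eq_chart hsm x0 x hxs v] at h1
  have h2 := hA x0 hx0 _ ((extChartAt 𝓘(ℝ, E) x0).map_source hx') _ h1
  exact hinv.injective (h2.trans (map_zero _).symm)



/-- IMM -/
theorem exists_imm (hE : finrank ℝ E = 2) : ∃ f : M → V4, Imm E f := by
  obtain ⟨f, h1, h2⟩ := exists_immersion (E := E) (F := V4) (M := M) (by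
    rw [hE, finrank_euclideanSpace, Fintype.card_fin])
  exact ⟨f, h1, h2⟩

end Vale.Agent.P205.TI
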