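import Vale.Agent.P205.TI.Defs

/-!
P205, block TI: the kink, an explicit immersion of the plane in `ℝ⁴` with a nowhere zero normal
field which is `(0, z̄²)` near infinity.
-/

open scoped ContDiff Topology
open Set

noncomputable section

namespace Vale.Agent.P205.TI

namespace Kink

/-- the bump -/
def ep (t : ℝ) : ℝ := expNegInvGlue t

/-- its derivative -/
def dep (t : ℝ) : ℝ := t⁻¹ ^ 2 * expNegInvGlue t

lemma ep_hasDerivAt (t : ℝ) : HasDerivAt ep (dep t) t := by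
  have h := expNegInvGlue.hasDerivAt_polynomial_eval_inv_mul (1 : Polynomial ℝ) t
  have e : ep = fun x => expNegInvGlue x := rfl
  rw [e]
  simpa [dep] using h

lemma ep_contDiff : ContDiff ℝ ∞ ep := by
  have h : ContDiff ℝ ∞ expNegInvGlue := expNegInvGlue.contDiff
  exact h

lemma dep_contDiff : ContDiff ℝ ∞ dep := by
  have h := expNegInvGlue.contDiff_polynomial_eval_inv_mul (n := ⊤) (Polynomial.X ^ 2 : Polynomial ℝ)
  have e : dep = fun x => Polynomial.eval x⁻¹ (Polynomial.X ^ 2 : Polynomial ℝ) *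
      expNegInvGlue x := by
    funext x
    simp [dep]
  rw [e]
  exact h

lemma ep_eq (t : ℝ) : ep t = t ^ 2 * dep t := by
  unfold ep dep
  by_cases ht : t = 0
  · subst ht
    simp [expNegInvGlue.zero]
  · field_simp

lemma ep_nonpos {t : ℝ} (ht : t ≤ 0) : ep t = 0 := expNegInvGlue.zero_of_nonpos ht

lemma dep_nonpos {t : ℝ} (ht : t ≤ 0) : dep t = 0 := by
  simp [dep, expNegInvGlue.zero_of_nonpos ht]

lemma ep_pos {t : ℝ} (ht : 0 < t) : 0 < ep t := expNegInvGlue.pos_of_pos ht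

lemma dep_pos {t : ℝ} (ht : 0 < t) : 0 < dep t := by
  have := expNegInvGlue.pos_of_pos ht
  unfold dep
  positivity

lemma dep_nonneg (t : ℝ) : 0 ≤ dep t := by
  have := expNegInvGlue.nonneg t
  unfold dep
  positivity

lemma ep_one_sq : ep 1 = Real.exp (-1) := by
  simp [ep, expNegInvGlue]

lemma dep_one : dep 1 = Real.exp (-1) := by
  simp [dep, expNegInvGlue]

variable (x y : ℝ)

def mm : ℝ := dep (1 - x ^ 2) * ep (1 - y ^ 2)
def pp : ℝ := 1 - 4 * x ^ 2 + x ^ 4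
def AA : ℝ := 1 - 10 * (mm x y * pp x)
def BB : ℝ := -2 * x * mm x y
def CC : ℝ := y * (mm x y * pp x)
def rr : ℝ := Real.sqrt (AA x y ^ 2 + BB x y ^ 2 + CC x y ^ 2)
def qq : ℝ := 4 * x ^ 2 + y ^ 2 * pp x ^ 2
def SS : ℝ := (qq x y + (rr x y - AA x y)) / (rr x y + AA x y + mm x y ^ 2)
def ab : ℝ := ep (1 - x ^ 2) * ep (1 - y ^ 2)
def Qy : ℝ := ep (1 - x ^ 2) * (dep (1 - y ^ 2) * (-2 * y))
def Y1 : ℝ := -2 * x * mm x y * SS x y / rr x y ^ 2
def Y2 : ℝ := SS x y / rr x y - 4 * x ^ 2 / rr x y ^ 2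
def Y3 : ℝ := 2 * x * y * pp x / rr x y ^ 2
def nn : ℝ := -(Y1 x y * (-10 * x * Qy x y) + Y2 x y * Qy x y +
  Y3 x y * (x * ab x y + x * y * Qy x y))

lemma mm_nonneg : 0 ≤ mm x y := mul_nonneg (dep_nonneg _) (expNegInvGlue.nonneg _)

lemma ABC_pos : 0 < AA x y ^ 2 + BB x y ^ 2 + CC x y ^ 2 := by
  by_contra hcon
  have hA : AA x y ^ 2 = 0 := by nlinarith [sq_nonneg (AA x y), sq_nonneg (BB x y), sq_nonneg (CC x y)]
  have hB : BB x y ^ 2 = 0 := by nlinarith [sq_nonneg (AA x y), sq_nonneg (BB x y), sq_nonneg (CC x y)]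
  have hC : CC x y ^ 2 = 0 := by nlinarith [sq_nonneg (AA x y), sq_nonneg (BB x y), sq_nonneg (CC x y)]
  have hA' : AA x y = 0 := by simpa using hA
  have hB' : BB x y = 0 := by simpa using hB
  have hC' : CC x y = 0 := by simpa using hC
  have hm : mm x y ≠ 0 := by
    intro h
    unfold AA at hA'
    rw [h] at hA'
    norm_num at hA'
  have hx : x = 0 := by
    unfold BB at hB'
    rcases mul_eq_zero.1 hB' with h | h
    · linarith
    · exact absurd h hm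
  subst hx
  have hp : pp 0 = 1 := by norm_num [pp]
  have hy : y = 0 := by
    unfold CC at hC'
    rw [hp, mul_one] at hC'
    rcases mul_eq_zero.1 hC' with h | h
    · exact h
    · exact absurd h hm
  subst hy
  unfold AA at hA'
  rw [hp] at hA'
  have hmm : mm 0 0 = Real.exp (-1) * Real.exp (-1) := by
    unfold mm
    norm_num
    rw [dep_one, ep_one_sq]
  rw [hmm, ← Real.exp_add] at hA'
  have h2 : Real.exp (-1 + -1) = 1 / 10 := by
    rw [mul_one] at hA'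
    linear_combination (-1 / 10) * hA'
  have h3 : Real.exp 2 = 10 := by
    have : Real.exp (-1 + -1) = (Real.exp 2)⁻¹ := by
      rw [← Real.exp_neg]; norm_num
    rw [this] at h2
    have h4 := congrArg (fun t => t⁻¹) h2
    simpa using h4
  have h5 : Real.exp 2 = Real.exp 1 * Real.exp 1 := by rw [← Real.exp_add]; norm_num
  have h6 := Real.exp_one_lt_d9
  have h7 := Real.exp_pos 1
  nlinarith

lemma rr_pos : 0 < rr x y := Real.sqrt_pos.2 (ABC_pos x y)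

lemma rr_sq : rr x y ^ 2 = AA x y ^ 2 + BB x y ^ 2 + CC x y ^ 2 :=
  Real.sq_sqrt (ABC_pos x y).le

lemma abs_A_le : |AA x y| ≤ rr x y := by
  apply abs_le_of_sq_le_sq _ (rr_pos x y).le
  rw [rr_sq]
  nlinarith [sq_nonneg (BB x y), sq_nonneg (CC x y)]

lemma rr_sub (x y : ℝ) : (rr x y - AA x y) * (rr x y + AA x y) = mm x y ^ 2 * qq x y := by
  have h := rr_sq x y
  have h2 : rr x y ^ 2 - AA x y ^ 2 = BB x y ^ 2 + CC x y ^ 2 := by linarith
  have h3 : BB x y ^ 2 + CC x y ^ 2 = mm x y ^ 2 * qq x y := by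
    unfold BB CC qq; ring
  nlinarith

lemma den_pos : 0 < rr x y + AA x y + mm x y ^ 2 := by
  have h1 := abs_le.1 (abs_A_le x y)
  by_cases hm : mm x y = 0
  · have hA : AA x y = 1 := by unfold AA; rw [hm]; ring
    have := rr_pos x y
    rw [hm, hA]
    nlinarith
  · have : 0 < mm x y ^ 2 := by positivity
    linarith [h1.1]

lemma SS_r (x y : ℝ) : SS x y * (rr x y + AA x y) = qq x y := by
  have hd := den_pos x y
  have h := rr_sub x y
  unfold SS
  rw [div_mul_eq_mul_div, div_eq_iff hd.ne']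
  linear_combination h

lemma SS_m (x y : ℝ) : SS x y * mm x y ^ 2 = rr x y - AA x y := by
  have hd := den_pos x y
  have h := rr_sub x y
  unfold SS
  rw [div_mul_eq_mul_div, div_eq_iff hd.ne']
  linear_combination -h

lemma qq_nonneg : 0 ≤ qq x y := by unfold qq; positivity

lemma SS_pos : 0 < SS x y := by
  have hd := den_pos x y
  have h1 := abs_le.1 (abs_A_le x y)
  have hq := qq_nonneg x y
  unfold SS
  apply div_pos _ hd
  rcases hq.lt_or_eq with h | h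
  · linarith [h1.2]
  · have h2 : x = 0 := by
      unfold qq at h
      have : x ^ 2 = 0 := by nlinarith [sq_nonneg x, sq_nonneg (y * pp x), mul_nonneg (sq_nonneg y) (sq_nonneg (pp x))]
      simpa using this
    subst h2
    have hp : pp 0 = 1 := by norm_num [pp]
    have h3 : y = 0 := by
      unfold qq at h
      rw [hp] at h
      have : y ^ 2 = 0 := by linarith
      simpa using this
    subst h3
    rw [← h]
    have hmm : mm 0 0 = Real.exp (-1) * Real.exp (-1) := by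
      unfold mm
      norm_num
      rw [dep_one, ep_one_sq]
    have hA : AA 0 0 < 0 := by
      unfold AA
      rw [hp, hmm, ← Real.exp_add]
      have h5 : Real.exp 2 = Real.exp 1 * Real.exp 1 := by rw [← Real.exp_add]; norm_num
      have h6 := Real.exp_one_lt_d9
      have h7 := Real.exp_pos 1
      have h8 : Real.exp 2 < 10 := by nlinarith
      have h9 : Real.exp (-1 + -1) = (Real.exp 2)⁻¹ := by
        rw [← Real.exp_neg]; norm_num
      have h10 : (10 : ℝ)⁻¹ < (Real.exp 2)⁻¹ := inv_strictAnti₀ (Real.exp_pos 2) h8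
      rw [h9]
      linarith
    linarith [rr_pos 0 0]

lemma Y_perp (x y : ℝ) : Y1 x y * AA x y + Y2 x y * BB x y + Y3 x y * CC x y = 0 := by
  have hr := (rr_pos x y).ne'
  have h := SS_r x y
  have e1 : Y1 x y * AA x y + Y2 x y * BB x y + Y3 x y * CC x y =
      (-2 * x * mm x y / rr x y ^ 2) * (SS x y * (rr x y + AA x y) - qq x y) := by
    unfold Y1 Y2 Y3 BB CC qq
    field_simp
    ring
  rw [e1, h]
  ring

lemma Y_sq (x y : ℝ) : Y1 x y ^ 2 + Y2 x y ^ 2 + Y3 x y ^ 2 = SS x y ^ 2 / rr x y ^ 2 := by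
  have hr := (rr_pos x y).ne'
  have h := SS_r x y
  have h' := SS_m x y
  have e1 : Y1 x y ^ 2 + Y2 x y ^ 2 + Y3 x y ^ 2 - SS x y ^ 2 / rr x y ^ 2 =
      (4 * x ^ 2 / rr x y ^ 4) * (SS x y * (SS x y * mm x y ^ 2) - 2 * SS x y * rr x y + qq x y) := by
    unfold Y1 Y2 Y3 qq
    field_simp
    ring
  rw [h', ← h] at e1
  have e2 : (4 * x ^ 2 / rr x y ^ 4) * (SS x y * (rr x y - AA x y) - 2 * SS x y * rr x y +
      SS x y * (rr x y + AA x y)) = 0 := by ring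
  linarith

lemma Y_ne (x y : ℝ) : ¬ (Y1 x y = 0 ∧ Y2 x y = 0 ∧ Y3 x y = 0) := by
  rintro ⟨h1, h2, h3⟩
  have h := Y_sq x y
  rw [h1, h2, h3] at h
  have := SS_pos x y
  have := rr_pos x y
  have : 0 < SS x y ^ 2 / rr x y ^ 2 := by positivity
  linarith


/-! ### smoothness -/

section smooth

variable {u v : ℂ → ℝ}

lemma mk_contDiff (hu : ContDiff ℝ ∞ u) (hv : ContDiff ℝ ∞ v) :
    ContDiff ℝ ∞ (fun z => (⟨u z, v z⟩ : ℂ)) :=
  Complex.equivRealProdCLM.symm.contDiff.comp (hu.prodMk hv)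

lemma mk_hasFDerivAt {u' v' : ℂ →L[ℝ] ℝ} {z : ℂ} (hu : HasFDerivAt u u' z)
    (hv : HasFDerivAt v v' z) :
    HasFDerivAt (fun z => (⟨u z, v z⟩ : ℂ))
      ((Complex.equivRealProdCLM.symm : ℝ × ℝ →L[ℝ] ℂ).comp (u'.prod v')) z :=
  (Complex.equivRealProdCLM.symm.hasFDerivAt (x := (u z, v z))).comp z (hu.prodMk hv)

lemma re_cd : ContDiff ℝ ∞ (fun z : ℂ => z.re) := Complex.reCLM.contDiff
lemma im_cd : ContDiff ℝ ∞ (fun z : ℂ => z.im) := Complex.imCLM.contDiff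

lemma epx_cd : ContDiff ℝ ∞ (fun z : ℂ => ep (1 - z.re ^ 2)) :=
  ep_contDiff.comp (contDiff_const.sub (re_cd.pow 2))
lemma epy_cd : ContDiff ℝ ∞ (fun z : ℂ => ep (1 - z.im ^ 2)) :=
  ep_contDiff.comp (contDiff_const.sub (im_cd.pow 2))
lemma depx_cd : ContDiff ℝ ∞ (fun z : ℂ => dep (1 - z.re ^ 2)) :=
  dep_contDiff.comp (contDiff_const.sub (re_cd.pow 2))
lemma depy_cd : ContDiff ℝ ∞ (fun z : ℂ => dep (1 - z.im ^ 2)) :=
  dep_contDiff.comp (contDiff_const.sub (im_cd.pow 2))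

lemma mm_cd : ContDiff ℝ ∞ (fun z : ℂ => mm z.re z.im) := depx_cd.mul epy_cd
lemma pp_cd : ContDiff ℝ ∞ (fun z : ℂ => pp z.re) :=
  (contDiff_const.sub (contDiff_const.mul (re_cd.pow 2))).add (re_cd.pow 4)
lemma AA_cd : ContDiff ℝ ∞ (fun z : ℂ => AA z.re z.im) :=
  contDiff_const.sub (contDiff_const.mul (mm_cd.mul pp_cd))
lemma BB_cd : ContDiff ℝ ∞ (fun z : ℂ => BB z.re z.im) :=
  (contDiff_const.mul re_cd).mul mm_cd
lemma CC_cd : ContDiff ℝ ∞ (fun z : ℂ => CC z.re z.im) := im_cd.mul (mm_cd.mul pp_cd)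
lemma rr_cd : ContDiff ℝ ∞ (fun z : ℂ => rr z.re z.im) :=
  (((AA_cd.pow 2).add (BB_cd.pow 2)).add (CC_cd.pow 2)).sqrt fun z => (ABC_pos z.re z.im).ne'
lemma qq_cd : ContDiff ℝ ∞ (fun z : ℂ => qq z.re z.im) :=
  (contDiff_const.mul (re_cd.pow 2)).add ((im_cd.pow 2).mul (pp_cd.pow 2))
lemma SS_cd : ContDiff ℝ ∞ (fun z : ℂ => SS z.re z.im) :=
  (qq_cd.add (rr_cd.sub AA_cd)).div ((rr_cd.add AA_cd).add (mm_cd.pow 2))
    fun z => (den_pos z.re z.im).ne'
lemma ab_cd : ContDiff ℝ ∞ (fun z : ℂ => ab z.re z.im) := epx_cd.mul epy_cd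
lemma Qy_cd : ContDiff ℝ ∞ (fun z : ℂ => Qy z.re z.im) :=
  epx_cd.mul (depy_cd.mul (contDiff_const.mul im_cd))
lemma rr2_cd : ContDiff ℝ ∞ (fun z : ℂ => rr z.re z.im ^ 2) := rr_cd.pow 2
lemma rr2_ne (z : ℂ) : rr z.re z.im ^ 2 ≠ 0 := pow_ne_zero _ (rr_pos _ _).ne'
lemma Y1_cd : ContDiff ℝ ∞ (fun z : ℂ => Y1 z.re z.im) :=
  (((contDiff_const.mul re_cd).mul mm_cd).mul SS_cd).div rr2_cd rr2_ne
lemma Y2_cd : ContDiff ℝ ∞ (fun z : ℂ => Y2 z.re z.im) :=
  (SS_cd.div rr_cd fun z => (rr_pos z.re z.im).ne').sub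
    ((contDiff_const.mul (re_cd.pow 2)).div rr2_cd rr2_ne)
lemma Y3_cd : ContDiff ℝ ∞ (fun z : ℂ => Y3 z.re z.im) :=
  (((contDiff_const.mul re_cd).mul im_cd).mul pp_cd).div rr2_cd rr2_ne
lemma nn_cd : ContDiff ℝ ∞ (fun z : ℂ => nn z.re z.im) :=
  (((Y1_cd.mul ((contDiff_const.mul re_cd).mul Qy_cd)).add (Y2_cd.mul Qy_cd)).add
    (Y3_cd.mul ((re_cd.mul ab_cd).add ((re_cd.mul im_cd).mul Qy_cd)))).neg

end smooth

/-! ### the map -/

def f1 (z : ℂ) : ℝ := z.re - 10 * (z.re * ab z.re z.im)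
def f4 (z : ℂ) : ℝ := z.im * (z.re * ab z.re z.im)

/-- the kink, large size -/
def K0 (z : ℂ) : ℂ × ℂ := (⟨f1 z, z.im⟩, ⟨ab z.re z.im, f4 z⟩)

lemma K0_cd : ContDiff ℝ ∞ K0 := by
  have h1 : ContDiff ℝ ∞ f1 := re_cd.sub (contDiff_const.mul (re_cd.mul ab_cd))
  have h4 : ContDiff ℝ ∞ f4 := im_cd.mul (re_cd.mul ab_cd)
  exact (mk_contDiff h1 im_cd).prodMk (mk_contDiff ab_cd h4)

lemma ab_fd (z : ℂ) : HasFDerivAt (fun z : ℂ => ab z.re z.im)
    (BB z.re z.im • Complex.reCLM + Qy z.re z.im • Complex.imCLM) z := by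
  have hx : HasFDerivAt (fun z : ℂ => ep (1 - z.re ^ 2))
      (dep (1 - z.re ^ 2) • (-((2 * z.re ^ (2 - 1)) • Complex.reCLM))) z := by
    have h1 : HasFDerivAt (fun z : ℂ => z.re ^ 2) ((2 * z.re ^ (2 - 1)) • Complex.reCLM) z := by
      simpa using (Complex.reCLM.hasFDerivAt (x := z)).pow 2
    exact (ep_hasDerivAt (1 - z.re ^ 2)).comp_hasFDerivAt z (h1.const_sub 1)
  have hy : HasFDerivAt (fun z : ℂ => ep (1 - z.im ^ 2))
      (dep (1 - z.im ^ 2) • (-((2 * z.im ^ (2 - 1)) • Complex.imCLM))) z := by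
    have h1 : HasFDerivAt (fun z : ℂ => z.im ^ 2) ((2 * z.im ^ (2 - 1)) • Complex.imCLM) z := by
      simpa using (Complex.imCLM.hasFDerivAt (x := z)).pow 2
    exact (ep_hasDerivAt (1 - z.im ^ 2)).comp_hasFDerivAt z (h1.const_sub 1)
  have h := hx.mul hy
  refine h.congr_fderiv ?_
  ext v
  simp [BB, Qy, mm]
  ring

lemma ab_eq (x y : ℝ) : ab x y = (1 - x ^ 2) ^ 2 * mm x y := by
  unfold ab mm
  rw [ep_eq (1 - x ^ 2)]
  ring

lemma xab_fd (z : ℂ) : HasFDerivAt (fun z : ℂ => z.re * ab z.re z.im)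
    ((mm z.re z.im * pp z.re) • Complex.reCLM + (z.re * Qy z.re z.im) • Complex.imCLM) z := by
  have h := (Complex.reCLM.hasFDerivAt (x := z)).mul (ab_fd z)
  refine h.congr_fderiv ?_
  ext v
  simp [BB, ab_eq, pp]
  ring

lemma f1_fd (z : ℂ) : HasFDerivAt f1
    (AA z.re z.im • Complex.reCLM + (-10 * z.re * Qy z.re z.im) • Complex.imCLM) z := by
  have h := (Complex.reCLM.hasFDerivAt (x := z)).sub ((xab_fd z).const_mul 10)
  refine h.congr_fderiv ?_
  ext v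
  simp [AA]
  ring

lemma f4_fd (z : ℂ) : HasFDerivAt f4
    (CC z.re z.im • Complex.reCLM +
      (z.re * ab z.re z.im + z.re * z.im * Qy z.re z.im) • Complex.imCLM) z := by
  have h := (Complex.imCLM.hasFDerivAt (x := z)).mul (xab_fd z)
  refine h.congr_fderiv ?_
  ext v
  simp [CC]
  ring

lemma K0_fd (z v : ℂ) : fderiv ℝ K0 z v =
    (⟨AA z.re z.im * v.re + -10 * z.re * Qy z.re z.im * v.im, v.im⟩,
      ⟨BB z.re z.im * v.re + Qy z.re z.im * v.im,
        CC z.re z.im * v.re + (z.re * ab z.re z.im + z.re * z.im * Qy z.re z.im) * v.im⟩) := by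
  have h1 := mk_hasFDerivAt (f1_fd z) (Complex.imCLM.hasFDerivAt (x := z))
  have h2 := mk_hasFDerivAt (ab_fd z) (f4_fd z)
  have h := h1.prodMk h2
  have e : fderiv ℝ K0 z = _ := h.fderiv
  rw [e]
  simp [Complex.ext_iff]

lemma K0_inj (z : ℂ) : Function.Injective (fderiv ℝ K0 z) := by
  rw [injective_iff_map_eq_zero]
  intro v hv
  rw [K0_fd] at hv
  have e1 := congrArg (fun p : ℂ × ℂ => p.1.re) hv
  have e2 := congrArg (fun p : ℂ × ℂ => p.1.im) hv
  have e3 := congrArg (fun p : ℂ × ℂ => p.2.re) hv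
  have e4 := congrArg (fun p : ℂ × ℂ => p.2.im) hv
  simp only [Prod.fst_zero, Prod.snd_zero, Complex.zero_re, Complex.zero_im] at e1 e2 e3 e4
  rw [e2] at e1 e3 e4
  have hp := ABC_pos z.re z.im
  have h0 : (AA z.re z.im ^ 2 + BB z.re z.im ^ 2 + CC z.re z.im ^ 2) * v.re ^ 2 = 0 := by
    have a1 : AA z.re z.im * v.re = 0 := by linarith
    have a2 : BB z.re z.im * v.re = 0 := by linarith
    have a3 : CC z.re z.im * v.re = 0 := by linarith
    have : (AA z.re z.im ^ 2 + BB z.re z.im ^ 2 + CC z.re z.im ^ 2) * v.re ^ 2 =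
      (AA z.re z.im * v.re) ^ 2 + (BB z.re z.im * v.re) ^ 2 + (CC z.re z.im * v.re) ^ 2 := by ring
    rw [this, a1, a2, a3]
    ring
  have h1 : v.re = 0 := by
    rcases mul_eq_zero.1 h0 with h | h
    · exact absurd h hp.ne'
    · simpa using h
  exact Complex.ext h1 e2

/-! ### the normal field -/

/-- cut-off -/
def tt (z : ℂ) : ℝ := Real.smoothTransition ((z.re ^ 2 + z.im ^ 2 - 4) / 5)

lemma tt_cd : ContDiff ℝ ∞ tt :=
  Real.smoothTransition.contDiff.comp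
    ((((re_cd.pow 2).add (im_cd.pow 2)).sub contDiff_const).div_const 5)

/-- `w_t` -/
def wt (t : ℝ) (z : ℂ) : ℂ := ⟨-z.re * (2 - t), z.im * ((1 - t) * pp z.re + t)⟩

/-- the normal field, large size -/
def k0 (z : ℂ) : ℂ × ℂ :=
  (⟨-2 * Y1 z.re z.im, -2 * nn z.re z.im⟩,
    (⟨-2 * Y2 z.re z.im, -2 * Y3 z.re z.im⟩ : ℂ) + (wt (tt z) z ^ 2 - wt 0 z ^ 2))

lemma wt_cd {t : ℂ → ℝ} (ht : ContDiff ℝ ∞ t) : ContDiff ℝ ∞ (fun z => wt (t z) z) :=
  mk_contDiff (re_cd.neg.mul (contDiff_const.sub ht))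
    (im_cd.mul (((contDiff_const.sub ht).mul pp_cd).add ht))

lemma k0_cd : ContDiff ℝ ∞ k0 := by
  have h1 : ContDiff ℝ ∞ (fun z : ℂ => (⟨-2 * Y1 z.re z.im, -2 * nn z.re z.im⟩ : ℂ)) :=
    mk_contDiff (contDiff_const.mul Y1_cd) (contDiff_const.mul nn_cd)
  have h2 : ContDiff ℝ ∞ (fun z : ℂ => (⟨-2 * Y2 z.re z.im, -2 * Y3 z.re z.im⟩ : ℂ)) :=
    mk_contDiff (contDiff_const.mul Y2_cd) (contDiff_const.mul Y3_cd)
  exact h1.prodMk (h2.add (((wt_cd tt_cd).pow 2).sub ((wt_cd contDiff_const).pow 2)))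

lemma tt_zero {z : ℂ} (h : z.re ^ 2 + z.im ^ 2 ≤ 4) : tt z = 0 :=
  Real.smoothTransition.zero_of_nonpos (by linarith)

lemma tt_one {z : ℂ} (h : 9 ≤ z.re ^ 2 + z.im ^ 2) : tt z = 1 :=
  Real.smoothTransition.one_of_one_le (by linarith)

/-- outside the square everything is flat -/
lemma out {x y : ℝ} (h : 4 < x ^ 2 + y ^ 2) :
    mm x y = 0 ∧ ab x y = 0 ∧ Qy x y = 0 := by
  rcases le_or_gt 1 (x ^ 2) with hx | hx
  · have h1 : dep (1 - x ^ 2) = 0 := dep_nonpos (by linarith)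
    have h2 : ep (1 - x ^ 2) = 0 := ep_nonpos (by linarith)
    simp [mm, ab, Qy, h1, h2]
  · have h1 : dep (1 - y ^ 2) = 0 := dep_nonpos (by linarith)
    have h2 : ep (1 - y ^ 2) = 0 := ep_nonpos (by linarith)
    simp [mm, ab, Qy, h1, h2]

lemma out_all {x y : ℝ} (h : 4 < x ^ 2 + y ^ 2) :
    AA x y = 1 ∧ BB x y = 0 ∧ CC x y = 0 ∧ rr x y = 1 ∧ SS x y = qq x y / 2 ∧ Y1 x y = 0 ∧
    nn x y = 0 := by
  obtain ⟨hm, ha, hQ⟩ := out h
  have hA : AA x y = 1 := by simp [AA, hm]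
  have hB : BB x y = 0 := by simp [BB, hm]
  have hC : CC x y = 0 := by simp [CC, hm]
  have hr : rr x y = 1 := by simp [rr, hA, hB, hC]
  have hS : SS x y = qq x y / 2 := by
    unfold SS
    rw [hA, hr, hm]
    norm_num
  have hY : Y1 x y = 0 := by simp [Y1, hm]
  refine ⟨hA, hB, hC, hr, hS, hY, ?_⟩
  simp [nn, ha, hQ]

lemma k0_out {z : ℂ} (h : 4 < z.re ^ 2 + z.im ^ 2) : k0 z = (0, wt (tt z) z ^ 2) := by
  obtain ⟨hA, hB, hC, hr, hS, hY, hn⟩ := out_all h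
  unfold k0
  rw [hY, hn]
  refine Prod.ext ?_ ?_
  · simp [Complex.ext_iff]
  · have : (⟨-2 * Y2 z.re z.im, -2 * Y3 z.re z.im⟩ : ℂ) = wt 0 z ^ 2 := by
      apply Complex.ext
      · simp only [Y2, hS, hr, qq, wt, sq, Complex.mul_re]
        ring
      · simp only [Y3, hr, wt, sq, Complex.mul_im]
        ring
    rw [this]
    ring

lemma wt_ne {t : ℝ} (h1 : t ≤ 1) {z : ℂ} (hz : z ≠ 0) : wt t z ≠ 0 := by
  intro h
  have e1 := congrArg Complex.re h
  have e2 := congrArg Complex.im h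
  simp only [wt, Complex.zero_re, Complex.zero_im] at e1 e2
  have hx : z.re = 0 := by
    rcases mul_eq_zero.1 e1 with h | h
    · linarith
    · linarith
  rw [hx] at e2
  have hp : pp 0 = 1 := by norm_num [pp]
  rw [hp] at e2
  have hy : z.im = 0 := by
    have : z.im * ((1 - t) * 1 + t) = z.im := by ring
    linarith
  exact hz (Complex.ext hx hy)

lemma k0_ne (z : ℂ) : k0 z ≠ 0 := by
  rcases le_or_gt (z.re ^ 2 + z.im ^ 2) 4 with h | h
  · intro h0
    unfold k0 at h0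
    rw [tt_zero h, sub_self, add_zero] at h0
    have e1 := congrArg (fun p : ℂ × ℂ => p.1.re) h0
    have e3 := congrArg (fun p : ℂ × ℂ => p.2.re) h0
    have e4 := congrArg (fun p : ℂ × ℂ => p.2.im) h0
    simp only [Prod.fst_zero, Prod.snd_zero, Complex.zero_re, Complex.zero_im] at e1 e3 e4
    exact Y_ne z.re z.im ⟨by linarith, by linarith, by linarith⟩
  · rw [k0_out h]
    intro h0
    have e := congrArg Prod.snd h0
    simp only [Prod.snd_zero] at e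
    have hz : z ≠ 0 := by
      rintro rfl
      norm_num at h
    exact pow_ne_zero 2 (wt_ne (Real.smoothTransition.le_one _) hz) e

lemma k0_perp (z v : ℂ) : ip (k0 z) (fderiv ℝ K0 z v) = 0 := by
  rw [K0_fd]
  rcases le_or_gt (z.re ^ 2 + z.im ^ 2) 4 with h | h
  · unfold k0
    rw [tt_zero h, sub_self, add_zero]
    have hY := Y_perp z.re z.im
    unfold ip
    simp only
    unfold nn
    linear_combination (-2 * v.re) * hY
  · obtain ⟨hm, ha, hQ⟩ := out h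
    obtain ⟨hA, hB, hC, -⟩ := out_all h
    rw [k0_out h, hB, hC, ha, hQ]
    simp [ip]

lemma K0_far {z : ℂ} (h : 9 ≤ z.re ^ 2 + z.im ^ 2) : K0 z = (z, 0) := by
  obtain ⟨hm, ha, hQ⟩ := out (x := z.re) (y := z.im) (by linarith)
  unfold K0 f1 f4
  rw [ha]
  refine Prod.ext ?_ ?_ <;> simp [Complex.ext_iff]

lemma k0_far {z : ℂ} (h : 9 ≤ z.re ^ 2 + z.im ^ 2) : k0 z = (0, (starRingEnd ℂ) z ^ 2) := by
  rw [k0_out (by linarith), tt_one h]
  refine Prod.ext rfl ?_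
  have : wt 1 z = -(starRingEnd ℂ) z := by
    apply Complex.ext
    · simp [wt]; ring
    · simp [wt]
  simp only [this]
  ring

end Kink

open Kink

/-- KINK, any size, general second coordinate -/
theorem kink_aux {δ : ℝ} (hδ : 0 < δ) : ∃ K κ : ℂ → ℂ × ℂ, ContDiff ℝ ∞ K ∧ ContDiff ℝ ∞ κ ∧
    (∀ z, Function.Injective (fderiv ℝ K z)) ∧ (∀ z, κ z ≠ 0) ∧
    (∀ z v, ip (κ z) (fderiv ℝ K z v) = 0) ∧
    ∀ z, δ / 2 ≤ ‖z‖ → K z = (z, 0) ∧ κ z = (0, (starRingEnd ℂ) z ^ 2) := by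
  obtain ⟨s, hs, hsd⟩ : ∃ s : ℝ, 0 < s ∧ s * 3 ≤ δ / 2 := ⟨δ / 6, by positivity, by linarith⟩
  have hfd : ∀ z, HasFDerivAt (fun z : ℂ => s • K0 (s⁻¹ • z)) (fderiv ℝ K0 (s⁻¹ • z)) z := by
    intro z
    have h1 : HasFDerivAt (fun z : ℂ => s⁻¹ • z) (s⁻¹ • ContinuousLinearMap.id ℝ ℂ) z :=
      (hasFDerivAt_id z).const_smul s⁻¹
    have h2 : HasFDerivAt K0 (fderiv ℝ K0 (s⁻¹ • z)) (s⁻¹ • z) :=
      (K0_cd.differentiable (by simp) _).hasFDerivAt
    have h3 := (h2.comp z h1).const_smul s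
    refine h3.congr_fderiv ?_
    ext v : 1
    simp [smul_smul, hs.ne']
  refine ⟨fun z => s • K0 (s⁻¹ • z), fun z => s ^ 2 • k0 (s⁻¹ • z), ?_, ?_, ?_, ?_, ?_, ?_⟩
  · exact (K0_cd.comp (contDiff_const_smul s⁻¹)).const_smul s
  · exact (k0_cd.comp (contDiff_const_smul s⁻¹)).const_smul (s ^ 2)
  · intro z
    rw [(hfd z).fderiv]
    exact K0_inj _
  · intro z
    exact smul_ne_zero (by positivity) (k0_ne _)
  · intro z v
    rw [(hfd z).fderiv]
    have h := k0_perp (s⁻¹ • z) v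
    have e : ip (s ^ 2 • k0 (s⁻¹ • z)) (fderiv ℝ K0 (s⁻¹ • z) v) =
        s ^ 2 * ip (k0 (s⁻¹ • z)) (fderiv ℝ K0 (s⁻¹ • z) v) := by
      simp only [ip, Prod.smul_fst, Prod.smul_snd, Complex.smul_re, Complex.smul_im, smul_eq_mul]
      ring
    rw [e, h, mul_zero]
  · intro z hz
    have h9 : 9 ≤ (s⁻¹ • z).re ^ 2 + (s⁻¹ • z).im ^ 2 := by
      have e : (s⁻¹ • z).re ^ 2 + (s⁻¹ • z).im ^ 2 = (‖z‖ / s) ^ 2 := by
        rw [Complex.smul_re, Complex.smul_im, smul_eq_mul, smul_eq_mul, div_pow, Complex.sq_norm,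
          Complex.normSq_apply]
        field_simp
      rw [e]
      have : 3 ≤ ‖z‖ / s := by
        rw [le_div_iff₀ hs]
        linarith
      nlinarith
    have hs' : (s : ℂ) ≠ 0 := by exact_mod_cast hs.ne'
    constructor
    · simp only
      rw [K0_far h9]
      refine Prod.ext ?_ ?_
      · simp [hs']
      · simp
    · simp only
      rw [k0_far h9]
      refine Prod.ext ?_ ?_
      · simp
      · simp only [Prod.smul_snd, Complex.real_smul, map_mul, Complex.conj_ofReal]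
        push_cast
        field_simp

/-- KINK -/
theorem kink : ∃ K κ : ℂ → ℂ × ℂ, ContDiff ℝ ∞ K ∧ ContDiff ℝ ∞ κ ∧
    (∀ z, Function.Injective (fderiv ℝ K z)) ∧ (∀ z, κ z ≠ 0) ∧
    (∀ z v, ip (κ z) (fderiv ℝ K z v) = 0) ∧
    ∀ z, 1 / 2 ≤ ‖z‖ → K z = (z, 0) ∧ κ z = (0, (starRingEnd ℂ) z ^ 2) :=
  kink_aux one_pos

/-- KINK, both signs and any size -/
theorem kink' (b : Bool) {δ : ℝ} (hδ : 0 < δ) : ∃ K κ : ℂ → ℂ × ℂ, ContDiff ℝ ∞ K ∧
    ContDiff ℝ ∞ κ ∧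
    (∀ z, Function.Injective (fderiv ℝ K z)) ∧ (∀ z, κ z ≠ 0) ∧
    (∀ z v, ip (κ z) (fderiv ℝ K z v) = 0) ∧
    ∀ z, δ / 2 ≤ ‖z‖ → K z = (z, 0) ∧ κ z = (0, st b z ^ 2) := by
  obtain ⟨K, κ, hK, hκ, hi, hn, hp, hf⟩ := kink_aux hδ
  cases b with
  | false => exact ⟨K, κ, hK, hκ, hi, hn, hp, fun z hz => by simpa [st] using hf z hz⟩
  | true =>
    have hcj : ContDiff ℝ ∞ (fun z : ℂ => (starRingEnd ℂ) z) := Complex.conjCLE.contDiff
    have hfd : ∀ z, HasFDerivAt (fun z : ℂ => ((K z).1, (starRingEnd ℂ) (K z).2))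
        (((ContinuousLinearMap.fst ℝ ℂ ℂ).comp (fderiv ℝ K z)).prod
          ((Complex.conjCLE : ℂ →L[ℝ] ℂ).comp
            ((ContinuousLinearMap.snd ℝ ℂ ℂ).comp (fderiv ℝ K z)))) z := by
      intro z
      have h2 : HasFDerivAt K (fderiv ℝ K z) z := (hK.differentiable (by simp) _).hasFDerivAt
      have h3 := h2.fst
      have h4 := h2.snd
      exact h3.prodMk ((Complex.conjCLE.hasFDerivAt (x := (K z).2)).comp z h4)
    refine ⟨fun z => ((K z).1, (starRingEnd ℂ) (K z).2),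
      fun z => ((κ z).1, (starRingEnd ℂ) (κ z).2), ?_, ?_, ?_, ?_, ?_, ?_⟩
    · exact hK.fst.prodMk (hcj.comp hK.snd)
    · exact hκ.fst.prodMk (hcj.comp hκ.snd)
    · intro z
      rw [(hfd z).fderiv, injective_iff_map_eq_zero]
      intro v hv
      apply (injective_iff_map_eq_zero _).1 (hi z) v
      have e1 := congrArg Prod.fst hv
      have e2 := congrArg Prod.snd hv
      refine Prod.ext ?_ ?_
      · simpa using e1
      · simpa using e2
    · intro z h0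
      apply hn z
      have e1 := congrArg Prod.fst h0
      have e2 := congrArg Prod.snd h0
      refine Prod.ext ?_ ?_
      · simpa using e1
      · simpa using e2
    · intro z v
      rw [(hfd z).fderiv]
      have h := hp z v
      simpa [ip] using h
    · intro z hz
      obtain ⟨h1, h2⟩ := hf z hz
      constructor
      · simp only [h1]
        simp
      · simp only [h2]
        simp [st]

end Vale.Agent.P205.TI
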