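import Mathlib

/-!
P205, block TI (helper259): a point of the disc can be moved into a given open set by a smooth
injective immersion of the plane that fixes finitely many given points and is the identity outside
the disc.
-/

open scoped Manifold ContDiff Topology NNReal
open Set Module Metric

noncomputable section

namespace Vale.Agent.P205.TI

/-- the choice of the new point -/
theorem exists_seg {y : ℂ} {V : Set ℂ} (hV : IsOpen V) (hne : V.Nonempty) {Z : Set ℂ}
    (hZ : Z.Finite) : ∃ v ∈ V, ∀ z ∈ Z, z ∈ segment ℝ y v → z = y := by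
  classical
  have hnull : MeasureTheory.volume (⋃ z ∈ Z \ {y}, (line[ℝ, y, z] : Set ℂ)) = 0 := by
    rw [MeasureTheory.measure_biUnion_null_iff (hZ.sdiff).countable]
    intro z hz
    apply MeasureTheory.Measure.addHaar_affineSubspace
    intro htop
    have h1 : finrank ℝ (line[ℝ, y, z]).direction ≤ 1 := by
      have := finrank_vectorSpan_insert_le_set ℝ ({z} : Set ℂ) y
      rw [vectorSpan_singleton, finrank_bot] at this
      rw [direction_affineSpan]
      simpa using this
    rw [htop, AffineSubspace.direction_top, finrank_top, Complex.finrank_real_complex] at h1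
    omega
  have hpos : 0 < MeasureTheory.volume V := hV.measure_pos _ hne
  have hnot : ¬ V ⊆ ⋃ z ∈ Z \ {y}, (line[ℝ, y, z] : Set ℂ) := by
    intro h
    have := MeasureTheory.measure_mono_null h hnull
    rw [this] at hpos
    exact lt_irrefl _ hpos
  obtain ⟨v, hvV, hv⟩ := Set.not_subset.1 hnot
  refine ⟨v, hvV, fun z hz hseg => ?_⟩
  by_contra hzy
  apply hv
  rw [mem_iUnion₂]
  refine ⟨z, ⟨hz, hzy⟩, ?_⟩
  rw [segment_eq_image] at hseg
  obtain ⟨t, ⟨ht0, ht1⟩, hzt⟩ := hseg
  have hzt' : (1 - t) • y + t • v = z := hzt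
  have ht : t ≠ 0 := by
    intro h
    apply hzy
    rw [← hzt', h]
    simp
  have e : AffineMap.lineMap y z t⁻¹ = v := by
    rw [AffineMap.lineMap_apply_module, ← hzt']
    have : t⁻¹ • ((1 - t) • y + t • v) = (t⁻¹ * (1 - t)) • y + v := by
      rw [smul_add, smul_smul, smul_smul, inv_mul_cancel₀ ht, one_smul]
    rw [this, ← add_assoc, ← add_smul]
    have h2 : 1 - t⁻¹ + t⁻¹ * (1 - t) = 0 := by
      field_simp
      ring
    rw [h2, zero_smul, zero_add]
  have h3 : (AffineMap.lineMap y z t⁻¹ : ℂ) ∈ line[ℝ, y, z] :=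
    AffineMap.lineMap_mem_affineSpan_pair _ _ _
  rw [e] at h3
  exact h3

/-- the move in the plane -/
theorem exists_move {y : ℂ} (hy : ‖y‖ < 1) {V : Set ℂ} (hV : IsOpen V) (hne : V.Nonempty)
    (hVb : ∀ v ∈ V, ‖v‖ < 1) {Z : Set ℂ} (hZ : Z.Finite) :
    ∃ v ∈ V, ∃ Θ : ℂ → ℂ, ContDiff ℝ ∞ Θ ∧ Function.Injective Θ ∧
      (∀ z, Function.Injective (fderiv ℝ Θ z)) ∧ Θ v = y ∧ (∀ z, 1 ≤ ‖z‖ → Θ z = z) ∧
      ∀ z ∈ Z, z ≠ y → Θ z = z := by
  classical
  obtain ⟨v, hvV, hv⟩ := exists_seg (y := y) hV hne hZ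
  refine ⟨v, hvV, ?_⟩
  -- the cut-off function
  have hseg : IsClosed (segment ℝ y v) := by
    rw [segment_eq_image_lineMap]
    exact (isCompact_Icc.image (by fun_prop)).isClosed
  have hcl : IsClosed ((ball (0 : ℂ) 1)ᶜ ∪ (Z \ {y})) :=
    isOpen_ball.isClosed_compl.union (hZ.sdiff).isClosed
  have hdisj : Disjoint ((ball (0 : ℂ) 1)ᶜ ∪ (Z \ {y})) (segment ℝ y v) := by
    rw [Set.disjoint_left]
    rintro z (hz | hz) hzs
    · apply hz
      have hc := (convex_ball (0 : ℂ) 1).segment_subset (x := y) (y := v) (by simpa using hy)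
        (by simpa using hVb v hvV)
      exact hc hzs
    · exact hz.2 (hv z hz.1 hzs)
  obtain ⟨η, h0, h1, -⟩ := exists_contMDiffMap_zero_one_of_isClosed 𝓘(ℝ, ℂ) (n := ⊤) hcl hseg hdisj
  have hη : ContDiff ℝ ∞ (η : ℂ → ℝ) := η.contMDiff.contDiff
  have hηc : HasCompactSupport (η : ℂ → ℝ) := by
    apply HasCompactSupport.intro (isCompact_closedBall (0 : ℂ) 1)
    intro z hz
    exact h0 (Or.inl fun h => hz (ball_subset_closedBall h))
  obtain ⟨C, hC⟩ := ContDiff.lipschitzWith_of_hasCompactSupport hηc hη (by simp)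
  obtain ⟨n, hn⟩ := exists_nat_gt ((C : ℝ) * ‖v - y‖)
  have hn0 : (0 : ℝ) < n := lt_of_le_of_lt (by positivity) hn
  let T : ℂ → ℂ := fun x => x - (η x / n) • (v - y)
  have hT : ContDiff ℝ ∞ T := contDiff_id.sub ((hη.div_const _).smul contDiff_const)
  have hTinj : Function.Injective T := by
    intro a b hab
    have e : a - b = ((η a - η b) / n) • (v - y) := by
      have h2 : a - (η a / n) • (v - y) = b - (η b / n) • (v - y) := hab
      have h3 : a - b = (η a / n) • (v - y) - (η b / n) • (v - y) := by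
        rw [sub_eq_sub_iff_add_eq_add]
        have := sub_eq_sub_iff_add_eq_add.1 h2
        rw [this]; abel
      rw [h3, ← sub_smul]
      congr 1
      ring
    have hle : ‖a - b‖ ≤ (C * ‖v - y‖) / n * ‖a - b‖ := by
      calc ‖a - b‖ = ‖((η a - η b) / n) • (v - y)‖ := by rw [← e]
        _ = |η a - η b| / n * ‖v - y‖ := by
            rw [norm_smul, Real.norm_eq_abs, abs_div, abs_of_pos hn0]
        _ ≤ (C * ‖a - b‖) / n * ‖v - y‖ := by
            have := hC.dist_le_mul a b
            rw [Real.dist_eq, dist_eq_norm] at this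
            gcongr
        _ = _ := by ring
    have hlt : (C * ‖v - y‖) / n < 1 := by
      rw [div_lt_one hn0]; exact hn
    by_contra hne
    have hpos : 0 < ‖a - b‖ := norm_pos_iff.2 (sub_ne_zero.2 hne)
    nlinarith
  have hTd : ∀ z, Function.Injective (fderiv ℝ T z) := by
    intro z
    have hd : HasFDerivAt (η : ℂ → ℝ) (fderiv ℝ η z) z :=
      ((hη.differentiable (by simp)) z).hasFDerivAt
    have hTz : HasFDerivAt T (ContinuousLinearMap.id ℝ ℂ -
        ((n : ℝ)⁻¹ • fderiv ℝ η z).smulRight (v - y)) z := by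
      have h2 : HasFDerivAt (fun x => (n : ℝ)⁻¹ • η x) ((n : ℝ)⁻¹ • fderiv ℝ η z) z :=
        hd.const_smul ((n : ℝ)⁻¹)
      have h3 := (hasFDerivAt_id z).sub (h2.smul_const (v - y))
      refine h3.congr_of_eventuallyEq (Filter.Eventually.of_forall fun x => ?_)
      simp only [T, Pi.sub_apply, id, smul_eq_mul]
      rw [div_eq_inv_mul]
    rw [hTz.fderiv, injective_iff_map_eq_zero]
    intro w hw
    have e : w = ((n : ℝ)⁻¹ * fderiv ℝ η z w) • (v - y) := by
      have : w - ((n : ℝ)⁻¹ * fderiv ℝ η z w) • (v - y) = 0 := by simpa using hw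
      exact sub_eq_zero.1 this
    have hle : ‖w‖ ≤ (C * ‖v - y‖) / n * ‖w‖ := by
      calc ‖w‖ = ‖((n : ℝ)⁻¹ * fderiv ℝ η z w) • (v - y)‖ := by rw [← e]
        _ = (n : ℝ)⁻¹ * |fderiv ℝ η z w| * ‖v - y‖ := by
            rw [norm_smul, Real.norm_eq_abs, abs_mul, abs_of_pos (inv_pos.2 hn0)]
        _ ≤ (n : ℝ)⁻¹ * (C * ‖w‖) * ‖v - y‖ := by
            have h2 : ‖fderiv ℝ η z‖ ≤ C := norm_fderiv_le_of_lipschitz ℝ hC
            have h3 := (fderiv ℝ η z).le_of_opNorm_le h2 w
            rw [Real.norm_eq_abs] at h3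
            gcongr
        _ = _ := by rw [div_eq_inv_mul]; ring
    have hlt : (C * ‖v - y‖) / n < 1 := by
      rw [div_lt_one hn0]; exact hn
    by_contra hne
    have hpos : 0 < ‖w‖ := norm_pos_iff.2 hne
    nlinarith
  -- the iterates
  have hit : ∀ k : ℕ, ContDiff ℝ ∞ (T^[k]) ∧ Function.Injective (T^[k]) ∧
      (∀ z, Function.Injective (fderiv ℝ (T^[k]) z)) ∧ ∀ z, η z = 0 → T^[k] z = z := by
    intro k
    induction k with
    | zero =>
      refine ⟨contDiff_id, Function.injective_id, fun z => ?_, fun z _ => rfl⟩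
      rw [Function.iterate_zero, fderiv_id]
      exact Function.injective_id
    | succ k ih =>
      obtain ⟨i1, i2, i3, i4⟩ := ih
      rw [Function.iterate_succ']
      refine ⟨hT.comp i1, hTinj.comp i2, fun z => ?_, fun z hz => ?_⟩
      · rw [fderiv_comp z ((hT.differentiable (by simp)) _) ((i1.differentiable (by simp)) _)]
        exact (hTd _).comp (i3 z)
      · rw [Function.comp_apply, i4 z hz]
        simp [T, hz]
  have hv' : ∀ k : ℕ, k ≤ n → T^[k] v = v - ((k : ℝ) / n) • (v - y) := by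
    intro k
    induction k with
    | zero => intro _; simp
    | succ k ih =>
      intro hk
      rw [Function.iterate_succ', Function.comp_apply, ih (by omega)]
      have hmem : v - ((k : ℝ) / n) • (v - y) ∈ segment ℝ y v := by
        rw [segment_symm, segment_eq_image']
        refine ⟨(k : ℝ) / n, ⟨by positivity, ?_⟩, ?_⟩
        · rw [div_le_one hn0]
          exact_mod_cast (by omega : k ≤ n)
        · simp only [smul_sub]; abel
      have e1 : η (v - ((k : ℝ) / n) • (v - y)) = 1 := h1 hmem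
      simp only [T, e1]
      rw [sub_sub, ← add_smul]
      congr 2
      push_cast
      ring
  obtain ⟨i1, i2, i3, i4⟩ := hit n
  refine ⟨T^[n], i1, i2, i3, ?_, fun z hz => i4 z (h0 (Or.inl ?_)), fun z hz hzy =>
    i4 z (h0 (Or.inr ⟨hz, hzy⟩))⟩
  · rw [hv' n le_rfl, div_self hn0.ne', one_smul, sub_sub_cancel]
  · simpa using hz

end Vale.Agent.P205.TI
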