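import Vale.Agent.P205.TI.Main0
import Vale.Agent.P205.TI.SwapP

/-!
P205, block TI (helper259): the local swap lemma, in the graph chart.
-/

open scoped Manifold ContDiff Topology
open Set Module

noncomputable section

namespace Vale.Agent.P205.TI

section Swap

variable {E : Type*} [NormedAddCommGroup E] [NormedSpace ℝ E] [FiniteDimensional ℝ E]
  {M : Type*} [TopologicalSpace M] [ChartedSpace E M] [IsManifold 𝓘(ℝ, E) ∞ M]

/-- the data of a graph chart -/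
structure GCh (E : Type*) [NormedAddCommGroup E] [NormedSpace ℝ E]
    {M : Type*} [TopologicalSpace M] [ChartedSpace E M] (f : M → V4)
    (κ : OpenPartialHomeomorph M ℂ) (L : V4 ≃L[ℝ] ℂ × ℂ) (F : ℂ → ℂ) (r : ℝ) (p : M) : Prop where
  hr : 0 < r
  hp : p ∈ κ.source
  hp0 : κ p = 0
  hcb : Metric.closedBall 0 2 ⊆ κ.target
  hκ : ContMDiffOn 𝓘(ℝ, E) 𝓘(ℝ, ℂ) ∞ κ κ.source
  hκs : ContMDiffOn 𝓘(ℝ, ℂ) 𝓘(ℝ, E) ∞ κ.symm κ.target
  hF : ContDiff ℝ ∞ F
  hL : ∀ a b, ip (L a) (L b) = inner ℝ a b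
  hgr : ∀ x ∈ κ.source, ‖κ x‖ ≤ 2 → L (f x) = L (f p) + r • (κ x, F (κ x))

variable {f s : M → V4} {κ : OpenPartialHomeomorph M ℂ} {L : V4 ≃L[ℝ] ℂ × ℂ}
    {F : ℂ → ℂ} {r : ℝ} {p : M}

omit [FiniteDimensional ℝ E] [IsManifold 𝓘(ℝ, E) ∞ M]

theorem GCh.mdiff (h : GCh E f κ L F r p) : κ.MDifferentiable 𝓘(ℝ, E) 𝓘(ℝ, ℂ) :=
  ⟨h.hκ.mdifferentiableOn (by simp), h.hκs.mdifferentiableOn (by simp)⟩

theorem GCh.mem (h : GCh E f κ L F r p) {z : ℂ} (hz : ‖z‖ ≤ 2) : z ∈ κ.target :=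
  h.hcb (by simpa using hz)

theorem GCh.comp (h : GCh E f κ L F r p) {g : M → V4} (hg : ContMDiff 𝓘(ℝ, E) 𝓘(ℝ, V4) ∞ g)
    {z : ℂ} (hz : z ∈ κ.target) :
    ContDiffAt ℝ ∞ (fun y => L (g (κ.symm y))) z ∧
      ∀ v : ℂ, fderiv ℝ (fun y => L (g (κ.symm y))) z v =
        L ((mfderiv 𝓘(ℝ, E) 𝓘(ℝ, V4) g (κ.symm z) : E →L[ℝ] V4)
          ((mfderiv 𝓘(ℝ, ℂ) 𝓘(ℝ, E) κ.symm z : ℂ →L[ℝ] E) v)) := by
  have hsy : ContMDiffAt 𝓘(ℝ, ℂ) 𝓘(ℝ, E) ∞ κ.symm z :=
    h.hκs.contMDiffAt (κ.open_target.mem_nhds hz)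
  have c1 : ContMDiffAt 𝓘(ℝ, ℂ) 𝓘(ℝ, V4) ∞ (g ∘ κ.symm) z :=
    (hg (κ.symm z)).comp z hsy
  have c2 : ContDiffAt ℝ ∞ (g ∘ κ.symm) z := contMDiffAt_iff_contDiffAt.1 c1
  refine ⟨(L : V4 →L[ℝ] ℂ × ℂ).contDiff.contDiffAt.comp z c2, fun v => ?_⟩
  have e1 : fderiv ℝ (g ∘ κ.symm) z =
      (mfderiv 𝓘(ℝ, E) 𝓘(ℝ, V4) g (κ.symm z) : E →L[ℝ] V4).comp
        (mfderiv 𝓘(ℝ, ℂ) 𝓘(ℝ, E) κ.symm z : ℂ →L[ℝ] E) := by
    rw [← mfderiv_eq_fderiv]
    exact mfderiv_comp z ((hg (κ.symm z)).mdifferentiableAt (by simp))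
      (hsy.mdifferentiableAt (by simp))
  have e2 : HasFDerivAt (fun y => L (g (κ.symm y)))
      ((L : V4 →L[ℝ] ℂ × ℂ).comp (fderiv ℝ (g ∘ κ.symm) z)) z :=
    (L : V4 →L[ℝ] ℂ × ℂ).hasFDerivAt.comp z
      (c2.differentiableAt (by simp)).hasFDerivAt
  rw [e2.fderiv, e1]
  rfl

theorem GCh.graph (h : GCh E f κ L F r p) (hf : ContMDiff 𝓘(ℝ, E) 𝓘(ℝ, V4) ∞ f) {z : ℂ}
    (hz2 : ‖z‖ < 2) (v : ℂ) :
      L ((mfderiv 𝓘(ℝ, E) 𝓘(ℝ, V4) f (κ.symm z) : E →L[ℝ] V4)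
          ((mfderiv 𝓘(ℝ, ℂ) 𝓘(ℝ, E) κ.symm z : ℂ →L[ℝ] E) v)) = r • (v, fderiv ℝ F z v) := by
  rw [← (h.comp hf (h.mem hz2.le)).2 v]
  have hev : (fun y => L (f (κ.symm y))) =ᶠ[𝓝 z] fun y => L (f p) + r • (y, F y) := by
    have : Metric.ball (0 : ℂ) 2 ∈ 𝓝 z := Metric.isOpen_ball.mem_nhds (by simpa using hz2)
    filter_upwards [this] with y hy
    have hy2 : ‖y‖ ≤ 2 := by simpa using (Metric.ball_subset_closedBall hy)
    have ht := h.mem hy2
    have hs' := κ.map_target ht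
    have := h.hgr (κ.symm y) hs' (by rw [κ.right_inv ht]; exact hy2)
    rw [this, κ.right_inv ht]
  rw [hev.fderiv_eq]
  have h1 : HasFDerivAt F (fderiv ℝ F z) z :=
    (h.hF.differentiable (by simp)).differentiableAt.hasFDerivAt
  have h2 : HasFDerivAt (fun y : ℂ => (y, F y))
      ((ContinuousLinearMap.id ℝ ℂ).prod (fderiv ℝ F z)) z :=
    (hasFDerivAt_id z).prodMk h1
  have h3 : HasFDerivAt (fun y : ℂ => L (f p) + r • (y, F y))
      (r • (ContinuousLinearMap.id ℝ ℂ).prod (fderiv ℝ F z)) z :=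
    (h2.const_smul r).const_add (L (f p))
  rw [h3.fderiv]
  rfl

theorem GCh.nrm (h : GCh E f κ L F r p) (hf : ContMDiff 𝓘(ℝ, E) 𝓘(ℝ, V4) ∞ f) (hs : Nrm E f s)
    {z : ℂ} (hz2 : ‖z‖ < 2) : L (s (κ.symm z)) = nrm F (L (s (κ.symm z))).2 z := by
  apply eq_nrm
  intro v
  have h1 := hs.perp (κ.symm z) ((mfderiv 𝓘(ℝ, ℂ) 𝓘(ℝ, E) κ.symm z : ℂ →L[ℝ] E) v)
  have h2 := (h.hL _ _).trans h1
  rw [h.graph hf hz2 v, ip_smul_right] at h2
  rcases mul_eq_zero.1 h2 with h3 | h3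
  · exact absurd h3 h.hr.ne'
  · exact h3

/-- a normal field is a function in the graph chart -/
theorem GCh.exists_fun (h : GCh E f κ L F r p) (hf : ContMDiff 𝓘(ℝ, E) 𝓘(ℝ, V4) ∞ f)
    (hs : Nrm E f s) (hn : NDeg E s) : ∃ σ : ℂ → ℂ, ContDiff ℝ ∞ σ ∧
      (∀ z, ‖z‖ ≤ 3 / 2 → L (s (κ.symm z)) = TI.nrm F (σ z) z) ∧
      ∀ z, ‖z‖ < 3 / 2 → σ z = 0 → Function.Injective (fderiv ℝ σ z) := by
  let χ : ContDiffBump (0 : ℂ) := ⟨3 / 2, 2, by norm_num, by norm_num⟩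
  let σ : ℂ → ℂ := fun z => (χ z) • (L (s (κ.symm z))).2
  have hσeq : ∀ z : ℂ, ‖z‖ ≤ 3 / 2 → σ z = (L (s (κ.symm z))).2 := by
    intro z h
    have : χ z = 1 := χ.one_of_mem_closedBall (by simpa using h)
    simp only [σ, this, one_smul]
  have hσ : ContDiff ℝ ∞ σ := by
    rw [contDiff_iff_contDiffAt]
    intro z
    by_cases hzt : z ∈ κ.target
    · have h1 := (h.comp hs.sm hzt).1
      have h2 : ContDiffAt ℝ ∞ (fun y => (L (s (κ.symm y))).2) z := h1.snd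
      exact (χ.contDiff.contDiffAt).smul h2
    · have h1 : z ∉ tsupport χ := by
        rw [χ.tsupport_eq]
        exact fun h' => hzt (h.hcb h')
      have h2 : σ =ᶠ[𝓝 z] fun _ => 0 := by
        have h3 : (tsupport χ)ᶜ ∈ 𝓝 z := (isClosed_tsupport _).isOpen_compl.mem_nhds h1
        filter_upwards [h3] with y hy
        simp only [σ, image_eq_zero_of_notMem_tsupport hy, zero_smul]
      exact contDiffAt_const.congr_of_eventuallyEq h2
  have hkey : ∀ z, ‖z‖ ≤ 3 / 2 → L (s (κ.symm z)) = TI.nrm F (σ z) z := by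
    intro z hz
    rw [hσeq z hz]
    exact h.nrm hf hs (by linarith)
  refine ⟨σ, hσ, hkey, ?_⟩
  intro z hz h0
  rw [injective_iff_map_eq_zero]
  intro v hv
  have hd := hasFDerivAt_nrm h.hF ((hσ.differentiable (by simp)) z) h0 v hv
  have hev : (fun y => TI.nrm F (σ y) y) =ᶠ[𝓝 z] fun y => L (s (κ.symm y)) := by
    have : Metric.ball (0 : ℂ) (3 / 2) ∈ 𝓝 z :=
      Metric.isOpen_ball.mem_nhds (by simpa using hz)
    filter_upwards [this] with y hy
    have hy1 : ‖y‖ < 3 / 2 := by simpa using hy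
    exact (hkey y hy1.le).symm
  have ht := h.mem (z := z) (by linarith)
  have hs0 : s (κ.symm z) = 0 := by
    have h1 := hkey z hz.le
    rw [h0] at h1
    have h2 : TI.nrm F 0 z = 0 := by
      rw [nrm_lin]; simp
    rw [h2] at h1
    exact (map_eq_zero_iff L L.injective).1 h1
  rw [hev.fderiv_eq, (h.comp hs.sm ht).2 v] at hd
  have h3 := (map_eq_zero_iff L L.injective).1 hd
  have h4 := (injective_iff_map_eq_zero _).1 (hn (κ.symm z) hs0) _ h3
  exact (injective_iff_map_eq_zero _).1 (h.mdiff.symm.mfderiv_injective ht) _ h4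

/-- replacing the function in the disc -/
theorem GCh.glue [T2Space M] (h : GCh E f κ L F r p) (hf : ContMDiff 𝓘(ℝ, E) 𝓘(ℝ, V4) ∞ f)
    (hs : Nrm E f s) (hn : NDeg E s) {τ : ℂ → ℂ} (hτ : ContDiff ℝ ∞ τ)
    (heq : ∀ z, 1 ≤ ‖z‖ → ‖z‖ ≤ 3 / 2 → L (s (κ.symm z)) = TI.nrm F (τ z) z)
    (hτn : ∀ z, ‖z‖ < 3 / 2 → τ z = 0 → Function.Injective (fderiv ℝ τ z)) :
    ∃ s' : M → V4, Nrm E f s' ∧ NDeg E s' ∧
      (∀ q, q ∈ κ.source → ‖κ q‖ < 3 / 2 → (s' q = 0 ↔ τ (κ q) = 0)) ∧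
      ∀ q, ¬ (q ∈ κ.source ∧ ‖κ q‖ < 3 / 2) → s' q = s q := by
  classical
  let P : M → Prop := fun q => q ∈ κ.source ∧ ‖κ q‖ < 3 / 2
  let B : ℂ → V4 := fun z => L.symm (TI.nrm F (τ z) z)
  have hB : ContDiff ℝ ∞ B := (L.symm : ℂ × ℂ →L[ℝ] V4).contDiff.comp (contDiff_nrm h.hF hτ)
  let s' : M → V4 := fun q => if P q then B (κ q) else s q
  have hO1 : IsOpen {q | P q} := by
    have := κ.isOpen_inter_preimage (Metric.isOpen_ball (x := (0 : ℂ)) (ε := 3 / 2))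
    convert this using 1
    ext x
    simp [P]
  have hB0 : ∀ z, B z = 0 ↔ τ z = 0 := by
    intro z
    rw [map_eq_zero_iff L.symm L.symm.injective]
    constructor
    · intro h1
      have := congrArg Prod.snd h1
      simpa [TI.nrm] using this
    · intro h1
      rw [h1, nrm_lin]; simp
  -- the properties at each point
  have key : ∀ q, ContMDiffAt 𝓘(ℝ, E) 𝓘(ℝ, V4) ∞ s' q ∧
      (∀ v : E, inner ℝ (s' q) ((mfderiv 𝓘(ℝ, E) 𝓘(ℝ, V4) f q : E →L[ℝ] V4) v) = 0) ∧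
      (s' q = 0 → Function.Injective (mfderiv 𝓘(ℝ, E) 𝓘(ℝ, V4) s' q)) := by
    intro q
    by_cases hq : P q
    · have e1 : s' =ᶠ[𝓝 q] B ∘ κ := by
        filter_upwards [hO1.mem_nhds hq] with x hx
        have hx' : P x := hx
        simp only [s', hx', if_true, Function.comp_apply]
      have hkq : ContMDiffAt 𝓘(ℝ, E) 𝓘(ℝ, ℂ) ∞ κ q :=
        h.hκ.contMDiffAt (κ.open_source.mem_nhds hq.1)
      have c1 : ContMDiffAt 𝓘(ℝ, E) 𝓘(ℝ, V4) ∞ (B ∘ κ) q :=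
        (hB.contMDiff (κ q)).comp q hkq
      refine ⟨c1.congr_of_eventuallyEq e1, ?_, ?_⟩
      · intro v
        have ht : κ q ∈ κ.target := κ.map_source hq.1
        obtain ⟨u, hu⟩ : ∃ u : ℂ, (mfderiv 𝓘(ℝ, ℂ) 𝓘(ℝ, E) κ.symm (κ q) : ℂ →L[ℝ] E) u = v :=
          h.mdiff.symm.mfderiv_surjective ht v
        have hg := h.graph hf (z := κ q) (by linarith [hq.2]) u
        have hg' : ∀ q', κ.symm (κ q) = q' →
            L ((mfderiv 𝓘(ℝ, E) 𝓘(ℝ, V4) f q' : E →L[ℝ] V4) v) =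
              r • ((u : ℂ), fderiv ℝ F (κ q) u) := by
          rintro _ rfl
          exact (congrArg (fun w : E =>
            L ((mfderiv 𝓘(ℝ, E) 𝓘(ℝ, V4) f (κ.symm (κ q)) : E →L[ℝ] V4) w)) hu.symm).trans hg
        have hg2 := hg' q (κ.left_inv hq.1)
        have h5 : s' q = B (κ q) := e1.eq_of_nhds
        rw [h5]
        refine (h.hL _ _).symm.trans ?_
        rw [hg2, ip_smul_right]
        simp only [B, ContinuousLinearEquiv.apply_symm_apply]
        rw [ip_nrm, mul_zero]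
      · intro h0
        rw [e1.eq_of_nhds, Function.comp_apply, hB0] at h0
        have hti := hτn _ hq.2 h0
        have hBi : Function.Injective (fderiv ℝ B (κ q)) := by
          rw [injective_iff_map_eq_zero]
          intro v hv
          have e2 : HasFDerivAt (fun z => (L (B z)).2)
              ((ContinuousLinearMap.snd ℝ ℂ ℂ).comp
                ((L : V4 →L[ℝ] ℂ × ℂ).comp (fderiv ℝ B (κ q)))) (κ q) :=
            (ContinuousLinearMap.snd ℝ ℂ ℂ).hasFDerivAt.comp (κ q)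
              ((L : V4 →L[ℝ] ℂ × ℂ).hasFDerivAt.comp (κ q)
                ((hB.differentiable (by simp)) (κ q)).hasFDerivAt)
          have e3 : (fun z => (L (B z)).2) = τ := by
            funext z
            simp [B, TI.nrm]
          rw [e3] at e2
          apply (injective_iff_map_eq_zero _).1 hti
          rw [e2.fderiv]
          simp [hv]
        rw [e1.mfderiv_eq]
        have h1 : (mfderiv 𝓘(ℝ, E) 𝓘(ℝ, V4) (B ∘ κ) q : E →L[ℝ] V4) =
            (fderiv ℝ B (κ q)).comp (mfderiv 𝓘(ℝ, E) 𝓘(ℝ, ℂ) κ q : E →L[ℝ] ℂ) := by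
          rw [← mfderiv_eq_fderiv]
          exact mfderiv_comp q ((hB.contMDiff (κ q)).mdifferentiableAt (by simp))
            (hkq.mdifferentiableAt (by simp))
        have h2 : Function.Injective (mfderiv 𝓘(ℝ, E) 𝓘(ℝ, V4) (B ∘ κ) q : E →L[ℝ] V4) := by
          rw [h1]
          exact hBi.comp (h.mdiff.mfderiv_injective hq.1)
        exact h2
    · have hK : IsClosed (κ.symm '' Metric.closedBall (0 : ℂ) 1) := by
        apply IsCompact.isClosed
        apply (isCompact_closedBall (0 : ℂ) 1).image_of_continuousOn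
        exact κ.continuousOn_symm.mono fun z hz => h.mem (by
          have : ‖z‖ ≤ 1 := by simpa using hz
          linarith)
      have hqK : q ∉ κ.symm '' Metric.closedBall (0 : ℂ) 1 := by
        rintro ⟨z, hz, rfl⟩
        have hz' : ‖z‖ ≤ 1 := by simpa using hz
        have ht := h.mem (z := z) (by linarith)
        exact hq ⟨κ.map_target ht, by rw [κ.right_inv ht]; linarith⟩
      have e1 : s' =ᶠ[𝓝 q] s := by
        filter_upwards [hK.isOpen_compl.mem_nhds hqK] with x hx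
        by_cases hPx : P x
        · have hge : 1 ≤ ‖κ x‖ := by
            by_contra hlt
            push Not at hlt
            exact hx ⟨κ x, by simpa using hlt.le, κ.left_inv hPx.1⟩
          have h3 := heq (κ x) hge hPx.2.le
          rw [κ.left_inv hPx.1] at h3
          simp only [s', hPx, if_true, B]
          rw [← h3, L.symm_apply_apply]
        · simp only [s', hPx, if_false]
      refine ⟨(hs.sm q).congr_of_eventuallyEq e1, ?_, ?_⟩
      · rw [e1.eq_of_nhds]; exact hs.perp q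
      · intro h0
        rw [e1.eq_of_nhds] at h0
        rw [e1.mfderiv_eq]
        exact hn q h0
  refine ⟨s', ⟨fun q => (key q).1, fun q => (key q).2.1⟩, fun q => (key q).2.2, ?_, ?_⟩
  · intro q h1 h2
    have hP : P q := ⟨h1, h2⟩
    simp only [s', hP, if_true]
    exact hB0 _
  · intro q hq
    have hP : ¬ P q := hq
    simp only [s', hP, if_false]

end Swap

variable {E : Type*} [NormedAddCommGroup E] [NormedSpace ℝ E] [FiniteDimensional ℝ E]
  {M : Type*} [TopologicalSpace M] [ChartedSpace E M] [IsManifold 𝓘(ℝ, E) ∞ M]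
  [CompactSpace M] [T2Space M]

theorem swapStmt (hE : finrank ℝ E = 2) : SwapStmt E M := by
  classical
  intro f hf p
  obtain ⟨κ, L, F, r, hr, hp, hp0, hcb, hκ, hκs, hF, hL, hgr⟩ := graph_chart hE hf p
  have h : GCh E f κ L F r p := ⟨hr, hp, hp0, hcb, hκ, hκs, hF, hL, hgr⟩
  refine ⟨κ.source ∩ κ ⁻¹' Metric.ball 0 1, κ.isOpen_inter_preimage Metric.isOpen_ball,
    ⟨hp, by simp [hp0]⟩, ?_⟩
  intro s hs hn hfin y hy hsy V hVU hV hVne
  obtain ⟨σ, hσ, hσs, hσn⟩ := h.exists_fun hf.sm hs hn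
  have hys : y ∈ κ.source := hy.1
  have hy1 : ‖κ y‖ < 1 := by simpa using hy.2
  -- the planar data
  have hV' : IsOpen (κ '' V) := κ.isOpen_image_of_subset_source hV fun x hx => (hVU hx).1
  obtain ⟨v, hvV, Θ, hΘ, hΘi, hΘd, hΘv, hΘo, hΘZ⟩ := exists_move (y := κ y) hy1 hV'
    (hVne.image κ) (by
      rintro _ ⟨x, hx, rfl⟩
      simpa using (hVU hx).2) (hfin.image κ)
  obtain ⟨y', hy'V, rfl⟩ := hvV
  have hy's : y' ∈ κ.source := (hVU hy'V).1
  have hy'1 : ‖κ y'‖ < 1 := by simpa using (hVU hy'V).2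
  -- `Θ` preserves the disc of radius `3 / 2`
  have hΘb : ∀ z, ‖z‖ < 3 / 2 → ‖Θ z‖ < 3 / 2 := by
    intro z hz
    by_contra hcon
    push Not at hcon
    have h1 : Θ (Θ z) = Θ z := hΘo _ (by linarith)
    have h2 := hΘi h1
    rw [h2] at hcon
    linarith
  have hσ0 : ∀ z, ‖z‖ < 3 / 2 → (σ z = 0 ↔ s (κ.symm z) = 0) := by
    intro z hz
    have h1 := hσs z hz.le
    constructor
    · intro h0
      rw [h0] at h1
      have h2 : nrm F 0 z = 0 := by
        rw [nrm_lin]; simp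
      rw [h2] at h1
      exact (map_eq_zero_iff L L.injective).1 h1
    · intro h0
      rw [h0, map_zero] at h1
      have := congrArg Prod.snd h1
      simpa [nrm] using this.symm
  obtain ⟨s', hs', hn', hz1, hz2⟩ := h.glue hf.sm hs hn (τ := fun z => σ (Θ z)) (hσ.comp hΘ)
    (fun z h1 h2 => by
      rw [hΘo z h1]; exact hσs z h2)
    (fun z h1 h0 => by
      have e : fderiv ℝ (fun z => σ (Θ z)) z = (fderiv ℝ σ (Θ z)).comp (fderiv ℝ Θ z) :=
        fderiv_comp z ((hσ.differentiable (by simp)) _) ((hΘ.differentiable (by simp)) _)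
      rw [e]
      exact (hσn _ (hΘb z h1) h0).comp (hΘd z))
  refine ⟨y', hy'V, s', hs', hn', ?_⟩
  ext q
  change s' q = 0 ↔ q = y' ∨ (s q = 0 ∧ ¬ q = y)
  by_cases hq : q ∈ κ.source ∧ ‖κ q‖ < 3 / 2
  · rw [hz1 q hq.1 hq.2, hσ0 _ (hΘb _ hq.2)]
    constructor
    · intro h0
      by_cases hqy : Θ (κ q) = κ y
      · left
        rw [← hΘv] at hqy
        exact κ.injOn hq.1 hy's (hΘi hqy)
      · right
        have hmem : Θ (κ q) ∈ κ.target := h.mem (by linarith [hΘb _ hq.2])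
        have h1 : Θ (κ q) ∈ κ '' {q | s q = 0} := ⟨κ.symm (Θ (κ q)), h0, κ.right_inv hmem⟩
        have h2 := hΘi (hΘZ _ h1 hqy)
        rw [h2, κ.left_inv hq.1] at h0
        refine ⟨h0, ?_⟩
        rintro rfl
        exact hqy h2
    · rintro (rfl | ⟨h0, hne⟩)
      · rw [hΘv, κ.left_inv hys]; exact hsy
      · have h1 : κ q ≠ κ y := fun he => hne (κ.injOn hq.1 hys he)
        rw [hΘZ (κ q) ⟨q, h0, rfl⟩ h1, κ.left_inv hq.1]
        exact h0
  · rw [hz2 q hq]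
    constructor
    · intro h0
      right
      refine ⟨h0, ?_⟩
      rintro rfl
      exact hq ⟨hys, by linarith⟩
    · rintro (rfl | ⟨h0, -⟩)
      · exact absurd ⟨hy's, by linarith⟩ hq
      · exact h0

end Vale.Agent.P205.TI
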