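import Vale.Agent.P205.TI.Even
import Vale.Agent.P205.TI.SwapB

/-!
P205, block TI (helper259 and the team): every compact Hausdorff smooth 2-manifold has a smooth
immersion in `ℝ⁴` with a nowhere zero smooth normal field.
-/

open scoped Manifold ContDiff Topology
open Set Module

noncomputable section

namespace Vale.Agent.P205.TI

universe u v

variable {E : Type u} [NormedAddCommGroup E] [NormedSpace ℝ E] [FiniteDimensional ℝ E]
  {M : Type v} [TopologicalSpace M] [ChartedSpace E M] [IsManifold 𝓘(ℝ, E) ∞ M]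
  [CompactSpace M] [T2Space M]

/-- TI for connected surfaces -/
theorem exists_pair_conn [ConnectedSpace M] (hE : finrank ℝ E = 2) :
    ∃ f ξ : M → V4, Imm E f ∧ Nrm E f ξ ∧ ∀ p, ξ p ≠ 0 :=
  exists_pair_conn_of (swapStmt hE) (evenStmt hE) hE

/-- **TI**: the final statement -/
theorem exists_pair (hE : finrank ℝ E = 2) :
    ∃ f ξ : M → V4, Imm E f ∧ Nrm E f ξ ∧ ∀ p, ξ p ≠ 0 :=
  exists_pair_of_conn fun _ _ _ _ _ _ _ => exists_pair_conn hE

end Vale.Agent.P205.TI
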