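import Vale.Agent.P205.TI.Defs

/-!
P205, block TI (helper259): MV2, all zeros of a nondegenerate normal field can be moved into a given
open set; the local swap lemma is a hypothesis here.
-/

open scoped Manifold ContDiff Topology
open Set Module

noncomputable section

namespace Vale.Agent.P205.TI

/-- abstract form: `P s Z` says that `Z` is the zero set of the admissible field `s` -/
theorem exists_subset_of_swap {M S : Type*} [TopologicalSpace M] [ConnectedSpace M]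
    (Z : S → Set M) (hfin : ∀ s, (Z s).Finite) [Nonempty S]
    (hsw : ∀ p : M, ∃ U : Set M, IsOpen U ∧ p ∈ U ∧ ∀ s : S, ∀ y ∈ U, y ∈ Z s →
      ∀ V ⊆ U, IsOpen V → V.Nonempty → ∃ y' ∈ V, ∃ s' : S, Z s' = insert y' (Z s \ {y}))
    {D : Set M} (hD : IsOpen D) (hne : D.Nonempty) : ∃ s : S, Z s ⊆ D := by
  classical
  by_contra hcon
  push Not at hcon
  -- the minimal number of zeros outside `D`
  let n : S → ℕ := fun s => (Z s \ D).ncard
  obtain ⟨s₀, hs₀⟩ : ∃ s₀, ∀ s, n s₀ ≤ n s := by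
    obtain ⟨s₀, hs₀⟩ := Nat.sInf_mem (Set.range_nonempty n)
    refine ⟨s₀, fun s => ?_⟩
    rw [hs₀]
    exact Nat.sInf_le ⟨s, rfl⟩
  have hpos : 0 < n s₀ := by
    rw [Set.ncard_pos ((hfin s₀).subset sdiff_subset)]
    obtain ⟨x, hx, hxD⟩ := Set.not_subset.1 (hcon s₀)
    exact ⟨x, hx, hxD⟩
  let R : Set M := {x | ∃ s, x ∈ Z s ∧ ((Z s \ {x}) \ D).ncard < n s₀}
  have hRD : ∀ x ∈ R, x ∉ D := by
    rintro x ⟨s, hx, hlt⟩ hxD
    have h1 : (Z s \ {x}) \ D = Z s \ D := by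
      ext y
      constructor
      · rintro ⟨⟨a, -⟩, b⟩
        exact ⟨a, b⟩
      · rintro ⟨a, b⟩
        refine ⟨⟨a, fun hyx => b ?_⟩, b⟩
        rw [mem_singleton_iff.1 hyx]; exact hxD
    rw [h1] at hlt
    exact absurd (hs₀ s) (not_le.2 hlt)
  have hRne : R.Nonempty := by
    obtain ⟨x, hx, hxD⟩ := Set.not_subset.1 (hcon s₀)
    refine ⟨x, s₀, hx, ?_⟩
    apply Set.ncard_lt_ncard _ ((hfin s₀).subset sdiff_subset)
    refine ⟨fun y hy => ⟨hy.1.1, hy.2⟩, fun h => ?_⟩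
    exact (h ⟨hx, hxD⟩).1.2 rfl
  have hopen : IsOpen (closure R) := by
    rw [isOpen_iff_mem_nhds]
    intro p hp
    obtain ⟨U, hU, hpU, hswU⟩ := hsw p
    obtain ⟨y, hyU, s, hys, hlt⟩ := mem_closure_iff.1 hp U hU hpU
    refine Filter.mem_of_superset (hU.mem_nhds hpU) fun q hq => ?_
    rw [mem_closure_iff]
    intro W hW hqW
    obtain ⟨y', hy', s', hs'⟩ := hswU s y hyU hys (U ∩ W) inter_subset_left (hU.inter hW)
      ⟨q, hq, hqW⟩
    refine ⟨y', hy'.2, s', by rw [hs']; exact mem_insert _ _, lt_of_le_of_lt ?_ hlt⟩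
    apply Set.ncard_le_ncard _ (((hfin s).subset sdiff_subset).subset sdiff_subset)
    rintro z ⟨⟨hz, hzy⟩, hzD⟩
    rw [hs'] at hz
    rcases hz with rfl | hz
    · exact absurd rfl hzy
    · exact ⟨hz, hzD⟩
  have huniv : closure R = univ :=
    IsClopen.eq_univ ⟨isClosed_closure, hopen⟩ hRne.closure
  obtain ⟨d, hd⟩ := hne
  obtain ⟨x, hxD, hxR⟩ := mem_closure_iff.1 (by rw [huniv]; trivial : d ∈ closure R) D hD hd
  exact hRD x hxR hxD

section Mfd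

variable {E : Type*} [NormedAddCommGroup E] [NormedSpace ℝ E]
  {M : Type*} [TopologicalSpace M] [ChartedSpace E M]

theorem exists_ndeg_in_of [ConnectedSpace M] {f : M → V4}
    (hfin : ∀ s, Nrm E f s → NDeg E s → {q | s q = 0}.Finite) (h0 : ∃ s, Nrm E f s ∧ NDeg E s)
    (hsw : ∀ p, ∃ U : Set M, IsOpen U ∧ p ∈ U ∧ ∀ s, Nrm E f s → NDeg E s →
      {q | s q = 0}.Finite → ∀ y ∈ U, s y = 0 → ∀ V ⊆ U, IsOpen V → V.Nonempty →
      ∃ y' ∈ V, ∃ s', Nrm E f s' ∧ NDeg E s' ∧ {q | s' q = 0} = insert y' ({q | s q = 0} \ {y}))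
    {D : Set M} (hD : IsOpen D) (hne : D.Nonempty) :
    ∃ s, Nrm E f s ∧ NDeg E s ∧ {q | s q = 0} ⊆ D := by
  obtain ⟨s₀, hs₀, hn₀⟩ := h0
  have : Nonempty {s : M → V4 // Nrm E f s ∧ NDeg E s} := ⟨⟨s₀, hs₀, hn₀⟩⟩
  obtain ⟨⟨s, hs, hn⟩, hsD⟩ := exists_subset_of_swap
    (S := {s : M → V4 // Nrm E f s ∧ NDeg E s}) (fun s => {q | s.1 q = 0})
    (fun s => hfin s.1 s.2.1 s.2.2) (fun p => by
      obtain ⟨U, hU, hp, h⟩ := hsw p
      refine ⟨U, hU, hp, fun s y hy hys V hV hVo hVn => ?_⟩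
      obtain ⟨y', hy', s', h1, h2, h3⟩ :=
        h s.1 s.2.1 s.2.2 (hfin s.1 s.2.1 s.2.2) y hy hys V hV hVo hVn
      exact ⟨y', hy', ⟨s', h1, h2⟩, h3⟩) hD hne
  exact ⟨s, hs, hn, hsD⟩

end Mfd

end Vale.Agent.P205.TI
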