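import Vale.Agent.P205.TI.Defs

/-!
P205, block TI, PT2: the number of zeros of a nondegenerate normal field is even.
-/

open scoped Manifold ContDiff Topology
open Set Module

noncomputable section

namespace Vale.Agent.P205.TI

section Pert

variable {E' : Type*} [NormedAddCommGroup E'] [NormedSpace ℝ E']
  {H : Type*} [TopologicalSpace H] {I : ModelWithCorners ℝ E' H}
  {N : Type*} [TopologicalSpace N] [ChartedSpace H N]
  {F : Type*} [NormedAddCommGroup F] [NormedSpace ℝ F]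

theorem hasMFDerivAt_cube {g : N → ℝ} {p : N} (hg : MDifferentiableAt I 𝓘(ℝ, ℝ) g p)
    (h0 : g p = 0) (c : F) :
    HasMFDerivAt I 𝓘(ℝ, F) (fun q => (g q) ^ 3 • c) p (0 : E' →L[ℝ] F) := by
  have h1 : HasFDerivAt (fun t : ℝ => t ^ 3 • c) (0 : ℝ →L[ℝ] F) (g p) := by
    rw [h0]
    have h2 : HasDerivAt (fun t : ℝ => t ^ 3) 0 0 := by
      have := hasDerivAt_pow 3 (0 : ℝ)
      simpa using this
    have h3 := h2.smul_const c
    have h4 := h3.hasFDerivAt
    have h5 : ContinuousLinearMap.toSpanSingleton ℝ ((0 : ℝ) • c) = (0 : ℝ →L[ℝ] F) := by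
      ext
      simp
    rw [h5] at h4
    exact h4
  have h2 := h1.hasMFDerivAt.comp p hg.hasMFDerivAt
  have h3 : ((0 : ℝ →L[ℝ] F).comp (mfderiv I 𝓘(ℝ, ℝ) g p : E' →L[ℝ] ℝ)) = 0 :=
    ContinuousLinearMap.zero_comp _
  exact h3 ▸ h2

theorem contMDiff_sum_cube {ι : Type*} (K : Finset ι) {g : ι → N → ℝ}
    (hg : ∀ k, ContMDiff I 𝓘(ℝ, ℝ) ∞ (g k)) {G0 : N → F} (hG0 : ContMDiff I 𝓘(ℝ, F) ∞ G0)
    (c : ι → F) : ContMDiff I 𝓘(ℝ, F) ∞ (fun q => G0 q + ∑ k ∈ K, (g k q) ^ 3 • c k) := by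
  refine hG0.add ?_
  classical
  induction K using Finset.induction_on with
  | empty => simpa using contMDiff_const
  | insert j K hj ih =>
    simp only [Finset.sum_insert hj]
    refine ContMDiff.add ?_ ih
    have h1 : ContDiff ℝ ∞ (fun t : ℝ => t ^ 3 • c j) := by fun_prop
    exact h1.contMDiff.comp (hg j)

/-- successive generic perturbations -/
theorem perturb_finset
    (sard : ∀ (G : N → F) (ψ : N → ℝ), ContMDiff I 𝓘(ℝ, F) ∞ G → ContMDiff I 𝓘(ℝ, ℝ) ∞ ψ →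
      ∃ c : F, ∀ p, ψ p ≠ 0 → G p + ψ p • c = 0 →
        Function.Injective (mfderiv I 𝓘(ℝ, F) (fun q => G q + ψ q • c) p))
    {ι : Type*} (K : Finset ι) {g : ι → N → ℝ}
    (hg : ∀ k, ContMDiff I 𝓘(ℝ, ℝ) ∞ (g k)) {G0 : N → F} (hG0 : ContMDiff I 𝓘(ℝ, F) ∞ G0) :
    ∃ c : ι → F, ∀ p, G0 p + ∑ k ∈ K, (g k p) ^ 3 • c k = 0 → (∃ k ∈ K, g k p ≠ 0) →
      Function.Injective
        (mfderiv I 𝓘(ℝ, F) (fun q => G0 q + ∑ k ∈ K, (g k q) ^ 3 • c k) p) := by
  classical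
  induction K using Finset.induction_on with
  | empty => exact ⟨fun _ => 0, fun p _ ⟨k, hk, _⟩ => absurd hk (Finset.notMem_empty k)⟩
  | insert j K hj ih =>
    obtain ⟨c', hc'⟩ := ih
    have hG' := contMDiff_sum_cube (I := I) K hg hG0 c'
    have hψ : ContMDiff I 𝓘(ℝ, ℝ) ∞ (fun q => (g j q) ^ 3) := by
      have h1 : ContDiff ℝ ∞ (fun t : ℝ => t ^ 3) := by fun_prop
      exact h1.contMDiff.comp (hg j)
    obtain ⟨cj, hcj⟩ := sard _ _ hG' hψ
    have hfun : (fun q => G0 q + ∑ k ∈ insert j K, (g k q) ^ 3 • (Function.update c' j cj) k) =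
        fun q => (G0 q + ∑ k ∈ K, (g k q) ^ 3 • c' k) + (g j q) ^ 3 • cj := by
      funext q
      rw [Finset.sum_insert hj, Function.update_self]
      have : ∑ k ∈ K, (g k q) ^ 3 • (Function.update c' j cj) k =
          ∑ k ∈ K, (g k q) ^ 3 • c' k := by
        refine Finset.sum_congr rfl fun k hk => ?_
        rw [Function.update_of_ne]
        rintro rfl
        exact hj hk
      rw [this]
      abel
    refine ⟨Function.update c' j cj, fun p hp hk => ?_⟩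
    rw [hfun]
    have hp' : (G0 p + ∑ k ∈ K, (g k p) ^ 3 • c' k) + (g j p) ^ 3 • cj = 0 := by
      have h1 := congrFun hfun p
      exact h1.symm.trans hp
    by_cases h0 : g j p = 0
    · have h1 : HasMFDerivAt I 𝓘(ℝ, F) (fun q => G0 q + ∑ k ∈ K, (g k q) ^ 3 • c' k) p
          (mfderiv I 𝓘(ℝ, F) (fun q => G0 q + ∑ k ∈ K, (g k q) ^ 3 • c' k) p) :=
        (hG'.mdifferentiableAt (by simp)).hasMFDerivAt
      have h2 := hasMFDerivAt_cube (I := I) ((hg j).mdifferentiableAt (x := p) (by simp)) h0 cj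
      have h3 := (h1.add h2).mfderiv
      have h4 : mfderiv I 𝓘(ℝ, F)
          (fun q => (G0 q + ∑ k ∈ K, (g k q) ^ 3 • c' k) + (g j q) ^ 3 • cj) p =
          mfderiv I 𝓘(ℝ, F) (fun q => G0 q + ∑ k ∈ K, (g k q) ^ 3 • c' k) p := by
        refine h3.trans ?_
        exact add_zero _
      rw [h4]
      refine hc' p ?_ ?_
      · rw [h0] at hp'
        simpa using hp'
      · obtain ⟨k, hk, hk0⟩ := hk
        rcases Finset.mem_insert.1 hk with rfl | hk
        · exact absurd h0 hk0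
        · exact ⟨k, hk, hk0⟩
    · exact hcj p (pow_ne_zero 3 h0) hp'

end Pert

section Nd

variable {E : Type*} [NormedAddCommGroup E] [NormedSpace ℝ E]
  {M : Type*} [TopologicalSpace M] [ChartedSpace E M] [IsManifold 𝓘(ℝ, E) ∞ M]

omit [IsManifold 𝓘(ℝ, E) ∞ M] in
theorem mfderiv_chart {W : Type*} [NormedAddCommGroup W] [NormedSpace ℝ W] {f : M → W}
    (hf : ContMDiff 𝓘(ℝ, E) 𝓘(ℝ, W) ∞ f) (z : M) :
    (mfderiv 𝓘(ℝ, E) 𝓘(ℝ, W) f z : E →L[ℝ] W) =
      fderiv ℝ (f ∘ (extChartAt 𝓘(ℝ, E) z).symm) (extChartAt 𝓘(ℝ, E) z z) := by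
  have h := (hf.mdifferentiableAt (x := z) (by simp)).mfderiv
  rw [h]
  simp only [mfld_simps, fderivWithin_univ]
  rfl

omit [IsManifold 𝓘(ℝ, E) ∞ M] in
theorem contDiffAt_chart {W : Type*} [NormedAddCommGroup W] [NormedSpace ℝ W] {f : M → W}
    (hf : ContMDiff 𝓘(ℝ, E) 𝓘(ℝ, W) ∞ f) (z : M) :
    ContDiffAt ℝ ∞ (f ∘ (extChartAt 𝓘(ℝ, E) z).symm) (extChartAt 𝓘(ℝ, E) z z) := by
  have h := (contMDiffAt_iff.1 (hf z)).2
  simp only [mfld_simps] at h
  exact h.contDiffAt Filter.univ_mem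

theorem normal_deriv {f s : M → V4} (hf : Imm E f) (hs : Nrm E f s) {z : M}
    (hz : s z = 0) {A B : E →L[ℝ] V4} (hA : A = mfderiv 𝓘(ℝ, E) 𝓘(ℝ, V4) s z)
    (hB : B = mfderiv 𝓘(ℝ, E) 𝓘(ℝ, V4) f z) (v w : E) : inner ℝ (A w) (B v) = 0 := by
  rw [hA, hB]
  have e1 := mfderiv_chart hf.sm z
  have e2 := mfderiv_chart hs.sm z
  rw [e1, e2]
  set φ := extChartAt 𝓘(ℝ, E) z with hφ
  have h1 := contDiffAt_chart hf.sm z
  have h2 := contDiffAt_chart hs.sm z
  rw [← hφ] at h1 h2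
  have h3 : HasFDerivAt (s ∘ φ.symm) (fderiv ℝ (s ∘ φ.symm) (φ z)) (φ z) :=
    (h2.differentiableAt (by simp)).hasFDerivAt
  have h4 : DifferentiableAt ℝ (fun x => fderiv ℝ (f ∘ φ.symm) x v) (φ z) := by
    have h5 : ContDiffAt ℝ 1 (fderiv ℝ (f ∘ φ.symm)) (φ z) :=
      h1.fderiv_right (m := 1) (by norm_cast)
    exact (h5.clm_apply contDiffAt_const).differentiableAt (by simp)
  have h6 := h3.inner ℝ h4.hasFDerivAt
  have h7 : (fun x => inner ℝ ((s ∘ φ.symm) x) (fderiv ℝ (f ∘ φ.symm) x v)) =ᶠ[𝓝 (φ z)]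
      fun _ => (0 : ℝ) := by
    have h8 : φ.target ∈ 𝓝 (φ z) := extChartAt_target_mem_nhds z
    filter_upwards [h8] with x hx
    have h9 : MDifferentiableAt 𝓘(ℝ, E) 𝓘(ℝ, E) φ.symm x := by
      have h10 := contMDiffOn_extChartAt_symm (I := 𝓘(ℝ, E)) (n := ∞) z
      have h11 := (h10 x hx).contMDiffAt ((isOpen_extChartAt_target z).mem_nhds hx)
      exact h11.mdifferentiableAt (by simp)
    have h10 : MDifferentiableAt 𝓘(ℝ, E) 𝓘(ℝ, V4) f (φ.symm x) :=
      hf.sm.mdifferentiableAt (by simp)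
    have h11 := mfderiv_comp x h10 h9
    rw [mfderiv_eq_fderiv] at h11
    have h12 : fderiv ℝ (f ∘ φ.symm) x v =
        (mfderiv 𝓘(ℝ, E) 𝓘(ℝ, V4) f (φ.symm x) : E →L[ℝ] V4)
          ((mfderiv 𝓘(ℝ, E) 𝓘(ℝ, E) φ.symm x : E →L[ℝ] E) v) := by
      rw [h11]
      rfl
    rw [h12]
    exact hs.perp (φ.symm x) _
  have h8 := (h6.congr_of_eventuallyEq h7.symm).unique (hasFDerivAt_const (0 : ℝ) (φ z))
  have h9 := congrArg (fun L : E →L[ℝ] ℝ => L w) h8
  have h10 : (s ∘ φ.symm) (φ z) = 0 := by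
    simp [hφ, hz]
  simp only [ContinuousLinearMap.comp_apply, fderivInnerCLM_apply,
    ContinuousLinearMap.prod_apply, h10, inner_zero_left, zero_add,
    zero_apply] at h9
  exact h9

end Nd

theorem even_card_of_invol {α : Type*} (S : Finset α) (g : α → α) (hg : ∀ a ∈ S, g a ∈ S)
    (hgg : ∀ a ∈ S, g (g a) = a) (hne : ∀ a ∈ S, g a ≠ a) : Even S.card := by
  have h1 : ∑ _x ∈ S, (1 : ZMod 2) = 0 := by
    refine Finset.sum_involution (fun a _ => g a) ?_ ?_ ?_ ?_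
    · intro a _
      decide
    · intro a ha _
      exact hne a ha
    · intro a ha
      exact hg a ha
    · intro a ha
      exact hgg a ha
  rw [Finset.sum_const, nsmul_eq_mul, mul_one] at h1
  exact ZMod.natCast_eq_zero_iff_even.1 h1

section Main

variable {E : Type*} [NormedAddCommGroup E] [NormedSpace ℝ E] [FiniteDimensional ℝ E]
  {M : Type*} [TopologicalSpace M] [ChartedSpace E M] [IsManifold 𝓘(ℝ, E) ∞ M]
  [CompactSpace M] [T2Space M]

omit [FiniteDimensional ℝ E] [CompactSpace M] [T2Space M] in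
/-- the derivative of `f x - f y - s y` at a zero of `s` is injective -/
theorem diag_injective {f s : M → V4} (hf : Imm E f) (hs : Nrm E f s) (hn : NDeg E s) {z : M}
    (hz : s z = 0) {G : M × M → V4}
    (hG : G =ᶠ[𝓝 (z, z)] fun p => f p.1 - f p.2 - s p.2) :
    Function.Injective (mfderiv (𝓘(ℝ, E).prod 𝓘(ℝ, E)) 𝓘(ℝ, V4) G (z, z)) := by
  have hf1 : HasMFDerivAt (𝓘(ℝ, E).prod 𝓘(ℝ, E)) 𝓘(ℝ, V4) (fun p : M × M => f p.1) (z, z)
      ((mfderiv 𝓘(ℝ, E) 𝓘(ℝ, V4) f z : E →L[ℝ] V4).comp (ContinuousLinearMap.fst ℝ E E)) :=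
    (hf.sm.mdifferentiableAt (x := z) (by simp)).hasMFDerivAt.comp (z, z)
      (hasMFDerivAt_fst (I := 𝓘(ℝ, E)) (I' := 𝓘(ℝ, E)) (z, z))
  have hf2 : HasMFDerivAt (𝓘(ℝ, E).prod 𝓘(ℝ, E)) 𝓘(ℝ, V4) (fun p : M × M => f p.2) (z, z)
      ((mfderiv 𝓘(ℝ, E) 𝓘(ℝ, V4) f z : E →L[ℝ] V4).comp (ContinuousLinearMap.snd ℝ E E)) :=
    (hf.sm.mdifferentiableAt (x := z) (by simp)).hasMFDerivAt.comp (z, z)
      (hasMFDerivAt_snd (I := 𝓘(ℝ, E)) (I' := 𝓘(ℝ, E)) (z, z))
  have hs2 : HasMFDerivAt (𝓘(ℝ, E).prod 𝓘(ℝ, E)) 𝓘(ℝ, V4) (fun p : M × M => s p.2) (z, z)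
      ((mfderiv 𝓘(ℝ, E) 𝓘(ℝ, V4) s z : E →L[ℝ] V4).comp (ContinuousLinearMap.snd ℝ E E)) :=
    (hs.sm.mdifferentiableAt (x := z) (by simp)).hasMFDerivAt.comp (z, z)
      (hasMFDerivAt_snd (I := 𝓘(ℝ, E)) (I' := 𝓘(ℝ, E)) (z, z))
  have h1 := (((hf1.sub hf2).sub hs2).congr_of_eventuallyEq hG).mfderiv
  have hfi := hf.inj z
  have hsi := hn z hz
  obtain ⟨A, hA⟩ : ∃ A : E →L[ℝ] V4, A = mfderiv 𝓘(ℝ, E) 𝓘(ℝ, V4) s z := ⟨_, rfl⟩
  obtain ⟨B, hB⟩ : ∃ B : E →L[ℝ] V4, B = mfderiv 𝓘(ℝ, E) 𝓘(ℝ, V4) f z := ⟨_, rfl⟩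
  have hperp := normal_deriv hf hs hz hA hB
  have hAi : Function.Injective A := by rw [hA]; exact hsi
  have hBi : Function.Injective B := by rw [hB]; exact hfi
  have h2 : (mfderiv (𝓘(ℝ, E).prod 𝓘(ℝ, E)) 𝓘(ℝ, V4) G (z, z) : E × E →L[ℝ] V4) =
      B.comp (ContinuousLinearMap.fst ℝ E E) - B.comp (ContinuousLinearMap.snd ℝ E E) -
        A.comp (ContinuousLinearMap.snd ℝ E E) := by
    rw [hA, hB]
    exact h1
  have h3 : Function.Injective (B.comp (ContinuousLinearMap.fst ℝ E E) -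
      B.comp (ContinuousLinearMap.snd ℝ E E) - A.comp (ContinuousLinearMap.snd ℝ E E)) := by
    rw [injective_iff_map_eq_zero]
    rintro ⟨v, w⟩ h
    have h4 : B v - B w - A w = 0 := h
    have h5 : B (v - w) = A w := by
      rw [map_sub]
      exact sub_eq_zero.1 h4
    have h6 : inner ℝ (B (v - w)) (B (v - w)) = 0 := by
      nth_rewrite 1 [h5]
      exact hperp (v - w) w
    have h7 : B (v - w) = 0 := inner_self_eq_zero.1 h6
    have h8 : v - w = 0 := (injective_iff_map_eq_zero B).1 hBi _ h7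
    have h9 : w = 0 := (injective_iff_map_eq_zero A).1 hAi _ (by rw [← h5, h7])
    rw [h9, sub_zero] at h8
    rw [h8, h9]
    rfl
  intro a b hab
  refine h3 ?_
  rw [← h2]
  exact hab

/-- PT2 from the list of ingredients -/
theorem even_zeros_normal_of
    (hsard : ∀ (G : M × M → V4) (ψ : M × M → ℝ),
      ContMDiff (𝓘(ℝ, E).prod 𝓘(ℝ, E)) 𝓘(ℝ, V4) ∞ G →
      ContMDiff (𝓘(ℝ, E).prod 𝓘(ℝ, E)) 𝓘(ℝ, ℝ) ∞ ψ →
      ∃ c : V4, ∀ p, ψ p ≠ 0 → G p + ψ p • c = 0 → Function.Injective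
        (mfderiv (𝓘(ℝ, E).prod 𝓘(ℝ, E)) 𝓘(ℝ, V4) (fun q => G q + ψ q • c) p))
    (hfin : ∀ (G : M × M → V4), ContMDiff (𝓘(ℝ, E).prod 𝓘(ℝ, E)) 𝓘(ℝ, V4) ∞ G →
      (∀ p, G p = 0 → Function.Injective (mfderiv (𝓘(ℝ, E).prod 𝓘(ℝ, E)) 𝓘(ℝ, V4) G p)) →
      {p | G p = 0}.Finite)
    (heven : ∀ (G : M × M → V4), ContMDiff (𝓘(ℝ, E).prod 𝓘(ℝ, E)) 𝓘(ℝ, V4) ∞ G →
      (∀ p, G p = 0 → Function.Injective (mfderiv (𝓘(ℝ, E).prod 𝓘(ℝ, E)) 𝓘(ℝ, V4) G p)) →
      Even {p | G p = 0}.ncard)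
    {f s : M → V4} (hf : Imm E f) (hs : Nrm E f s) (hn : NDeg E s)
    (hU : ∃ U : Set (M × M), IsOpen U ∧
      (∀ x, (x, x) ∈ U) ∧ ∀ x y, (x, y) ∈ U →
        (∀ v : E, inner ℝ (f x - f y) ((mfderiv 𝓘(ℝ, E) 𝓘(ℝ, V4) f y : E →L[ℝ] V4) v) = 0) →
        x = y) :
    {p | s p = 0}.Finite ∧ Even {p | s p = 0}.ncard := by
  classical
  obtain ⟨U, hUo, hUd, hU⟩ := hU
  obtain ⟨n, e, he, hec, -⟩ := exists_embedding_euclidean_of_compact (I := 𝓘(ℝ, E)) (M := M)
  -- the squared distance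
  obtain ⟨D, hD⟩ : ∃ D : M × M → ℝ, D = fun p => ‖e p.1 - e p.2‖ ^ 2 := ⟨_, rfl⟩
  have hDs : ContMDiff (𝓘(ℝ, E).prod 𝓘(ℝ, E)) 𝓘(ℝ, ℝ) ∞ D := by
    rw [hD]
    exact (contDiff_norm_sq ℝ).contMDiff.comp
      ((he.comp contMDiff_fst).sub (he.comp contMDiff_snd))
  have hDc : Continuous D := hDs.continuous
  have hD0 : ∀ x y, D (x, y) = 0 → x = y := by
    intro x y h
    rw [hD] at h
    have h1 : ‖e x - e y‖ ^ 2 = 0 := h
    have h2 : e x - e y = 0 := norm_eq_zero.1 (pow_eq_zero_iff (two_ne_zero)|>.1 h1)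
    exact hec.injective (sub_eq_zero.1 h2)
  have hDn : ∀ p, 0 ≤ D p := by
    intro p
    rw [hD]
    positivity
  have hDd : ∀ x, D (x, x) = 0 := by
    intro x
    rw [hD]
    simp
  have hDsym : ∀ x y, D (y, x) = D (x, y) := by
    intro x y
    rw [hD]
    simp only
    rw [norm_sub_rev]
  -- the size of the neighbourhood of the diagonal
  obtain ⟨ε, hε, hεU⟩ : ∃ ε : ℝ, 0 < ε ∧ ∀ p, D p ≤ ε → p ∈ U := by
    by_cases hne : (Uᶜ).Nonempty
    · obtain ⟨p0, hp0, hmin⟩ := (hUo.isClosed_compl.isCompact).exists_isMinOn hne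
        hDc.continuousOn
      have hp : 0 < D p0 := by
        refine lt_of_le_of_ne (hDn p0) fun h => hp0 ?_
        have : p0.1 = p0.2 := hD0 p0.1 p0.2 h.symm
        have h2 := hUd p0.1
        have h3 : p0 = (p0.1, p0.1) := Prod.ext rfl this.symm
        rw [h3]
        exact h2
      refine ⟨D p0 / 2, by positivity, fun p hpε => ?_⟩
      by_contra hpU
      have := hmin hpU
      have h2 : D p0 ≤ D p := this
      linarith
    · refine ⟨1, one_pos, fun p _ => ?_⟩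
      by_contra hpU
      exact hne ⟨p, hpU⟩
  -- cut off functions
  obtain ⟨th, hths, hth0, hthp⟩ : ∃ th : ℝ → ℝ, ContDiff ℝ ∞ th ∧ (∀ t, t ≤ ε → th t = 0) ∧
      ∀ t, ε < t → th t ≠ 0 := by
    refine ⟨fun t => expNegInvGlue (t - ε), ?_, ?_, ?_⟩
    · exact expNegInvGlue.contDiff.comp (contDiff_id.sub contDiff_const)
    · intro t ht
      exact expNegInvGlue.zero_of_nonpos (by linarith)
    · intro t ht
      exact (expNegInvGlue.pos_of_pos (by linarith)).ne'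
  obtain ⟨et, hets, het1, het0⟩ : ∃ et : ℝ → ℝ, ContDiff ℝ ∞ et ∧ (∀ t, t ≤ ε / 3 → et t = 1) ∧
      ∀ t, ε < t → et t = 0 := by
    refine ⟨fun t => Real.smoothTransition (2 - 3 * t / ε), ?_, ?_, ?_⟩
    · refine Real.smoothTransition.contDiff.comp ?_
      fun_prop
    · intro t ht
      refine Real.smoothTransition.one_of_one_le ?_
      have : 3 * t / ε ≤ 1 := by
        rw [div_le_one hε]
        linarith
      linarith
    · intro t ht
      refine Real.smoothTransition.zero_of_nonpos ?_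
      have : 2 ≤ 3 * t / ε := by
        rw [le_div_iff₀ hε]
        linarith
      linarith
  obtain ⟨G0, hG0⟩ : ∃ G0 : M × M → V4, G0 = fun p => f p.1 - f p.2 - et (D p) • s p.2 :=
    ⟨_, rfl⟩
  have hG0s : ContMDiff (𝓘(ℝ, E).prod 𝓘(ℝ, E)) 𝓘(ℝ, V4) ∞ G0 := by
    rw [hG0]
    refine ((hf.sm.comp contMDiff_fst).sub (hf.sm.comp contMDiff_snd)).sub ?_
    exact (hets.contMDiff.comp hDs).smul (hs.sm.comp contMDiff_snd)
  obtain ⟨g, hg⟩ : ∃ g : Fin n → M × M → ℝ, g = fun k p => th (D p) * (e p.1 k - e p.2 k) :=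
    ⟨_, rfl⟩
  have hgs : ∀ k, ContMDiff (𝓘(ℝ, E).prod 𝓘(ℝ, E)) 𝓘(ℝ, ℝ) ∞ (g k) := by
    intro k
    rw [hg]
    refine (hths.contMDiff.comp hDs).mul ?_
    have h1 : ContDiff ℝ ∞ (fun v : EuclideanSpace ℝ (Fin n) => v k) :=
      (EuclideanSpace.proj k : EuclideanSpace ℝ (Fin n) →L[ℝ] ℝ).contDiff
    exact (h1.contMDiff.comp (he.comp contMDiff_fst)).sub
      (h1.contMDiff.comp (he.comp contMDiff_snd))
  obtain ⟨c, hc⟩ := perturb_finset hsard Finset.univ hgs hG0s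
  have hGs := contMDiff_sum_cube (I := 𝓘(ℝ, E).prod 𝓘(ℝ, E)) Finset.univ hgs hG0s c
  obtain ⟨G, hG⟩ : ∃ G : M × M → V4, G = fun q => G0 q + ∑ k, (g k q) ^ 3 • c k := ⟨_, rfl⟩
  rw [← hG] at hGs hc
  -- near the diagonal
  have hnear : ∀ p, D p ≤ ε → G p = G0 p := by
    intro p hp
    rw [hG, hg]
    simp [hth0 _ hp]
  have hdiag : ∀ z, G (z, z) = - s z := by
    intro z
    rw [hnear _ (by rw [hDd]; exact hε.le), hG0]
    simp only [hDd]
    rw [het1 0 (by positivity)]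
    simp
  have hzero : ∀ x y, D (x, y) ≤ ε → G (x, y) = 0 → x = y ∧ s x = 0 := by
    intro x y hxy h0
    have h1 := h0
    rw [hnear _ hxy, hG0] at h1
    have h2 : f x - f y = et (D (x, y)) • s y := sub_eq_zero.1 h1
    have h3 : x = y := by
      refine hU x y (hεU _ hxy) fun v => ?_
      have key : ∀ w : V4, inner ℝ (s y) w = 0 → inner ℝ (f x - f y) w = 0 := by
        intro w hw
        rw [h2, inner_smul_left, hw, mul_zero]
      exact key _ (hs.perp y v)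
    refine ⟨h3, ?_⟩
    subst h3
    rw [hdiag] at h0
    exact neg_eq_zero.1 h0
  have hanti : ∀ x y, ε < D (x, y) → G (y, x) = - G (x, y) := by
    intro x y hxy
    have hyx : ε < D (y, x) := by rw [hDsym]; exact hxy
    rw [hG]
    simp only
    have h1 : G0 (y, x) = - G0 (x, y) := by
      rw [hG0]
      simp only [het0 _ hxy, het0 _ hyx, zero_smul]
      abel
    have h2 : ∀ k, g k (y, x) = - g k (x, y) := by
      intro k
      rw [hg]
      simp only [hDsym x y]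
      ring
    rw [h1, neg_add, ← Finset.sum_neg_distrib]
    congr 1
    refine Finset.sum_congr rfl fun k _ => ?_
    rw [h2 k, ← neg_smul]
    congr 1
    ring
  -- all zeros are nondegenerate
  have hnd : ∀ p, G p = 0 →
      Function.Injective (mfderiv (𝓘(ℝ, E).prod 𝓘(ℝ, E)) 𝓘(ℝ, V4) G p) := by
    rintro ⟨x, y⟩ h0
    by_cases hxy : D (x, y) ≤ ε
    · obtain ⟨h1, h2⟩ := hzero x y hxy h0
      subst h1
      refine diag_injective hf hs hn h2 ?_
      have h3 : ∀ᶠ p in 𝓝 (x, x), D p < ε / 3 := by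
        refine hDc.continuousAt.eventually_lt continuousAt_const ?_
        rw [hDd]
        positivity
      filter_upwards [h3] with p hp
      rw [hnear p (by linarith), hG0]
      simp only
      rw [het1 _ hp.le, one_smul]
    · push Not at hxy
      have h1 := hc (x, y) (by rw [hG] at h0; exact h0)
      refine h1 ?_
      by_contra hcon
      push Not at hcon
      have h2 : e x = e y := by
        ext k
        have h3 := hcon k (Finset.mem_univ k)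
        rw [hg] at h3
        have h4 : th (D (x, y)) * (e x k - e y k) = 0 := h3
        have h5 := (mul_eq_zero.1 h4).resolve_left (hthp _ hxy)
        exact sub_eq_zero.1 h5
      have h3 : x = y := hec.injective h2
      subst h3
      rw [hDd] at hxy
      linarith
  have hZ := hfin G hGs hnd
  have hev := heven G hGs hnd
  -- the two kinds of zeros
  have hZ0 : {p | s p = 0}.Finite := by
    refine Set.Finite.of_injOn (f := fun z => (z, z)) (t := {p | G p = 0}) ?_ ?_ hZ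
    · intro z hz
      have hz' : s z = 0 := hz
      show G (z, z) = 0
      rw [hdiag, hz', neg_zero]
    · intro a _ b _ hab
      exact (Prod.mk.inj hab).1
  refine ⟨hZ0, ?_⟩
  set Z := hZ.toFinset with hZdef
  set S := hZ0.toFinset with hSdef
  have hcard : {p | G p = 0}.ncard = Z.card := Set.ncard_eq_toFinset_card _ hZ
  have hcard0 : {p | s p = 0}.ncard = S.card := Set.ncard_eq_toFinset_card _ hZ0
  have hmemZ : ∀ p, p ∈ Z ↔ G p = 0 := by
    intro p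
    rw [hZdef, Set.Finite.mem_toFinset]
    rfl
  have hmemS : ∀ p, p ∈ S ↔ s p = 0 := by
    intro p
    rw [hSdef, Set.Finite.mem_toFinset]
    rfl
  have h1 : (Z.filter (fun p => D p ≤ ε)) = S.image (fun z => (z, z)) := by
    ext ⟨x, y⟩
    rw [Finset.mem_filter, hmemZ, Finset.mem_image]
    constructor
    · rintro ⟨h0, hd⟩
      obtain ⟨h2, h3⟩ := hzero x y hd h0
      exact ⟨x, (hmemS x).2 h3, by rw [← h2]⟩
    · rintro ⟨z, hz, hzz⟩
      have h2 := (hmemS z).1 hz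
      rw [← hzz]
      refine ⟨by rw [hdiag, h2, neg_zero], ?_⟩
      rw [hDd]
      exact hε.le
  have h2 : (Z.filter (fun p => D p ≤ ε)).card = S.card := by
    rw [h1]
    refine Finset.card_image_of_injective _ ?_
    intro a b hab
    exact (Prod.mk.inj hab).1
  have h3 : Even (Z.filter (fun p => ¬ D p ≤ ε)).card := by
    refine even_card_of_invol _ Prod.swap ?_ ?_ ?_
    · rintro ⟨x, y⟩ h
      rw [Finset.mem_filter, hmemZ] at h ⊢
      obtain ⟨h4, h5⟩ := h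
      push Not at h5
      refine ⟨?_, ?_⟩
      · show G (y, x) = 0
        rw [hanti x y h5, h4, neg_zero]
      · push Not
        show ε < D (y, x)
        rw [hDsym]
        exact h5
    · rintro ⟨x, y⟩ _
      rfl
    · rintro ⟨x, y⟩ h
      rw [Finset.mem_filter] at h
      intro h4
      have h5 : y = x := (Prod.mk.inj h4).1
      apply h.2
      rw [h5, hDd]
      exact hε.le
  have h4 := Finset.card_filter_add_card_filter_not (s := Z) (fun p => D p ≤ ε)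
  rw [hcard, ← h4, h2] at hev
  rw [hcard0]
  exact (Nat.even_add.1 hev).2 h3

end Main

end Vale.Agent.P205.TI
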