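import Vale.Agent.P205.TI.PT1
import Vale.Agent.P205.TI.PT2
import Vale.Agent.P205.TI.EZ2

/-!
P205, block TI, PT2: the number of zeros of a nondegenerate normal field is even
(only `even_zeros` (EZ4) for the product is still a hypothesis here).
-/

open scoped Manifold ContDiff Topology
open Set Module

noncomputable section

namespace Vale.Agent.P205.TI

variable {E : Type*} [NormedAddCommGroup E] [NormedSpace ℝ E] [FiniteDimensional ℝ E]
  {M : Type*} [TopologicalSpace M] [ChartedSpace E M] [IsManifold 𝓘(ℝ, E) ∞ M]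
  [CompactSpace M] [T2Space M]

theorem even_zeros_normal_of_even
    (heven : ∀ (G : M × M → V4), ContMDiff (𝓘(ℝ, E).prod 𝓘(ℝ, E)) 𝓘(ℝ, V4) ∞ G →
      (∀ p, G p = 0 → Function.Injective (mfderiv (𝓘(ℝ, E).prod 𝓘(ℝ, E)) 𝓘(ℝ, V4) G p)) →
      Even {p | G p = 0}.ncard)
    (hE : finrank ℝ E = 2) {f s : M → V4} (hf : Imm E f)
    (hs : Nrm E f s) (hn : NDeg E s) : {p | s p = 0}.Finite ∧ Even {p | s p = 0}.ncard := by
  have hdim : finrank ℝ (E × E) = finrank ℝ V4 := by
    rw [Module.finrank_prod, hE]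
    simp
  refine even_zeros_normal_of ?_ ?_ heven hf hs hn (near_diag hf)
  · intro G ψ hG hψ
    exact (sard_mfd (𝓘(ℝ, E).prod 𝓘(ℝ, E)) (MeasureTheory.volume : MeasureTheory.Measure V4) hdim
      hG hψ).exists
  · intro G hG h0
    exact finite_zeros (𝓘(ℝ, E).prod 𝓘(ℝ, E)) hG h0

end Vale.Agent.P205.TI
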