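import Vale.Agent.P205.TI.Proj

/-!
A normal field with nondegenerate zeros (P205, block TI, step S).
-/

set_option linter.all false

open MeasureTheory Set Filter Module
open scoped Topology ContDiff Manifold RealInnerProductSpace

noncomputable section

namespace Vale.Agent.P205.TI

/-- equal dimensional Sard: almost every value is regular -/
theorem ae_regular {E' F : Type*} [NormedAddCommGroup E'] [NormedSpace ℝ E']
    [FiniteDimensional ℝ E'] [NormedAddCommGroup F] [NormedSpace ℝ F] [FiniteDimensional ℝ F]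
    [MeasurableSpace F] [BorelSpace F] (μ : Measure F) [μ.IsAddHaarMeasure]
    (hdim : finrank ℝ E' = finrank ℝ F) {O : Set E'} (hO : IsOpen O) {H : E' → F}
    (hH : ContDiffOn ℝ 1 H O) :
    ∀ᵐ c ∂μ, ∀ x ∈ O, H x = c → Function.Injective (fderiv ℝ H x) := by
  set T : F ≃L[ℝ] E' := ContinuousLinearEquiv.ofFinrankEq hdim.symm with hT
  set h : F → F := fun z => H (T z) with hh
  set s0 : Set F := {z | T z ∈ O ∧ (fderiv ℝ h z).det = 0} with hs0
  have hdiff : ∀ x ∈ O, DifferentiableAt ℝ H x := fun x hx =>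
    (hH.contDiffAt (hO.mem_nhds hx)).differentiableAt one_ne_zero
  have hd : ∀ z, T z ∈ O → HasFDerivAt h ((fderiv ℝ H (T z)).comp (T : F →L[ℝ] E')) z := by
    intro z hz
    exact (hdiff _ hz).hasFDerivAt.comp z T.hasFDerivAt
  have hnull : μ (h '' s0) = 0 := by
    refine addHaar_image_eq_zero_of_det_fderivWithin_eq_zero μ (f' := fun z => fderiv ℝ h z) ?_ ?_
    · intro z hz
      exact (hd z hz.1).differentiableAt.hasFDerivAt.hasFDerivWithinAt
    · intro z hz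
      exact hz.2
  have h2 : ∀ᵐ B ∂μ, B ∉ h '' s0 := measure_eq_zero_iff_ae_notMem.1 hnull
  filter_upwards [h2] with c hc x hx hxc
  set z := T.symm x with hz
  have hTz : T z = x := T.apply_symm_apply x
  have hdet : (fderiv ℝ h z).det ≠ 0 := by
    intro h0
    exact hc ⟨z, ⟨by rw [hTz]; exact hx, h0⟩, by simp only [hh]; rw [hTz]; exact hxc⟩
  have e1 : fderiv ℝ h z = (fderiv ℝ H x).comp (T : F →L[ℝ] E') := by
    have := (hd z (by rw [hTz]; exact hx)).fderiv
    rw [hTz] at this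
    exact this
  have hinj : Function.Injective (fderiv ℝ h z) := by
    have := (fderiv ℝ h z).toContinuousLinearEquivOfDetNeZero hdet
    have e2 : ∀ v, (fderiv ℝ h z).toContinuousLinearEquivOfDetNeZero hdet v = fderiv ℝ h z v :=
      fun v => rfl
    intro v w hvw
    rw [← e2 v, ← e2 w] at hvw
    exact ((fderiv ℝ h z).toContinuousLinearEquivOfDetNeZero hdet).injective hvw
  intro v w hvw
  have h3 : fderiv ℝ h z (T.symm v) = fderiv ℝ h z (T.symm w) := by
    rw [e1]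
    simpa using hvw
  exact T.symm.injective (hinj h3)

variable {E : Type*} [NormedAddCommGroup E] [NormedSpace ℝ E] [FiniteDimensional ℝ E]
  {M : Type*} [TopologicalSpace M] [ChartedSpace E M] [IsManifold 𝓘(ℝ, E) ∞ M]

/-- local statement: constant vector `c`, all `(y, u)` with `Dg(y) u = c` regular; then the
normal part of `c` has nondegenerate zeros -/
theorem ndeg_local (bs : Basis (Fin 2) ℝ E) {V : Set E} (hV : IsOpen V) {g : E → V4}
    (hg : ContDiffOn ℝ ∞ g V) (hgi : ∀ y ∈ V, Function.Injective (fderiv ℝ g y)) (c : V4)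
    (hc : ∀ z ∈ V ×ˢ (univ : Set E), fderiv ℝ g z.1 z.2 = c →
      Function.Injective (fderiv ℝ (fun z : E × E => fderiv ℝ g z.1 z.2) z))
    {y : E} (hy : y ∈ V)
    (h0 : c - (cA (fderiv ℝ g y (bs 0)) (fderiv ℝ g y (bs 1)) c • fderiv ℝ g y (bs 0) +
      cB (fderiv ℝ g y (bs 0)) (fderiv ℝ g y (bs 1)) c • fderiv ℝ g y (bs 1)) = 0) :
    Function.Injective (fderiv ℝ (fun y => c -
      (cA (fderiv ℝ g y (bs 0)) (fderiv ℝ g y (bs 1)) c • fderiv ℝ g y (bs 0) +
      cB (fderiv ℝ g y (bs 0)) (fderiv ℝ g y (bs 1)) c • fderiv ℝ g y (bs 1))) y) := by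
  set α : E → ℝ := fun y => cA (fderiv ℝ g y (bs 0)) (fderiv ℝ g y (bs 1)) c with hα
  set β : E → ℝ := fun y => cB (fderiv ℝ g y (bs 0)) (fderiv ℝ g y (bs 1)) c with hβ
  have hgy : ContDiffAt ℝ ∞ g y := hg.contDiffAt (hV.mem_nhds hy)
  have hD : ContDiffAt ℝ ∞ (fderiv ℝ g) y := hgy.fderiv_right (m := ∞) (by norm_cast)
  have ha : ∀ e, ContDiffAt ℝ ∞ (fun y => fderiv ℝ g y e) y := fun e =>
    hD.clm_apply contDiffAt_const
  have hgd : gd (fderiv ℝ g y (bs 0)) (fderiv ℝ g y (bs 1)) ≠ 0 := gd_basis bs (hgi y hy)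
  have hcc : ContDiffAt ℝ ∞ (fun _ : E => c) y := contDiffAt_const
  have hG : ContDiffAt ℝ ∞ (fun y => gd (fderiv ℝ g y (bs 0)) (fderiv ℝ g y (bs 1))) y :=
    (((ha (bs 0)).inner ℝ (ha (bs 0))).mul ((ha (bs 1)).inner ℝ (ha (bs 1)))).sub
      (((ha (bs 0)).inner ℝ (ha (bs 1))).mul ((ha (bs 0)).inner ℝ (ha (bs 1))))
  have hαc : ContDiffAt ℝ ∞ α y :=
    ((((ha (bs 1)).inner ℝ (ha (bs 1))).mul ((ha (bs 0)).inner ℝ hcc)).sub
      (((ha (bs 0)).inner ℝ (ha (bs 1))).mul ((ha (bs 1)).inner ℝ hcc))).div hG hgd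
  have hβc : ContDiffAt ℝ ∞ β y :=
    ((((ha (bs 0)).inner ℝ (ha (bs 0))).mul ((ha (bs 1)).inner ℝ hcc)).sub
      (((ha (bs 0)).inner ℝ (ha (bs 1))).mul ((ha (bs 0)).inner ℝ hcc))).div hG hgd
  -- the section `u y = α y e₁ + β y e₂`
  set u : E → E := fun y => α y • bs 0 + β y • bs 1 with hu
  have huc : ContDiffAt ℝ ∞ u y := (hαc.smul contDiffAt_const).add (hβc.smul contDiffAt_const)
  have hform : (fun y => c - (α y • fderiv ℝ g y (bs 0) + β y • fderiv ℝ g y (bs 1))) =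
      fun y => c - fderiv ℝ g y (u y) := by
    funext y
    simp [hu]
  set H : E × E → V4 := fun z => fderiv ℝ g z.1 z.2 with hH
  have hHd : DifferentiableAt ℝ H (y, u y) := by
    have h1 : ContDiffAt ℝ ∞ H (y, u y) :=
      (ContDiffAt.comp (y, u y) (g := fderiv ℝ g) hD contDiffAt_fst).clm_apply contDiffAt_snd
    exact h1.differentiableAt (by simp)
  have hHc : H (y, u y) = c := by
    have h1 : c - (α y • fderiv ℝ g y (bs 0) + β y • fderiv ℝ g y (bs 1)) =
        c - fderiv ℝ g y (u y) := congrFun hform y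
    have h2 : c - fderiv ℝ g y (u y) = 0 := h1.symm.trans h0
    exact (sub_eq_zero.1 h2).symm
  have hHinj := hc (y, u y) ⟨hy, mem_univ _⟩ hHc
  have hpair : HasFDerivAt (fun y => (y, u y))
      ((ContinuousLinearMap.id ℝ E).prod (fderiv ℝ u y)) y :=
    (hasFDerivAt_id y).prodMk (huc.differentiableAt (by simp)).hasFDerivAt
  have hcomp : HasFDerivAt (fun y => c - H (y, u y))
      (-(fderiv ℝ H (y, u y)).comp ((ContinuousLinearMap.id ℝ E).prod (fderiv ℝ u y))) y :=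
    (HasFDerivAt.comp (g := H) y hHd.hasFDerivAt hpair).const_sub c
  show Function.Injective (fderiv ℝ (fun y => c - (α y • fderiv ℝ g y (bs 0)
    + β y • fderiv ℝ g y (bs 1))) y)
  rw [hform]
  have e : fderiv ℝ (fun y => c - fderiv ℝ g y (u y)) y =
    -(fderiv ℝ H (y, u y)).comp ((ContinuousLinearMap.id ℝ E).prod (fderiv ℝ u y)) := hcomp.fderiv
  rw [e]
  intro v w hvw
  simp only [ContinuousLinearMap.neg_apply, ContinuousLinearMap.comp_apply,
    ContinuousLinearMap.prod_apply, ContinuousLinearMap.id_apply, neg_inj] at hvw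
  exact (Prod.ext_iff.1 (hHinj hvw)).1

variable [CompactSpace M]

/-- S: a nondegenerate normal field exists -/
theorem exists_ndeg (hE : finrank ℝ E = 2) {f : M → V4} (hf : Imm E f) :
    ∃ s, Nrm E f s ∧ NDeg E s := by
  set bs : Basis (Fin 2) ℝ E := finBasisOfFinrankEq ℝ E hE
  obtain ⟨t, ht⟩ := (isCompact_univ (X := M)).elim_nhds_subcover
    (fun x => (chartAt E x).source) (fun x _ => chart_source_mem_nhds E x)
  set μ : Measure V4 := volume
  have hdim : finrank ℝ (E × E) = finrank ℝ V4 := by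
    rw [Module.finrank_prod, hE, finrank_euclideanSpace, Fintype.card_fin]
  have hgs : ∀ x0 : M, ContDiffOn ℝ ∞ (f ∘ (extChartAt 𝓘(ℝ, E) x0).symm)
      (extChartAt 𝓘(ℝ, E) x0).target := by
    intro x0
    have h1 : ContMDiffOn 𝓘(ℝ, E) 𝓘(ℝ, V4) ∞
        (f ∘ (extChartAt 𝓘(ℝ, E) x0).symm) (extChartAt 𝓘(ℝ, E) x0).target :=
      hf.sm.comp_contMDiffOn (contMDiffOn_extChartAt_symm x0)
    exact contMDiffOn_iff_contDiffOn.1 h1
  have hA : ∀ᵐ c ∂μ, ∀ x0 ∈ (t : Set M), ∀ z ∈ (extChartAt 𝓘(ℝ, E) x0).target ×ˢ (univ : Set E),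
      fderiv ℝ (f ∘ (extChartAt 𝓘(ℝ, E) x0).symm) z.1 z.2 = c → Function.Injective
        (fderiv ℝ (fun z : E × E => fderiv ℝ (f ∘ (extChartAt 𝓘(ℝ, E) x0).symm) z.1 z.2) z) := by
    rw [ae_ball_iff t.countable_toSet]
    intro x0 hx0
    refine ae_regular μ hdim ((isOpen_extChartAt_target (I := 𝓘(ℝ, E)) x0).prod isOpen_univ) ?_
    intro z hz
    have h1 : ContDiffAt ℝ 1 (fderiv ℝ (f ∘ (extChartAt 𝓘(ℝ, E) x0).symm)) z.1 :=
      ((hgs x0).contDiffAt ((isOpen_extChartAt_target x0).mem_nhds hz.1)).fderiv_right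
        (m := 1) (by norm_cast)
    exact ((ContDiffAt.comp z (g := fderiv ℝ (f ∘ (extChartAt 𝓘(ℝ, E) x0).symm)) h1
      contDiffAt_fst).clm_apply contDiffAt_snd).contDiffWithinAt
  obtain ⟨c, hc⟩ := hA.exists
  refine ⟨fun q => Pn E f q c, ⟨fun x => contMDiff_Pn hE hf contMDiffAt_const,
    fun p v => Pn_perp f p c v⟩, ?_⟩
  intro p hp
  obtain ⟨x0, hx0, hxs⟩ := mem_iUnion₂.1 (ht.2 (mem_univ p))
  have hx' : p ∈ (extChartAt 𝓘(ℝ, E) x0).source := by rwa [extChartAt_source]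
  have hy : extChartAt 𝓘(ℝ, E) x0 p ∈ (extChartAt 𝓘(ℝ, E) x0).target :=
    (extChartAt 𝓘(ℝ, E) x0).map_source hx'
  have hinv : (mfderiv 𝓘(ℝ, E) 𝓘(ℝ, E) (extChartAt 𝓘(ℝ, E) x0) p).IsInvertible :=
    isInvertible_mfderiv_extChartAt hx'
  set g := f ∘ (extChartAt 𝓘(ℝ, E) x0).symm with hg
  set φ := extChartAt 𝓘(ℝ, E) x0 with hφ
  set loc : E → V4 := fun y => c -
      (cA (fderiv ℝ g y (bs 0)) (fderiv ℝ g y (bs 1)) c • fderiv ℝ g y (bs 0) +
      cB (fderiv ℝ g y (bs 0)) (fderiv ℝ g y (bs 1)) c • fderiv ℝ g y (bs 1)) with hloc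
  have hgi : ∀ y ∈ φ.target, Function.Injective (fderiv ℝ g y) := by
    intro y hy
    have h1 : φ.symm y ∈ φ.source := φ.map_target hy
    have h2 : φ.symm y ∈ (chartAt E x0).source := by rwa [hφ, extChartAt_source] at h1
    have h3 := inj_chart hf x0 (φ.symm y) h2
    rwa [← hφ, φ.right_inv hy] at h3
  have hsm : ContMDiff 𝓘(ℝ, E) 𝓘(ℝ, V4) ∞ (fun q => Pn E f q c) :=
    fun x => contMDiff_Pn hE hf contMDiffAt_const
  have heq : ∀ᶠ q in 𝓝 p, Pn E f q c = loc (φ q) := by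
    filter_upwards [(chartAt E x0).open_source.mem_nhds hxs] with q hq
    exact Pn_formula bs hf x0 q hq c
  have hl0 : loc (φ p) = 0 := by
    rw [← heq.self_of_nhds]; exact hp
  have hinj := ndeg_local bs (isOpen_extChartAt_target (I := 𝓘(ℝ, E)) x0) (hgs x0) hgi c
    (hc x0 hx0) hy hl0
  -- `loc` agrees with the local representative
  have hrep : ((fun q => Pn E f q c) ∘ φ.symm) =ᶠ[𝓝 (φ p)] loc := by
    filter_upwards [(isOpen_extChartAt_target (I := 𝓘(ℝ, E)) x0).mem_nhds hy] with y hy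
    have h1 : φ.symm y ∈ φ.source := φ.map_target hy
    have h2 : φ.symm y ∈ (chartAt E x0).source := by rwa [hφ, extChartAt_source] at h1
    have h3 := Pn_formula bs hf x0 (φ.symm y) h2 c
    rw [← hφ, φ.right_inv hy] at h3
    exact h3
  intro v w hvw
  have e1 := mfderiv_eq_chart hsm x0 p hxs v
  have e2 := mfderiv_eq_chart hsm x0 p hxs w
  rw [← hφ, hrep.fderiv_eq] at e1 e2
  have h3 := hinj (e1.symm.trans (hvw.trans e2))
  exact hinv.injective h3

end Vale.Agent.P205.TI
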