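import Vale.Agent.P205.TI.Asm
import Vale.Agent.P205.TI.Disc
import Vale.Agent.P205.TI.DL5
import Vale.Agent.P205.TI.Kink
import Vale.Agent.P205.TI.GC
import Vale.Agent.P205.TI.Imm
import Vale.Agent.P205.TI.Sreg
import Vale.Agent.P205.TI.Move
import Vale.Agent.P205.TI.PT2b

/-!
P205, block TI (helper259): every compact T2 smooth 2-manifold has a smooth immersion in `ℝ⁴` with
a nowhere zero smooth normal field.  Assembly; the evenness of the number of zeros on the product
and the local swap lemma are hypotheses here.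
-/

open scoped Manifold ContDiff Topology
open Set Module

noncomputable section

namespace Vale.Agent.P205.TI

/-- the disc lemma -/
theorem discStmt : DiscStmt := fun _ _ hF hσ hz hn he =>
  disc_of hF (sigma_final hσ hz hn he) kink'

/-- the statement of the local swap lemma -/
def SwapStmt (E : Type*) [NormedAddCommGroup E] [NormedSpace ℝ E]
    (M : Type*) [TopologicalSpace M] [ChartedSpace E M] : Prop :=
  ∀ f : M → V4, Imm E f → ∀ p : M,
    ∃ U : Set M, IsOpen U ∧ p ∈ U ∧ ∀ s, Nrm E f s → NDeg E s → {q | s q = 0}.Finite →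
      ∀ y ∈ U, s y = 0 → ∀ V ⊆ U, IsOpen V → V.Nonempty → ∃ y' ∈ V, ∃ s', Nrm E f s' ∧
        NDeg E s' ∧ {q | s' q = 0} = insert y' ({q | s q = 0} \ {y})

/-- the statement of the evenness of the number of zeros on `M × M` -/
def EvenStmt (E : Type*) [NormedAddCommGroup E] [NormedSpace ℝ E]
    (M : Type*) [TopologicalSpace M] [ChartedSpace E M] : Prop :=
  ∀ (G : M × M → V4), ContMDiff (𝓘(ℝ, E).prod 𝓘(ℝ, E)) 𝓘(ℝ, V4) ∞ G →
      (∀ p, G p = 0 → Function.Injective (mfderiv (𝓘(ℝ, E).prod 𝓘(ℝ, E)) 𝓘(ℝ, V4) G p)) →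
      Even {p | G p = 0}.ncard

section Surf

variable {E : Type*} [NormedAddCommGroup E] [NormedSpace ℝ E] [FiniteDimensional ℝ E]
  {M : Type*} [TopologicalSpace M] [ChartedSpace E M] [IsManifold 𝓘(ℝ, E) ∞ M]
  [CompactSpace M] [T2Space M]

theorem exists_pair_conn_of (hsw : SwapStmt E M) (hev : EvenStmt E M)
    [ConnectedSpace M] (hE : finrank ℝ E = 2) :
    ∃ f ξ : M → V4, Imm E f ∧ Nrm E f ξ ∧ ∀ p, ξ p ≠ 0 := by
  obtain ⟨f, hf⟩ := exists_imm (E := E) (M := M) hE
  obtain ⟨p⟩ : Nonempty M := inferInstance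
  obtain ⟨κ, L, F, r, hr, hp, hp0, hcb, hκ, hκs, hF, hL, hgr⟩ := graph_chart hE hf p
  have hD : IsOpen (κ.source ∩ κ ⁻¹' Metric.ball 0 (1 / 2)) :=
    κ.isOpen_inter_preimage Metric.isOpen_ball
  have hne : (κ.source ∩ κ ⁻¹' Metric.ball 0 (1 / 2)).Nonempty :=
    ⟨p, hp, by simp [hp0]⟩
  obtain ⟨s, hs, hn, hsub⟩ := exists_ndeg_in_of
    (fun s hs hn => (even_zeros_normal_of_even hev hE hf hs hn).1)
    (exists_ndeg hE hf) (hsw f hf) hD hne
  have hev := (even_zeros_normal_of_even hev hE hf hs hn).2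
  refine pair_of_graph hf hs hn hev hr hcb hκ hκs hF hL hgr (fun q hq => ?_) discStmt
  have h1 := hsub hq
  exact ⟨h1.1, by simpa using h1.2⟩

end Surf

end Vale.Agent.P205.TI
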