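import Vale.Agent.P205.TI.PT2b
import Vale.Agent.P205.TI.EZ4

/-!
P205, block TI, PT: the number of zeros of a nondegenerate normal field is even.
-/

open scoped Manifold ContDiff Topology
open Set Module

noncomputable section

namespace Vale.Agent.P205.TI

variable {E : Type*} [NormedAddCommGroup E] [NormedSpace ℝ E] [FiniteDimensional ℝ E]
  {M : Type*} [TopologicalSpace M] [ChartedSpace E M] [IsManifold 𝓘(ℝ, E) ∞ M]
  [CompactSpace M] [T2Space M]

/-- PT: the number of zeros of a nondegenerate normal field is even -/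
theorem even_zeros_normal (hE : finrank ℝ E = 2) {f s : M → V4} (hf : Imm E f)
    (hs : Nrm E f s) (hn : NDeg E s) : {p | s p = 0}.Finite ∧ Even {p | s p = 0}.ncard := by
  have hdim : finrank ℝ (E × E) = finrank ℝ V4 := by
    rw [Module.finrank_prod, hE]
    simp
  exact even_zeros_normal_of_even (fun G hG h0 =>
    even_zeros (𝓘(ℝ, E).prod 𝓘(ℝ, E)) hdim (by simp) hG h0) hE hf hs hn

end Vale.Agent.P205.TI
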