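import Vale.Agent.P205.TI.Defs

/-!
P205, block TI, PT1: near the diagonal `f x - f y` is normal at `y` only for `x = y`.
-/

open scoped Manifold ContDiff Topology
open Set Module

noncomputable section

namespace Vale.Agent.P205.TI

/-- the estimate -/
theorem near_diag_est {F : Type*} [NormedAddCommGroup F] [InnerProductSpace ℝ F] {a d b : F}
    {c n : ℝ} (hc : 0 < c) (hn : 0 ≤ n) (h1 : ‖d - a‖ ≤ c / 4 * n) (h2 : ‖b - a‖ ≤ c / 4 * n)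
    (h3 : inner ℝ d b = 0) (h4 : c * n ≤ ‖a‖) : n = 0 := by
  have e5 : ‖a‖ ^ 2 = inner ℝ (a - d) a + inner ℝ d (a - b) + inner ℝ d b := by
    rw [← real_inner_self_eq_norm_sq, inner_sub_left, inner_sub_right]; ring
  rw [h3, add_zero] at e5
  have e6 : inner ℝ (a - d) a ≤ c / 4 * n * ‖a‖ := by
    refine (real_inner_le_norm _ _).trans ?_
    gcongr
    rw [norm_sub_rev]; exact h1
  have e7 : ‖d‖ ≤ ‖a‖ + c / 4 * n := by
    calc ‖d‖ = ‖a + (d - a)‖ := by congr 1; abel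
      _ ≤ ‖a‖ + ‖d - a‖ := norm_add_le _ _
      _ ≤ _ := by gcongr
  have e8 : inner ℝ d (a - b) ≤ (‖a‖ + c / 4 * n) * (c / 4 * n) := by
    refine (real_inner_le_norm _ _).trans ?_
    gcongr
    rw [norm_sub_rev]; exact h2
  have e10 : ‖a‖ = 0 := by
    by_contra hne
    have hpos : 0 < ‖a‖ := lt_of_le_of_ne (norm_nonneg _) (Ne.symm hne)
    have hcv : 0 ≤ c * n := by positivity
    nlinarith
  have : c * n ≤ 0 := by rw [← e10]; exact h4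
  nlinarith

theorem near_diag_lower {E F : Type*} [NormedAddCommGroup E] [NormedSpace ℝ E]
    [FiniteDimensional ℝ E] [NormedAddCommGroup F] [NormedSpace ℝ F] (A : E →L[ℝ] F)
    (hinj : Function.Injective A) : ∃ c : ℝ, 0 < c ∧ ∀ v, c * ‖v‖ ≤ ‖A v‖ := by
  obtain ⟨K, hK, hKA⟩ := (A : E →ₗ[ℝ] F).exists_antilipschitzWith
    (LinearMap.ker_eq_bot.2 hinj)
  refine ⟨(K : ℝ)⁻¹, by positivity, fun v => ?_⟩
  have h := hKA.le_mul_dist v 0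
  rw [dist_zero_right, map_zero, dist_zero_right] at h
  rw [inv_mul_le_iff₀ (by positivity)]
  exact h

/-- the vector space computation -/
theorem near_diag_vec {E F : Type*} [NormedAddCommGroup E] [NormedSpace ℝ E]
    [FiniteDimensional ℝ E] [NormedAddCommGroup F] [InnerProductSpace ℝ F]
    {g : E → F} {a : E} {O : Set E} (hO : IsOpen O) (ha : a ∈ O)
    (hg : ContDiffOn ℝ ∞ g O) (hinj : Function.Injective (fderiv ℝ g a)) :
    ∃ W : Set E, IsOpen W ∧ a ∈ W ∧ W ⊆ O ∧ ∀ x ∈ W, ∀ y ∈ W,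
      (∀ v : E, inner ℝ (g x - g y) (fderiv ℝ g y v) = 0) → x = y := by
  have hga : ContDiffAt ℝ ∞ g a := hg.contDiffAt (hO.mem_nhds ha)
  obtain ⟨c, hc, hAc⟩ := near_diag_lower (fderiv ℝ g a) hinj
  have hstrict : HasStrictFDerivAt g (fderiv ℝ g a) a :=
    hga.hasStrictFDerivAt (by simp)
  have h1 : ∀ᶠ q : E × E in 𝓝 (a, a),
      ‖g q.1 - g q.2 - fderiv ℝ g a (q.1 - q.2)‖ ≤ c / 4 * ‖q.1 - q.2‖ :=
    hstrict.isLittleO.def (by positivity)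
  have h2 : ∀ᶠ y in 𝓝 a, ‖fderiv ℝ g y - fderiv ℝ g a‖ ≤ c / 4 := by
    have hcont : ContinuousAt (fderiv ℝ g) a := (hga.fderiv_right (m := 0) (by simp)).continuousAt
    have := (Metric.continuousAt_iff'.1 hcont) (c / 4) (by positivity)
    filter_upwards [this] with y hy
    rw [dist_eq_norm] at hy
    exact hy.le
  obtain ⟨S, S', hS, haS, hS', haS', hSS⟩ := mem_nhds_prod_iff'.1 h1
  obtain ⟨T, hTT, hT, haT⟩ := mem_nhds_iff.1 h2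
  refine ⟨S ∩ S' ∩ T ∩ O, ((hS.inter hS').inter hT).inter hO, ⟨⟨⟨haS, haS'⟩, haT⟩, ha⟩,
    inter_subset_right, ?_⟩
  rintro x ⟨⟨⟨hxS, _⟩, _⟩, _⟩ y ⟨⟨⟨_, hyS⟩, hyT⟩, _⟩ hxy
  have e1 : ‖g x - g y - fderiv ℝ g a (x - y)‖ ≤ c / 4 * ‖x - y‖ :=
    hSS (Set.mk_mem_prod hxS hyS)
  have e2 : ‖fderiv ℝ g y - fderiv ℝ g a‖ ≤ c / 4 := hTT hyT
  have e4 : ‖fderiv ℝ g y (x - y) - fderiv ℝ g a (x - y)‖ ≤ c / 4 * ‖x - y‖ := by
    calc ‖fderiv ℝ g y (x - y) - fderiv ℝ g a (x - y)‖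
        = ‖(fderiv ℝ g y - fderiv ℝ g a) (x - y)‖ := rfl
      _ ≤ ‖fderiv ℝ g y - fderiv ℝ g a‖ * ‖x - y‖ := ContinuousLinearMap.le_opNorm _ _
      _ ≤ c / 4 * ‖x - y‖ := by gcongr
  have e11 := near_diag_est hc (norm_nonneg (x - y)) e1 e4 (hxy (x - y)) (hAc (x - y))
  exact sub_eq_zero.1 (norm_eq_zero.1 e11)

section Surf

variable {E : Type*} [NormedAddCommGroup E] [NormedSpace ℝ E] [FiniteDimensional ℝ E]
  {M : Type*} [TopologicalSpace M] [ChartedSpace E M] [IsManifold 𝓘(ℝ, E) ∞ M]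

theorem fderiv_chart {f : M → V4} (hf : Imm E f) (p : M) {y : E}
    (hy : y ∈ (extChartAt 𝓘(ℝ, E) p).target) :
    fderiv ℝ (f ∘ (extChartAt 𝓘(ℝ, E) p).symm) y =
      (mfderiv 𝓘(ℝ, E) 𝓘(ℝ, V4) f ((extChartAt 𝓘(ℝ, E) p).symm y) : E →L[ℝ] V4).comp
        (mfderiv 𝓘(ℝ, E) 𝓘(ℝ, E) (extChartAt 𝓘(ℝ, E) p).symm y : E →L[ℝ] E) := by
  rw [← mfderiv_eq_fderiv]
  refine mfderiv_comp y (hf.sm.mdifferentiableAt (by simp)) ?_
  exact (((contMDiffOn_extChartAt_symm p).contMDiffAt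
    ((isOpen_extChartAt_target p).mem_nhds hy)).mdifferentiableAt (n := ∞) (by simp))

theorem inv_chart (p : M) {y : E}
    (hy : y ∈ (extChartAt 𝓘(ℝ, E) p).target) :
    (mfderiv 𝓘(ℝ, E) 𝓘(ℝ, E) (extChartAt 𝓘(ℝ, E) p).symm y : E →L[ℝ] E).IsInvertible := by
  have := isInvertible_mfderivWithin_extChartAt_symm (I := 𝓘(ℝ, E)) hy
  rwa [ModelWithCorners.range_eq_univ, mfderivWithin_univ] at this

theorem near_diag_local {f : M → V4} (hf : Imm E f) (p : M) : ∃ U : Set M, IsOpen U ∧ p ∈ U ∧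
    ∀ x ∈ U, ∀ y ∈ U,
      (∀ v : E, inner ℝ (f x - f y) ((mfderiv 𝓘(ℝ, E) 𝓘(ℝ, V4) f y : E →L[ℝ] V4) v) = 0) →
      x = y := by
  have hg : ContDiffOn ℝ ∞ (f ∘ (extChartAt 𝓘(ℝ, E) p).symm) (extChartAt 𝓘(ℝ, E) p).target :=
    (hf.sm.comp_contMDiffOn (contMDiffOn_extChartAt_symm p)).contDiffOn
  have hpt : extChartAt 𝓘(ℝ, E) p p ∈ (extChartAt 𝓘(ℝ, E) p).target := mem_extChartAt_target p
  have hinj : Function.Injective (fderiv ℝ (f ∘ (extChartAt 𝓘(ℝ, E) p).symm)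
      (extChartAt 𝓘(ℝ, E) p p)) := by
    rw [fderiv_chart hf p hpt]
    exact (hf.inj _).comp (inv_chart p hpt).injective
  obtain ⟨W, hW, hpW, hWO, hWW⟩ := near_diag_vec (isOpen_extChartAt_target p) hpt hg hinj
  refine ⟨(extChartAt 𝓘(ℝ, E) p).source ∩ extChartAt 𝓘(ℝ, E) p ⁻¹' W,
    isOpen_extChartAt_preimage' p hW, ⟨mem_extChartAt_source p, hpW⟩, ?_⟩
  rintro x ⟨hx, hxW⟩ y ⟨hy, hyW⟩ hxy
  have hxx : (extChartAt 𝓘(ℝ, E) p).symm (extChartAt 𝓘(ℝ, E) p x) = x :=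
    (extChartAt 𝓘(ℝ, E) p).left_inv hx
  have hyy : (extChartAt 𝓘(ℝ, E) p).symm (extChartAt 𝓘(ℝ, E) p y) = y :=
    (extChartAt 𝓘(ℝ, E) p).left_inv hy
  have : extChartAt 𝓘(ℝ, E) p x = extChartAt 𝓘(ℝ, E) p y := by
    refine hWW _ hxW _ hyW fun v => ?_
    rw [fderiv_chart hf p (hWO hyW)]
    rw [Function.comp_apply, Function.comp_apply, hxx, hyy]
    exact hxy _
  rw [← hxx, ← hyy, this]

/-- PT1: near the diagonal `f x - f y` is normal at `y` only for `x = y` -/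
theorem near_diag {f : M → V4} (hf : Imm E f) : ∃ U : Set (M × M), IsOpen U ∧
    (∀ x, (x, x) ∈ U) ∧ ∀ x y, (x, y) ∈ U →
      (∀ v : E, inner ℝ (f x - f y) ((mfderiv 𝓘(ℝ, E) 𝓘(ℝ, V4) f y : E →L[ℝ] V4) v) = 0) →
      x = y := by
  choose U hU hpU hUU using near_diag_local hf
  refine ⟨⋃ p, U p ×ˢ U p, isOpen_iUnion fun p => (hU p).prod (hU p),
    fun x => mem_iUnion.2 ⟨x, hpU x, hpU x⟩, fun x y hxy h => ?_⟩
  obtain ⟨p, hx, hy⟩ := mem_iUnion.1 hxy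
  exact hUU p x hx y hy h

end Surf

end Vale.Agent.P205.TI
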