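import Vale.Agent.P205.TI.Imm

/-!
The normal projection of an immersed surface in four space is smooth (P205, block TI).
-/

set_option linter.all false

open MeasureTheory Set Filter Module
open scoped Topology ContDiff Manifold RealInnerProductSpace

noncomputable section

namespace Vale.Agent.P205.TI

/-- Gram determinant -/
def gd (a b : V4) : ℝ := ⟪a, a⟫ * ⟪b, b⟫ - ⟪a, b⟫ * ⟪a, b⟫

/-- coefficients of the projection -/
def cA (a b c : V4) : ℝ := (⟪b, b⟫ * ⟪a, c⟫ - ⟪a, b⟫ * ⟪b, c⟫) / gd a b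

def cB (a b c : V4) : ℝ := (⟪a, a⟫ * ⟪b, c⟫ - ⟪a, b⟫ * ⟪a, c⟫) / gd a b

theorem gd_ne {a b : V4} (h : ∀ s t : ℝ, s • a + t • b = 0 → s = 0 ∧ t = 0) : gd a b ≠ 0 := by
  intro h0
  have hb : b ≠ 0 := by
    intro hb
    have := (h 0 1 (by simp [hb])).2
    exact one_ne_zero this
  have hbb : ⟪b, b⟫ ≠ 0 := inner_self_ne_zero.2 hb
  have h1 : ⟪b, b⟫ • a + (-⟪a, b⟫) • b = 0 := by
    rw [← inner_self_eq_zero (𝕜 := ℝ)]
    simp only [inner_add_left, inner_add_right, inner_smul_left, inner_smul_right,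
      RCLike.conj_to_real]
    rw [real_inner_comm b a]
    unfold gd at h0
    rw [real_inner_comm b a] at *
    linear_combination ⟪b, b⟫ * h0
  exact hbb (h _ _ h1).1

theorem starProjection_span {a b : V4} (h : gd a b ≠ 0) (c : V4) :
    (Submodule.span ℝ {a, b}).starProjection c = cA a b c • a + cB a b c • b := by
  refine Submodule.eq_starProjection_of_mem_of_inner_eq_zero ?_ ?_
  · exact Submodule.add_mem _ (Submodule.smul_mem _ _ (Submodule.subset_span (by simp)))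
      (Submodule.smul_mem _ _ (Submodule.subset_span (by simp)))
  · intro w hw
    obtain ⟨s, t, rfl⟩ := Submodule.mem_span_pair.1 hw
    have ea : ⟪c - (cA a b c • a + cB a b c • b), a⟫ = 0 := by
      simp only [inner_sub_left, inner_add_left, inner_smul_left, RCLike.conj_to_real]
      rw [real_inner_comm a c, real_inner_comm a b]
      unfold cA cB
      field_simp
      unfold gd
      ring
    have eb : ⟪c - (cA a b c • a + cB a b c • b), b⟫ = 0 := by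
      simp only [inner_sub_left, inner_add_left, inner_smul_left, RCLike.conj_to_real]
      rw [real_inner_comm b c]
      unfold cA cB
      field_simp
      unfold gd
      ring
    rw [inner_add_right, inner_smul_right, inner_smul_right, ea, eb]
    simp

variable {E : Type*} [NormedAddCommGroup E] [NormedSpace ℝ E] [FiniteDimensional ℝ E]
  {M : Type*} [TopologicalSpace M] [ChartedSpace E M] [IsManifold 𝓘(ℝ, E) ∞ M]

variable (E) in
/-- tangent plane -/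
def tg (f : M → V4) (p : M) : Submodule ℝ V4 :=
  LinearMap.range (mfderiv 𝓘(ℝ, E) 𝓘(ℝ, V4) f p : E →L[ℝ] V4).toLinearMap

variable (E) in
/-- normal projection -/
def Pn (f : M → V4) (p : M) : V4 →L[ℝ] V4 := (tg E f p)ᗮ.starProjection

theorem Pn_apply (f : M → V4) (p : M) (c : V4) :
    Pn E f p c = c - (tg E f p).starProjection c := by
  unfold Pn
  rw [Submodule.starProjection_orthogonal]
  simp

theorem Pn_perp (f : M → V4) (p : M) (c : V4) (v : E) :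
    ⟪Pn E f p c, (mfderiv 𝓘(ℝ, E) 𝓘(ℝ, V4) f p : E →L[ℝ] V4) v⟫ = 0 := by
  rw [Pn_apply]
  exact Submodule.starProjection_inner_eq_zero c _ (LinearMap.mem_range_self _ v)

theorem Pn_eq_self (f : M → V4) (p : M) {c : V4}
    (h : ∀ v : E, ⟪c, (mfderiv 𝓘(ℝ, E) 𝓘(ℝ, V4) f p : E →L[ℝ] V4) v⟫ = 0) :
    Pn E f p c = c := by
  rw [Pn_apply]
  have : (tg E f p).starProjection c = 0 := by
    refine Submodule.eq_starProjection_of_mem_of_inner_eq_zero (Submodule.zero_mem _) ?_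
    rintro w ⟨v, rfl⟩
    rw [sub_zero]
    exact h v
  rw [this, sub_zero]

theorem Pn_eq_zero_iff (f : M → V4) (p : M) (c : V4) :
    Pn E f p c = 0 ↔ c ∈ tg E f p := by
  rw [Pn_apply, sub_eq_zero, eq_comm, Submodule.starProjection_eq_self_iff]

/-- the tangent plane in a chart -/
theorem tg_eq {f : M → V4} (hf : ContMDiff 𝓘(ℝ, E) 𝓘(ℝ, V4) ∞ f) (x0 x : M)
    (hx : x ∈ (chartAt E x0).source) : tg E f x = LinearMap.range
      (fderiv ℝ (f ∘ (extChartAt 𝓘(ℝ, E) x0).symm) (extChartAt 𝓘(ℝ, E) x0 x)).toLinearMap := by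
  have hx' : x ∈ (extChartAt 𝓘(ℝ, E) x0).source := by rwa [extChartAt_source]
  have hinv : (mfderiv 𝓘(ℝ, E) 𝓘(ℝ, E) (extChartAt 𝓘(ℝ, E) x0) x).IsInvertible :=
    isInvertible_mfderiv_extChartAt hx'
  ext w
  constructor
  · rintro ⟨v, rfl⟩
    exact ⟨_, (mfderiv_eq_chart hf x0 x hx v).symm⟩
  · rintro ⟨u, rfl⟩
    obtain ⟨v, hv⟩ := hinv.surjective u
    refine ⟨v, (mfderiv_eq_chart hf x0 x hx v).trans ?_⟩
    exact congrArg _ hv

theorem range_eq_span (b : Basis (Fin 2) ℝ E) (A : E →L[ℝ] V4) :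
    LinearMap.range A.toLinearMap = Submodule.span ℝ {A (b 0), A (b 1)} := by
  ext w
  rw [Submodule.mem_span_pair]
  constructor
  · rintro ⟨v, rfl⟩
    refine ⟨b.repr v 0, b.repr v 1, ?_⟩
    have h := b.sum_repr v
    rw [Fin.sum_univ_two] at h
    conv_rhs => rw [← h]
    simp
  · rintro ⟨s, t, rfl⟩
    exact ⟨s • b 0 + t • b 1, by simp⟩

theorem gd_basis (b : Basis (Fin 2) ℝ E) {A : E →L[ℝ] V4} (hA : Function.Injective A) :
    gd (A (b 0)) (A (b 1)) ≠ 0 := by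
  apply gd_ne
  intro s t h
  have h1 : A (s • b 0 + t • b 1) = A 0 := by simpa using h
  have h2 := hA h1
  have h3 := b.linearIndependent
  rw [Fintype.linearIndependent_iff] at h3
  have h4 := h3 ![s, t] (by simpa [Fin.sum_univ_two] using h2)
  exact ⟨by simpa using h4 0, by simpa using h4 1⟩

/-- injectivity of the derivative in the chart -/
theorem inj_chart {f : M → V4} (hf : Imm E f) (x0 x : M) (hx : x ∈ (chartAt E x0).source) :
    Function.Injective (fderiv ℝ (f ∘ (extChartAt 𝓘(ℝ, E) x0).symm)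
      (extChartAt 𝓘(ℝ, E) x0 x)) := by
  have hx' : x ∈ (extChartAt 𝓘(ℝ, E) x0).source := by rwa [extChartAt_source]
  have hinv : (mfderiv 𝓘(ℝ, E) 𝓘(ℝ, E) (extChartAt 𝓘(ℝ, E) x0) x).IsInvertible :=
    isInvertible_mfderiv_extChartAt hx'
  intro u1 u2 h12
  obtain ⟨v1, hv1⟩ := hinv.surjective u1
  obtain ⟨v2, hv2⟩ := hinv.surjective u2
  have e1 := mfderiv_eq_chart hf.sm x0 x hx v1
  have e2 := mfderiv_eq_chart hf.sm x0 x hx v2
  have e1' := e1.trans (congrArg (fderiv ℝ (f ∘ (extChartAt 𝓘(ℝ, E) x0).symm)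
    (extChartAt 𝓘(ℝ, E) x0 x)) hv1)
  have e2' := e2.trans (congrArg (fderiv ℝ (f ∘ (extChartAt 𝓘(ℝ, E) x0).symm)
    (extChartAt 𝓘(ℝ, E) x0 x)) hv2)
  have h3 : v1 = v2 := hf.inj x (e1'.trans (h12.trans e2'.symm))
  rw [← hv1, ← hv2, h3]

/-- smoothness of the coefficients -/
theorem contMDiffAt_cA {x : M} {a b c : M → V4} (ha : ContMDiffAt 𝓘(ℝ, E) 𝓘(ℝ, V4) ∞ a x)
    (hb : ContMDiffAt 𝓘(ℝ, E) 𝓘(ℝ, V4) ∞ b x) (hc : ContMDiffAt 𝓘(ℝ, E) 𝓘(ℝ, V4) ∞ c x)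
    (h : gd (a x) (b x) ≠ 0) :
    ContMDiffAt 𝓘(ℝ, E) 𝓘(ℝ, V4) ∞ (fun q => cA (a q) (b q) (c q) • a q
      + cB (a q) (b q) (c q) • b q) x := by
  have key : ContDiffAt ℝ ∞ (fun z : V4 × V4 × V4 => cA z.1 z.2.1 z.2.2 • z.1
      + cB z.1 z.2.1 z.2.2 • z.2.1) (a x, b x, c x) := by
    have h1 : ContDiffAt ℝ ∞ (fun z : V4 × V4 × V4 => z.1) (a x, b x, c x) := contDiffAt_fst
    have h2 : ContDiffAt ℝ ∞ (fun z : V4 × V4 × V4 => z.2.1) (a x, b x, c x) :=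
      contDiffAt_fst.comp _ contDiffAt_snd
    have h3 : ContDiffAt ℝ ∞ (fun z : V4 × V4 × V4 => z.2.2) (a x, b x, c x) :=
      contDiffAt_snd.comp _ contDiffAt_snd
    have hg : ContDiffAt ℝ ∞ (fun z : V4 × V4 × V4 => gd z.1 z.2.1) (a x, b x, c x) :=
      ((h1.inner ℝ h1).mul (h2.inner ℝ h2)).sub ((h1.inner ℝ h2).mul (h1.inner ℝ h2))
    have hA : ContDiffAt ℝ ∞ (fun z : V4 × V4 × V4 => cA z.1 z.2.1 z.2.2) (a x, b x, c x) :=
      (((h2.inner ℝ h2).mul (h1.inner ℝ h3)).sub ((h1.inner ℝ h2).mul (h2.inner ℝ h3))).div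
        hg h
    have hB : ContDiffAt ℝ ∞ (fun z : V4 × V4 × V4 => cB z.1 z.2.1 z.2.2) (a x, b x, c x) :=
      (((h1.inner ℝ h1).mul (h2.inner ℝ h3)).sub ((h1.inner ℝ h2).mul (h1.inner ℝ h3))).div
        hg h
    exact (hA.smul h1).add (hB.smul h2)
  have h2 : ContMDiffAt 𝓘(ℝ, E) 𝓘(ℝ, V4 × V4 × V4) ∞ (fun q => (a q, b q, c q)) x :=
    ha.prodMk_space (hb.prodMk_space hc)
  have h3 : ContMDiffAt 𝓘(ℝ, E) 𝓘(ℝ, V4) ∞ ((fun z : V4 × V4 × V4 => cA z.1 z.2.1 z.2.2 • z.1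
      + cB z.1 z.2.1 z.2.2 • z.2.1) ∘ (fun q => (a q, b q, c q))) x :=
    ContMDiffAt.comp x (g := fun z : V4 × V4 × V4 => cA z.1 z.2.1 z.2.2 • z.1
      + cB z.1 z.2.1 z.2.2 • z.2.1) key.contMDiffAt h2
  exact h3

/-- smoothness of the derivative of `f` in a chart in a fixed direction -/
theorem contMDiffAt_fderiv {f : M → V4} (hf : ContMDiff 𝓘(ℝ, E) 𝓘(ℝ, V4) ∞ f) (x0 x : M)
    (hx : x ∈ (chartAt E x0).source) (e : E) :
    ContMDiffAt 𝓘(ℝ, E) 𝓘(ℝ, V4) ∞ (fun q =>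
      fderiv ℝ (f ∘ (extChartAt 𝓘(ℝ, E) x0).symm) (extChartAt 𝓘(ℝ, E) x0 q) e) x := by
  have hx' : x ∈ (extChartAt 𝓘(ℝ, E) x0).source := by rwa [extChartAt_source]
  have hy : extChartAt 𝓘(ℝ, E) x0 x ∈ (extChartAt 𝓘(ℝ, E) x0).target :=
    (extChartAt 𝓘(ℝ, E) x0).map_source hx'
  have h1 : ContMDiffOn 𝓘(ℝ, E) 𝓘(ℝ, V4) ∞
      (f ∘ (extChartAt 𝓘(ℝ, E) x0).symm) (extChartAt 𝓘(ℝ, E) x0).target :=
    hf.comp_contMDiffOn (contMDiffOn_extChartAt_symm x0)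
  have h2 := (contMDiffOn_iff_contDiffOn.1 h1).contDiffAt
    ((isOpen_extChartAt_target x0).mem_nhds hy)
  have h3 : ContDiffAt ℝ ∞ (fun y => fderiv ℝ (f ∘ (extChartAt 𝓘(ℝ, E) x0).symm) y e)
      (extChartAt 𝓘(ℝ, E) x0 x) :=
    (h2.fderiv_right (m := ∞) (by norm_cast)).clm_apply contDiffAt_const
  exact h3.contMDiffAt.comp x (contMDiffAt_extChartAt' hx)

/-- local formula for the normal projection -/
theorem Pn_formula (bs : Basis (Fin 2) ℝ E) {f : M → V4} (hf : Imm E f) (x0 x : M)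
    (hx : x ∈ (chartAt E x0).source) (c : V4) :
    Pn E f x c = c -
      (cA (fderiv ℝ (f ∘ (extChartAt 𝓘(ℝ, E) x0).symm) (extChartAt 𝓘(ℝ, E) x0 x) (bs 0))
        (fderiv ℝ (f ∘ (extChartAt 𝓘(ℝ, E) x0).symm) (extChartAt 𝓘(ℝ, E) x0 x) (bs 1)) c •
        fderiv ℝ (f ∘ (extChartAt 𝓘(ℝ, E) x0).symm) (extChartAt 𝓘(ℝ, E) x0 x) (bs 0) +
      cB (fderiv ℝ (f ∘ (extChartAt 𝓘(ℝ, E) x0).symm) (extChartAt 𝓘(ℝ, E) x0 x) (bs 0))
        (fderiv ℝ (f ∘ (extChartAt 𝓘(ℝ, E) x0).symm) (extChartAt 𝓘(ℝ, E) x0 x) (bs 1)) c •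
        fderiv ℝ (f ∘ (extChartAt 𝓘(ℝ, E) x0).symm) (extChartAt 𝓘(ℝ, E) x0 x) (bs 1)) := by
  rw [Pn_apply, tg_eq hf.sm x0 x hx, range_eq_span bs,
    starProjection_span (gd_basis bs (inj_chart hf x0 x hx))]

/-- smoothness of the normal projection of a vector field -/
theorem contMDiff_Pn (hE : finrank ℝ E = 2) {f : M → V4} (hf : Imm E f) {c : M → V4} {x : M}
    (hc : ContMDiffAt 𝓘(ℝ, E) 𝓘(ℝ, V4) ∞ c x) :
    ContMDiffAt 𝓘(ℝ, E) 𝓘(ℝ, V4) ∞ (fun q => Pn E f q (c q)) x := by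
  set bs : Basis (Fin 2) ℝ E := finBasisOfFinrankEq ℝ E hE
  have hx : x ∈ (chartAt E x).source := mem_chart_source E x
  have h0 := contMDiffAt_cA (contMDiffAt_fderiv hf.sm x x hx (bs 0))
    (contMDiffAt_fderiv hf.sm x x hx (bs 1)) hc (gd_basis bs (inj_chart hf x x hx))
  have h1 := hc.sub h0
  refine h1.congr_of_eventuallyEq ?_
  filter_upwards [(chartAt E x).open_source.mem_nhds hx] with q hq
  exact Pn_formula bs hf x q hq (c q)

theorem contMDiffAt_PnL (hE : finrank ℝ E = 2) {f : M → V4} (hf : Imm E f) (x : M) :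
    ContMDiffAt 𝓘(ℝ, E) 𝓘(ℝ, V4 →L[ℝ] V4) ∞ (fun q => Pn E f q) x := by
  set o := EuclideanSpace.basisFun (Fin 4) ℝ
  have h1 : (fun q => Pn E f q) = fun q => ∑ k, (innerSL ℝ (o k)).smulRight (Pn E f q (o k)) := by
    funext q
    ext1 w
    simp only [ContinuousLinearMap.sum_apply, ContinuousLinearMap.smulRight_apply,
      innerSL_apply_apply]
    conv_lhs => rw [← o.sum_repr' w]
    simp
  rw [h1]
  have h2 : ∀ k, ContMDiffAt 𝓘(ℝ, E) 𝓘(ℝ, V4 →L[ℝ] V4) ∞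
      (fun q => (innerSL ℝ (o k)).smulRight (Pn E f q (o k))) x := by
    intro k
    have h3 : ContDiff ℝ ∞ (fun w : V4 => (innerSL ℝ (o k)).smulRight w) :=
      (ContinuousLinearMap.smulRightL ℝ V4 V4 (innerSL ℝ (o k))).contDiff
    exact h3.contMDiff.contMDiffAt.comp x (contMDiff_Pn hE hf contMDiffAt_const)
  exact contMDiffAt_finsetSum fun k _ => h2 k

end Vale.Agent.P205.TI
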