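import Vale.Agent.P205.TI.Defs

set_option linter.all false

/-!
P205, block TI, MV1 (helper734): pushing a point inside a ball of `E` by an injective smooth map
equal to the identity off a compact set that avoids finitely many given points.
-/

open scoped Manifold ContDiff Topology
open Set Module Metric

noncomputable section

namespace Vale.Agent.P205.TI

section PushE

variable {E : Type*} [NormedAddCommGroup E] [NormedSpace ℝ E] [FiniteDimensional ℝ E]

/-- a direction avoiding finitely many lines -/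
theorem exists_dir (hE : 2 ≤ finrank ℝ E) {Z : Set E} (hZ : Z.Finite) {W : Set E} (hW : IsOpen W)
    (hne : W.Nonempty) : ∃ w ∈ W, ∀ z ∈ Z, w ∉ Submodule.span ℝ {z} := by
  borelize E
  let μ : MeasureTheory.Measure E := MeasureTheory.Measure.addHaar
  have h0 : ∀ z : E, μ (Submodule.span ℝ {z} : Set E) = 0 := by
    intro z
    apply MeasureTheory.Measure.addHaar_submodule
    intro htop
    have h1 := finrank_span_le_card (R := ℝ) ({z} : Set E)
    rw [htop, finrank_top] at h1
    simp at h1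
    omega
  have h1 : μ (⋃ z ∈ Z, (Submodule.span ℝ {z} : Set E)) = 0 := by
    rw [MeasureTheory.measure_biUnion_null_iff hZ.countable]
    intro z _
    exact h0 z
  have h2 : 0 < μ W := hW.measure_pos μ hne
  by_contra hcon
  push Not at hcon
  have h3 : W ⊆ ⋃ z ∈ Z, (Submodule.span ℝ {z} : Set E) := by
    intro w hw
    obtain ⟨z, hz, hwz⟩ := hcon w hw
    exact mem_iUnion₂.2 ⟨z, hz, hwz⟩
  have h4 := MeasureTheory.measure_mono_null h3 h1
  exact absurd h4 h2.ne'

theorem push_lemma (hE : 2 ≤ finrank ℝ E) {c : E} {r : ℝ} {Z : Set E} (hZ : Z.Finite) {y : E}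
    (hy : y ∈ ball c r) {V : Set E} (hV : IsOpen V) (hne : V.Nonempty) (hVb : V ⊆ ball c r) :
    ∃ y' ∈ V, ∃ (K : Set E) (Θ : E → E), IsCompact K ∧ K ⊆ ball c r ∧ ContDiff ℝ ∞ Θ ∧
      Function.Injective Θ ∧ (∀ x, Function.Injective (fderiv ℝ Θ x)) ∧ (∀ x, x ∉ K → Θ x = x) ∧
      MapsTo Θ (ball c r) (ball c r) ∧ Θ y' = y ∧ ∀ z ∈ Z, z ≠ y → z ∉ K := by
  classical
  -- the direction
  obtain ⟨w, hw, hwZ⟩ := exists_dir hE (Z := (fun z => z - y) '' (Z \ {y}))
    ((hZ.subset diff_subset).image _) (W := (fun w => y + w) ⁻¹' V)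
    (hV.preimage (by fun_prop)) (by
      obtain ⟨v, hv⟩ := hne
      exact ⟨v - y, by simpa using hv⟩)
  have hyw : y + w ∈ V := hw
  set seg : Set E := (fun t : ℝ => y + t • w) '' Icc 0 1 with hseg
  have hsegc : IsCompact seg := isCompact_Icc.image (by fun_prop)
  have hsegb : seg ⊆ ball c r := by
    rintro _ ⟨t, ht, rfl⟩
    have h1 := (convex_ball c r) hy (hVb hyw) (a := 1 - t) (b := t) (by linarith [ht.2]) ht.1
      (by ring)
    convert h1 using 1
    simp only [smul_add, sub_smul, one_smul]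
    abel
  have hsegZ : ∀ z ∈ Z, z ≠ y → z ∉ seg := by
    rintro z hz hzy ⟨t, ht, hzt⟩
    have hzt' : y + t • w = z := hzt
    have h1 : z - y = t • w := by rw [← hzt']; abel
    have ht0 : t ≠ 0 := by
      rintro rfl
      apply hzy
      rw [← hzt']
      simp
    apply hwZ (z - y) ⟨z, ⟨hz, hzy⟩, rfl⟩
    rw [Submodule.mem_span_singleton]
    refine ⟨t⁻¹, ?_⟩
    rw [h1, smul_smul, inv_mul_cancel₀ ht0, one_smul]
  set O : Set E := ball c r \ (Z \ {y}) with hO
  have hOo : IsOpen O := isOpen_ball.sdiff (hZ.subset diff_subset).isClosed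
  have hsegO : seg ⊆ O := by
    intro x hx
    refine ⟨hsegb hx, ?_⟩
    rintro ⟨hxZ, hxy⟩
    exact hsegZ x hxZ hxy hx
  obtain ⟨K, hK, hsK, hKO⟩ := exists_compact_between hsegc hOo hsegO
  have hKb : K ⊆ ball c r := fun x hx => (hKO hx).1
  -- the bump
  obtain ⟨η, hη0, hη1, hη⟩ := exists_contMDiffMap_zero_one_of_isClosed (n := (⊤ : ℕ∞)) 𝓘(ℝ, E)
    (s := (interior K)ᶜ) (t := seg) isOpen_interior.isClosed_compl hsegc.isClosed (by
      rw [disjoint_left]
      intro x hx hx'
      exact hx (hsK hx'))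
  have hηs : ContDiff ℝ ∞ (η : E → ℝ) := η.contMDiff.contDiff
  have hηK : ∀ x, x ∉ K → η x = 0 := by
    intro x hx
    exact hη0 (fun h => hx (interior_subset h))
  have hηc : HasCompactSupport (η : E → ℝ) := HasCompactSupport.intro hK hηK
  obtain ⟨L, hL⟩ := ContDiff.lipschitzWith_of_hasCompactSupport hηc hηs (by simp)
  obtain ⟨δ, hδ, hthick⟩ := hK.exists_thickening_subset_open isOpen_ball hKb
  -- the step
  obtain ⟨n, hn⟩ : ∃ n : ℕ, (L + 1) * ‖w‖ / min 1 δ < n := exists_nat_gt _
  have hm : 0 < min 1 δ := lt_min one_pos hδ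
  have hn0 : 0 < (n : ℝ) := lt_of_le_of_lt (by positivity) hn
  have hn' : (n : ℝ) ≠ 0 := hn0.ne'
  set u : E := (1 / (n : ℝ)) • w with hu
  have hun : (L + 1) * ‖u‖ < min 1 δ := by
    rw [hu, norm_smul, Real.norm_of_nonneg (by positivity)]
    rw [div_lt_iff₀ hm] at hn
    rw [show ((L : ℝ) + 1) * (1 / n * ‖w‖) = ((L + 1) * ‖w‖) / n by ring, div_lt_iff₀ hn0]
    linarith
  have hL0 : (0 : ℝ) ≤ L := L.2
  have hLu : (L : ℝ) * ‖u‖ < 1 := by
    have := min_le_left (1 : ℝ) δ
    nlinarith [norm_nonneg u]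
  have huδ : ‖u‖ < δ := by
    have := min_le_right (1 : ℝ) δ
    nlinarith [norm_nonneg u, mul_nonneg hL0 (norm_nonneg u)]
  set S : E → E := fun x => x - η x • u with hS
  have hSs : ContDiff ℝ ∞ S := by
    rw [hS]
    exact contDiff_id.sub (hηs.smul contDiff_const)
  have hSinj : Function.Injective S := by
    intro a b hab
    have h1 : a - b = (η a - η b) • u := by
      simp only [hS] at hab
      rw [sub_smul]
      rw [sub_eq_sub_iff_add_eq_add] at hab
      rw [sub_eq_sub_iff_add_eq_add]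
      exact hab.trans (add_comm _ _)
    have h2 : ‖a - b‖ ≤ L * ‖a - b‖ * ‖u‖ := by
      conv_lhs => rw [h1, norm_smul]
      gcongr
      have := hL.dist_le_mul a b
      rwa [dist_eq_norm, dist_eq_norm] at this
    have h3 : ‖a - b‖ = 0 := by
      by_contra hne0
      have h4 : 0 < ‖a - b‖ := lt_of_le_of_ne (norm_nonneg _) (Ne.symm hne0)
      nlinarith
    exact sub_eq_zero.1 (norm_eq_zero.1 h3)
  have hSd : ∀ x v, fderiv ℝ S x v = v - (fderiv ℝ η x v) • u := by
    intro x v
    have h1 : HasFDerivAt S (ContinuousLinearMap.id ℝ E - (fderiv ℝ η x).smulRight u) x := by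
      rw [hS]
      exact (hasFDerivAt_id x).sub
        (((hηs.differentiable (by simp)) x).hasFDerivAt.smul_const u)
    rw [h1.fderiv]
    simp
  have hSdi : ∀ x, Function.Injective (fderiv ℝ S x) := by
    intro x
    rw [injective_iff_map_eq_zero]
    intro v hv
    rw [hSd] at hv
    have h1 : v = (fderiv ℝ η x v) • u := sub_eq_zero.1 hv
    have h2 : ‖v‖ ≤ L * ‖v‖ * ‖u‖ := by
      conv_lhs => rw [h1, norm_smul]
      gcongr
      refine (ContinuousLinearMap.le_opNorm _ _).trans ?_
      gcongr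
      exact norm_fderiv_le_of_lipschitz ℝ hL
    by_contra hne0
    have h4 : 0 < ‖v‖ := norm_pos_iff.2 hne0
    nlinarith
  have hSK : ∀ x, x ∉ K → S x = x := by
    intro x hx
    simp [hS, hηK x hx]
  have hSb : MapsTo S (ball c r) (ball c r) := by
    intro x hx
    by_cases hxK : x ∈ K
    · apply hthick
      rw [mem_thickening_iff]
      refine ⟨x, hxK, ?_⟩
      rw [dist_eq_norm]
      simp only [hS, sub_sub_cancel_left, norm_neg, norm_smul]
      have h1 := hη x
      rw [Real.norm_of_nonneg h1.1]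
      have h2 : η x ≤ 1 := h1.2
      nlinarith [norm_nonneg u]
    · rw [hSK x hxK]; exact hx
  -- iterates
  have hit : ∀ k : ℕ, ContDiff ℝ ∞ (S^[k]) ∧ ∀ x, Function.Injective (fderiv ℝ (S^[k]) x) := by
    intro k
    induction k with
    | zero =>
      refine ⟨contDiff_id, fun x => ?_⟩
      have : S^[0] = id := rfl
      rw [this, fderiv_id]
      exact Function.injective_id
    | succ k ih =>
      have h1 : S^[k + 1] = S^[k] ∘ S := Function.iterate_succ S k
      refine ⟨h1 ▸ ih.1.comp hSs, fun x => ?_⟩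
      rw [h1, fderiv_comp x ((ih.1.differentiable (by simp)) _) ((hSs.differentiable (by simp)) _)]
      exact (ih.2 (S x)).comp (hSdi x)
  have hmove : ∀ k : ℕ, k ≤ n → S^[k] (y + w) = y + w - ((k : ℝ) / n) • w := by
    intro k
    induction k with
    | zero => intro _; simp
    | succ k ih =>
      intro hk
      rw [Function.iterate_succ_apply', ih (by omega)]
      have hkn : (k : ℝ) + 1 ≤ n := by exact_mod_cast hk
      have h1 : y + w - ((k : ℝ) / n) • w ∈ seg := by
        refine ⟨1 - (k : ℝ) / n, ⟨?_, ?_⟩, ?_⟩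
        · rw [sub_nonneg, div_le_one hn0]; linarith
        · have : (0 : ℝ) ≤ (k : ℝ) / n := by positivity
          linarith
        · simp only [sub_smul, one_smul]
          abel
      simp only [hS]
      rw [hη1 h1]
      simp only [Pi.one_apply, one_smul, hu]
      rw [sub_sub, ← add_smul]
      push_cast
      congr 2
      ring
  refine ⟨y + w, hyw, K, S^[n], hK, hKb, (hit n).1, hSinj.iterate n, (hit n).2, ?_,
    hSb.iterate n, ?_, ?_⟩
  · intro x hx
    exact Function.iterate_fixed (hSK x hx) n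
  · rw [hmove n le_rfl, div_self hn', one_smul, add_sub_cancel_right]
  · intro z hz hzy hzK
    exact (hKO hzK).2 ⟨hz, hzy⟩

end PushE

end Vale.Agent.P205.TI
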