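import Vale.Agent.P205.TI.Push
import Vale.Agent.P205.TI.Proj

set_option linter.all false

/-!
P205, block TI, MV1 (helper734): the local swap of a zero of a nondegenerate normal field.
-/

open Set Filter Module Metric
open scoped Topology ContDiff Manifold RealInnerProductSpace

noncomputable section

namespace Vale.Agent.P205.TI

variable {E : Type*} [NormedAddCommGroup E] [NormedSpace ℝ E] [FiniteDimensional ℝ E]
  {M : Type*} [TopologicalSpace M] [ChartedSpace E M] [IsManifold 𝓘(ℝ, E) ∞ M]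

theorem push_mfd [T2Space M] (hE : 2 ≤ finrank ℝ E) (p : M) {W : Set M} (hW : W ∈ 𝓝 p) :
    ∃ U : Set M, IsOpen U ∧ p ∈ U ∧ U ⊆ W ∧ ∀ Z : Set M, Z.Finite → ∀ y ∈ U, ∀ V ⊆ U, IsOpen V →
      V.Nonempty → ∃ y' ∈ V, ∃ Θ : M → M, ContMDiff 𝓘(ℝ, E) 𝓘(ℝ, E) ∞ Θ ∧ Function.Injective Θ ∧
        (∀ x, Function.Injective (mfderiv 𝓘(ℝ, E) 𝓘(ℝ, E) Θ x)) ∧ (∀ x, x ∉ U → Θ x = x) ∧
        MapsTo Θ U U ∧ Θ y' = y ∧ ∀ z ∈ Z, z ≠ y → Θ z = z := by
  classical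
  set φ := extChartAt 𝓘(ℝ, E) p with hφ
  have hps : p ∈ φ.source := mem_extChartAt_source p
  have hpt : φ p ∈ φ.target := φ.map_source hps
  have htn : φ.target ∈ 𝓝 (φ p) := (isOpen_extChartAt_target (I := 𝓘(ℝ, E)) p).mem_nhds hpt
  have hWn : φ.symm ⁻¹' W ∈ 𝓝 (φ p) := by
    have h1 : ContinuousAt φ.symm (φ p) := continuousAt_extChartAt_symm (I := 𝓘(ℝ, E)) p
    apply h1.preimage_mem_nhds
    rwa [φ.left_inv hps]
  obtain ⟨r, hr, hrsub⟩ := Metric.mem_nhds_iff.1 (inter_mem htn hWn)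
  set U : Set M := φ.source ∩ φ ⁻¹' ball (φ p) r with hU
  have hUo : IsOpen U := isOpen_extChartAt_preimage' (I := 𝓘(ℝ, E)) p isOpen_ball
  have hUs : ∀ q ∈ U, q ∈ φ.source := fun q hq => hq.1
  have hsymU : ∀ y ∈ ball (φ p) r, φ.symm y ∈ U := by
    intro y hy
    refine ⟨φ.map_target (hrsub hy).1, ?_⟩
    show φ (φ.symm y) ∈ ball (φ p) r
    rw [φ.right_inv (hrsub hy).1]
    exact hy
  refine ⟨U, hUo, ⟨hps, mem_ball_self hr⟩, ?_, ?_⟩
  · intro q hq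
    have h1 := (hrsub hq.2).2
    rw [mem_preimage, φ.left_inv hq.1] at h1
    exact h1
  intro Z hZ y hy V hVU hV hne
  obtain ⟨y1, hy1, K, Θ, hK, hKb, hΘs, hΘi, hΘd, hΘK, hΘb, hΘy, hΘZ⟩ :=
    push_lemma hE (c := φ p) (r := r) (Z := φ '' (Z ∩ U)) ((hZ.subset inter_subset_left).image _)
      (y := φ y) hy.2 (V := φ.target ∩ φ.symm ⁻¹' V)
      ((continuousOn_extChartAt_symm (I := 𝓘(ℝ, E)) p).isOpen_inter_preimage
        (isOpen_extChartAt_target p) hV)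
      (by
        obtain ⟨v, hv⟩ := hne
        refine ⟨φ v, φ.map_source (hVU hv).1, ?_⟩
        rw [mem_preimage, φ.left_inv (hVU hv).1]
        exact hv)
      (by
        rintro z ⟨hz, hzV⟩
        have := (hVU hzV).2
        rw [mem_preimage, φ.right_inv hz] at this
        exact this)
  set T : M → M := fun q => if q ∈ U then φ.symm (Θ (φ q)) else q with hT
  have hTU : ∀ q ∈ U, T q = φ.symm (Θ (φ q)) := fun q hq => by simp only [hT, if_pos hq]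
  have hTn : ∀ q, q ∉ U → T q = q := fun q hq => by simp only [hT, if_neg hq]
  have hTmap : MapsTo T U U := by
    intro q hq
    rw [hTU q hq]
    exact hsymU _ (hΘb hq.2)
  have hφT : ∀ q ∈ U, φ (T q) = Θ (φ q) := by
    intro q hq
    rw [hTU q hq, φ.right_inv (hrsub (hΘb hq.2)).1]
  set KM : Set M := φ.symm '' K with hKM
  have hKMc : IsClosed KM := (hK.image_of_continuousOn
    ((continuousOn_extChartAt_symm (I := 𝓘(ℝ, E)) p).mono fun x hx => (hrsub (hKb hx)).1)).isClosed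
  have hKMU : KM ⊆ U := by
    rintro _ ⟨x, hx, rfl⟩
    exact hsymU x (hKb hx)
  have hTK : ∀ q, q ∉ KM → T q = q := by
    intro q hq
    by_cases hqU : q ∈ U
    · rw [hTU q hqU, hΘK (φ q), φ.left_inv hqU.1]
      intro h
      exact hq ⟨φ q, h, φ.left_inv hqU.1⟩
    · exact hTn q hqU
  have hTsm : ContMDiff 𝓘(ℝ, E) 𝓘(ℝ, E) ∞ T := by
    intro q
    by_cases hq : q ∈ U
    · have h1 : ContMDiffAt 𝓘(ℝ, E) 𝓘(ℝ, E) ∞ φ q :=
        contMDiffAt_extChartAt' (by rw [← extChartAt_source 𝓘(ℝ, E)]; exact hq.1)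
      have h2 : ContMDiffAt 𝓘(ℝ, E) 𝓘(ℝ, E) ∞ Θ (φ q) := hΘs.contMDiff.contMDiffAt
      have h3 : ContMDiffAt 𝓘(ℝ, E) 𝓘(ℝ, E) ∞ φ.symm (Θ (φ q)) :=
        (contMDiffOn_extChartAt_symm (I := 𝓘(ℝ, E)) p).contMDiffAt
          ((isOpen_extChartAt_target p).mem_nhds (hrsub (hΘb hq.2)).1)
      have h4 : ContMDiffAt 𝓘(ℝ, E) 𝓘(ℝ, E) ∞ (φ.symm ∘ Θ ∘ φ) q := h3.comp q (h2.comp q h1)
      refine h4.congr_of_eventuallyEq ?_
      filter_upwards [hUo.mem_nhds hq] with x hx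
      exact hTU x hx
    · have hq' : q ∉ KM := fun h => hq (hKMU h)
      refine (contMDiffAt_id (n := ∞) (I := 𝓘(ℝ, E)) (x := q)).congr_of_eventuallyEq ?_
      filter_upwards [hKMc.isOpen_compl.mem_nhds hq'] with x hx
      exact hTK x hx
  refine ⟨φ.symm y1, hy1.2, T, hTsm, ?_, ?_, hTn, hTmap, ?_, ?_⟩
  · intro a b hab
    by_cases ha : a ∈ U
    · by_cases hb : b ∈ U
      · have h1 : Θ (φ a) = Θ (φ b) := by rw [← hφT a ha, ← hφT b hb, hab]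
        exact φ.injOn ha.1 hb.1 (hΘi h1)
      · exfalso
        apply hb
        rw [← hTn b hb, ← hab]
        exact hTmap ha
    · by_cases hb : b ∈ U
      · exfalso
        apply ha
        rw [← hTn a ha, hab]
        exact hTmap hb
      · rwa [hTn a ha, hTn b hb] at hab
  · intro q
    by_cases hq : q ∈ U
    · have hqs : q ∈ (chartAt E p).source := by
        have := hq.1
        rwa [hφ, extChartAt_source] at this
      have hTqs : T q ∈ (chartAt E p).source := by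
        have := (hTmap hq).1
        rwa [hφ, extChartAt_source] at this
      have h1 : MDifferentiableAt 𝓘(ℝ, E) 𝓘(ℝ, E) φ q := mdifferentiableAt_extChartAt hqs
      have h1' : MDifferentiableAt 𝓘(ℝ, E) 𝓘(ℝ, E) φ (T q) := mdifferentiableAt_extChartAt hTqs
      have h2 : MDifferentiableAt 𝓘(ℝ, E) 𝓘(ℝ, E) Θ (φ q) :=
        (hΘs.differentiable (by simp) _).mdifferentiableAt
      have h3 : MDifferentiableAt 𝓘(ℝ, E) 𝓘(ℝ, E) T q :=
        (hTsm q).mdifferentiableAt (by simp)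
      have h4 : (φ ∘ T) =ᶠ[𝓝 q] (Θ ∘ φ) := by
        filter_upwards [hUo.mem_nhds hq] with x hx
        exact hφT x hx
      have h5 : mfderiv 𝓘(ℝ, E) 𝓘(ℝ, E) (φ ∘ T) q = mfderiv 𝓘(ℝ, E) 𝓘(ℝ, E) (Θ ∘ φ) q :=
        h4.mfderiv_eq
      rw [mfderiv_comp q h1' h3, mfderiv_comp q h2 h1] at h5
      have hinv : (mfderiv 𝓘(ℝ, E) 𝓘(ℝ, E) φ q).IsInvertible :=
        isInvertible_mfderiv_extChartAt hq.1
      have h6 : Function.Injective ((mfderiv 𝓘(ℝ, E) 𝓘(ℝ, E) Θ (φ q)).comp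
          (mfderiv 𝓘(ℝ, E) 𝓘(ℝ, E) φ q)) := by
        have h7 : Function.Injective (mfderiv 𝓘(ℝ, E) 𝓘(ℝ, E) Θ (φ q)) := by
          rw [mfderiv_eq_fderiv]
          exact hΘd (φ q)
        exact h7.comp hinv.injective
      rw [← h5] at h6
      intro v w hvw
      apply h6
      exact congrArg (mfderiv 𝓘(ℝ, E) 𝓘(ℝ, E) φ (T q)) hvw
    · have hq' : q ∉ KM := fun h => hq (hKMU h)
      have h1 : T =ᶠ[𝓝 q] id := by
        filter_upwards [hKMc.isOpen_compl.mem_nhds hq'] with x hx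
        exact hTK x hx
      rw [h1.mfderiv_eq, mfderiv_id]
      exact Function.injective_id
  · have h1 : φ.symm y1 ∈ U := hVU hy1.2
    rw [hTU _ h1, φ.right_inv hy1.1, hΘy, φ.left_inv hy.1]
  · intro z hz hzy
    by_cases hzU : z ∈ U
    · have h1 : φ z ∉ K := by
        apply hΘZ (φ z) ⟨z, ⟨hz, hzU⟩, rfl⟩
        intro h
        exact hzy (φ.injOn hzU.1 hy.1 h)
      rw [hTU z hzU, hΘK _ h1, φ.left_inv hzU.1]
    · exact hTn z hzU

/-- the derivative at a zero of a normal field is normal -/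
theorem nrm_deriv {f s : M → V4} (hf : Imm E f) (hs : Nrm E f s) {x : M} (hx : s x = 0)
    (v w : E) : @inner ℝ V4 _ ((mfderiv 𝓘(ℝ, E) 𝓘(ℝ, V4) s x : E →L[ℝ] V4) v)
      ((mfderiv 𝓘(ℝ, E) 𝓘(ℝ, V4) f x : E →L[ℝ] V4) w) = 0 := by
  set φ := extChartAt 𝓘(ℝ, E) x with hφ
  have hxs : x ∈ (chartAt E x).source := mem_chart_source E x
  have hps : x ∈ φ.source := mem_extChartAt_source x
  have hpt : φ x ∈ φ.target := φ.map_source hps
  have hto : IsOpen φ.target := isOpen_extChartAt_target (I := 𝓘(ℝ, E)) x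
  have hsm : ∀ {h : M → V4}, ContMDiff 𝓘(ℝ, E) 𝓘(ℝ, V4) ∞ h →
      ContDiffOn ℝ ∞ (h ∘ φ.symm) φ.target := by
    intro h hh
    have h1 : ContMDiffOn 𝓘(ℝ, E) 𝓘(ℝ, V4) ∞ (h ∘ φ.symm) φ.target :=
      hh.comp_contMDiffOn (contMDiffOn_extChartAt_symm x)
    exact contMDiffOn_iff_contDiffOn.1 h1
  have hg : ContDiffAt ℝ ∞ (f ∘ φ.symm) (φ x) := (hsm hf.sm).contDiffAt (hto.mem_nhds hpt)
  have hσ : ContDiffAt ℝ ∞ (s ∘ φ.symm) (φ x) := (hsm hs.sm).contDiffAt (hto.mem_nhds hpt)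
  set u : E := (mfderiv 𝓘(ℝ, E) 𝓘(ℝ, E) φ x : E →L[ℝ] E) w with hu
  -- the orthogonality in the chart
  have horth : ∀ y ∈ φ.target, ⟪(s ∘ φ.symm) y, fderiv ℝ (f ∘ φ.symm) y u⟫ = 0 := by
    intro y hy
    have h1 : φ.symm y ∈ φ.source := φ.map_target hy
    have h2 : φ.symm y ∈ (chartAt E x).source := by rwa [hφ, extChartAt_source] at h1
    have hinv : (mfderiv 𝓘(ℝ, E) 𝓘(ℝ, E) φ (φ.symm y)).IsInvertible :=
      isInvertible_mfderiv_extChartAt h1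
    obtain ⟨t, ht⟩ := hinv.surjective u
    have h3 := mfderiv_eq_chart hf.sm x (φ.symm y) h2 t
    rw [← hφ, φ.right_inv hy] at h3
    have h4 := hs.perp (φ.symm y) t
    have h5 : (mfderiv 𝓘(ℝ, E) 𝓘(ℝ, V4) f (φ.symm y) : E →L[ℝ] V4) t =
        fderiv ℝ (f ∘ φ.symm) y u := h3.trans (congrArg _ ht)
    rw [h5] at h4
    exact h4
  have hD : DifferentiableAt ℝ (fun y => fderiv ℝ (f ∘ φ.symm) y u) (φ x) := by
    have h1 : ContDiffAt ℝ ∞ (fderiv ℝ (f ∘ φ.symm)) (φ x) :=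
      hg.fderiv_right (m := ∞) (by norm_cast)
    exact (h1.differentiableAt (by simp)).clm_apply (differentiableAt_const u)
  have hS : DifferentiableAt ℝ (s ∘ φ.symm) (φ x) := hσ.differentiableAt (by simp)
  have h1 : (fun y => ⟪(s ∘ φ.symm) y, fderiv ℝ (f ∘ φ.symm) y u⟫) =ᶠ[𝓝 (φ x)]
      fun _ => (0 : ℝ) := by
    filter_upwards [hto.mem_nhds hpt] with y hy
    exact horth y hy
  set v' : E := (mfderiv 𝓘(ℝ, E) 𝓘(ℝ, E) φ x : E →L[ℝ] E) v with hv'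
  have h2 := fderiv_inner_apply (𝕜 := ℝ) hS hD v'
  rw [h1.fderiv_eq] at h2
  have h3 : (s ∘ φ.symm) (φ x) = 0 := by
    show s (φ.symm (φ x)) = 0
    rw [φ.left_inv hps, hx]
  rw [h3] at h2
  simp only [fderiv_fun_const, Pi.zero_apply, ContinuousLinearMap.zero_apply, inner_zero_left,
    zero_add] at h2
  have e1 : (mfderiv 𝓘(ℝ, E) 𝓘(ℝ, V4) s x : E →L[ℝ] V4) v = fderiv ℝ (s ∘ φ.symm) (φ x) v' :=
    mfderiv_eq_chart hs.sm x x hxs v
  have e2 : (mfderiv 𝓘(ℝ, E) 𝓘(ℝ, V4) f x : E →L[ℝ] V4) w = fderiv ℝ (f ∘ φ.symm) (φ x) u :=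
    mfderiv_eq_chart hf.sm x x hxs w
  rw [e1, e2]
  exact h2.symm

/-- derivative at a zero of `Pn S` -/
theorem mfderiv_Pn_zero (hE : finrank ℝ E = 2) {f S : M → V4} (hf : Imm E f)
    (hS : ContMDiff 𝓘(ℝ, E) 𝓘(ℝ, V4) ∞ S) {x : M} (hx : S x = 0) (v : E) :
    (mfderiv 𝓘(ℝ, E) 𝓘(ℝ, V4) (fun q => Pn E f q (S q)) x : E →L[ℝ] V4) v =
      Pn E f x ((mfderiv 𝓘(ℝ, E) 𝓘(ℝ, V4) S x : E →L[ℝ] V4) v) := by
  set φ := extChartAt 𝓘(ℝ, E) x with hφ
  have hxs : x ∈ (chartAt E x).source := mem_chart_source E x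
  have hps : x ∈ φ.source := mem_extChartAt_source x
  have hpt : φ x ∈ φ.target := φ.map_source hps
  have hto : IsOpen φ.target := isOpen_extChartAt_target (I := 𝓘(ℝ, E)) x
  have hPS : ContMDiff 𝓘(ℝ, E) 𝓘(ℝ, V4) ∞ (fun q => Pn E f q (S q)) :=
    fun y => contMDiff_Pn hE hf (hS y)
  have hP : ContMDiff 𝓘(ℝ, E) 𝓘(ℝ, V4 →L[ℝ] V4) ∞ (fun q => Pn E f q) :=
    fun y => contMDiffAt_PnL hE hf y
  have hσ : ContDiffAt ℝ ∞ (S ∘ φ.symm) (φ x) := by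
    have h1 : ContMDiffOn 𝓘(ℝ, E) 𝓘(ℝ, V4) ∞ (S ∘ φ.symm) φ.target :=
      hS.comp_contMDiffOn (contMDiffOn_extChartAt_symm x)
    exact (contMDiffOn_iff_contDiffOn.1 h1).contDiffAt (hto.mem_nhds hpt)
  have hA : ContDiffAt ℝ ∞ ((fun q => Pn E f q) ∘ φ.symm) (φ x) := by
    have h1 : ContMDiffOn 𝓘(ℝ, E) 𝓘(ℝ, V4 →L[ℝ] V4) ∞ ((fun q => Pn E f q) ∘ φ.symm) φ.target :=
      hP.comp_contMDiffOn (contMDiffOn_extChartAt_symm x)
    exact (contMDiffOn_iff_contDiffOn.1 h1).contDiffAt (hto.mem_nhds hpt)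
  set v' : E := (mfderiv 𝓘(ℝ, E) 𝓘(ℝ, E) φ x : E →L[ℝ] E) v with hv'
  have e1 : (mfderiv 𝓘(ℝ, E) 𝓘(ℝ, V4) (fun q => Pn E f q (S q)) x : E →L[ℝ] V4) v =
      fderiv ℝ ((fun q => Pn E f q (S q)) ∘ φ.symm) (φ x) v' :=
    mfderiv_eq_chart hPS x x hxs v
  have e2 : (mfderiv 𝓘(ℝ, E) 𝓘(ℝ, V4) S x : E →L[ℝ] V4) v = fderiv ℝ (S ∘ φ.symm) (φ x) v' :=
    mfderiv_eq_chart hS x x hxs v
  rw [e1, e2]
  have e3 : ((fun q => Pn E f q (S q)) ∘ φ.symm) =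
      fun y => ((fun q => Pn E f q) ∘ φ.symm) y ((S ∘ φ.symm) y) := rfl
  have h0 : (S ∘ φ.symm) (φ x) = 0 := by
    show S (φ.symm (φ x)) = 0
    rw [φ.left_inv hps, hx]
  rw [e3, fderiv_clm_apply (hA.differentiableAt (by simp)) (hσ.differentiableAt (by simp))]
  have h1 : ((fun q => Pn E f q) ∘ φ.symm) (φ x) = Pn E f x := by
    show Pn E f (φ.symm (φ x)) = Pn E f x
    rw [φ.left_inv hps]
  rw [h1, h0]
  simp only [map_zero, zero_add, ContinuousLinearMap.add_apply, ContinuousLinearMap.comp_apply,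
    ContinuousLinearMap.flip_apply, add_zero]
  rfl

variable [CompactSpace M] [T2Space M]

/-- MV1: local swap -/
theorem swap_lemma (hE : finrank ℝ E = 2) {f : M → V4} (hf : Imm E f) (p : M) :
    ∃ U : Set M, IsOpen U ∧ p ∈ U ∧ ∀ s, Nrm E f s → NDeg E s → {q | s q = 0}.Finite →
      ∀ y ∈ U, s y = 0 → ∀ V ⊆ U, IsOpen V → V.Nonempty → ∃ y' ∈ V, ∃ s', Nrm E f s' ∧
        NDeg E s' ∧ {q | s' q = 0} = insert y' ({q | s q = 0} \ {y}) := by
  have hcont : Continuous (fun q => Pn E f q) :=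
    (ContMDiff.continuous (n := ∞) (I := 𝓘(ℝ, E)) fun y => contMDiffAt_PnL hE hf y)
  have hW : {x | ‖Pn E f x - Pn E f p‖ < 1 / 2} ∈ 𝓝 p := by
    have h1 : Continuous fun x => ‖Pn E f x - Pn E f p‖ := (hcont.sub continuous_const).norm
    have h2 : IsOpen {x | ‖Pn E f x - Pn E f p‖ < 1 / 2} := isOpen_lt h1 continuous_const
    apply h2.mem_nhds
    simp
  obtain ⟨U, hUo, hpU, hUW, hpush⟩ := push_mfd hE.ge p hW
  -- `Pn q` is injective on the normal plane at `x` for `x, q ∈ U`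
  have hker : ∀ x ∈ U, ∀ q ∈ U, ∀ c, Pn E f x c = c → Pn E f q c = 0 → c = 0 := by
    intro x hx q hq c h1 h2
    have h3 : ‖Pn E f x - Pn E f q‖ < 1 := by
      have ha : ‖Pn E f x - Pn E f p‖ < 1 / 2 := hUW hx
      have hb : ‖Pn E f q - Pn E f p‖ < 1 / 2 := hUW hq
      calc ‖Pn E f x - Pn E f q‖ = ‖(Pn E f x - Pn E f p) - (Pn E f q - Pn E f p)‖ := by
            congr 1; abel
        _ ≤ ‖Pn E f x - Pn E f p‖ + ‖Pn E f q - Pn E f p‖ := norm_sub_le _ _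
        _ < 1 := by linarith
    have h4 : ‖c‖ ≤ ‖Pn E f x - Pn E f q‖ * ‖c‖ := by
      have h5 := (Pn E f x - Pn E f q).le_opNorm c
      rw [ContinuousLinearMap.sub_apply, h1, h2, sub_zero] at h5
      exact h5
    by_contra hc
    have h5 : 0 < ‖c‖ := norm_pos_iff.2 hc
    nlinarith
  refine ⟨U, hUo, hpU, ?_⟩
  intro s hs hn hfin y hy hsy V hVU hV hne
  obtain ⟨y', hy'V, Θ, hΘs, hΘi, hΘd, hΘU, hΘm, hΘy, hΘZ⟩ := hpush _ hfin y hy V hVU hV hne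
  set S : M → V4 := fun q => s (Θ q) with hSdef
  have hS : ContMDiff 𝓘(ℝ, E) 𝓘(ℝ, V4) ∞ S := hs.sm.comp hΘs
  have hPs : ∀ x, Pn E f x (s x) = s x := fun x => Pn_eq_self f x (hs.perp x)
  -- zeros
  have hz : ∀ q, Pn E f q (S q) = 0 ↔ s (Θ q) = 0 := by
    intro q
    constructor
    · intro h
      by_cases hq : q ∈ U
      · exact hker (Θ q) (hΘm hq) q hq _ (hPs _) h
      · simp only [hSdef] at h
        rw [hΘU q hq] at h ⊢
        rwa [hPs] at h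
    · intro h
      simp only [hSdef]
      rw [h, map_zero]
  refine ⟨y', hy'V, fun q => Pn E f q (S q), ⟨fun x => contMDiff_Pn hE hf (hS x),
    fun q v => Pn_perp f q _ v⟩, ?_, ?_⟩
  · intro q hq
    have hq0 : s (Θ q) = 0 := (hz q).1 hq
    have hSq : S q = 0 := hq0
    have hcomp : ∀ v : E, (mfderiv 𝓘(ℝ, E) 𝓘(ℝ, V4) S q : E →L[ℝ] V4) v =
        (mfderiv 𝓘(ℝ, E) 𝓘(ℝ, V4) s (Θ q) : E →L[ℝ] V4)
          ((mfderiv 𝓘(ℝ, E) 𝓘(ℝ, E) Θ q : E →L[ℝ] E) v) := by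
      intro v
      have h1 : mfderiv 𝓘(ℝ, E) 𝓘(ℝ, V4) (s ∘ Θ) q = (mfderiv 𝓘(ℝ, E) 𝓘(ℝ, V4) s (Θ q)).comp
          (mfderiv 𝓘(ℝ, E) 𝓘(ℝ, E) Θ q) :=
        mfderiv_comp q ((hs.sm _).mdifferentiableAt (by simp))
          ((hΘs q).mdifferentiableAt (by simp))
      exact congrArg (fun A : E →L[ℝ] V4 => A v) h1
    have hker' : ∀ c : V4, (∀ w : E, ⟪c, (mfderiv 𝓘(ℝ, E) 𝓘(ℝ, V4) f (Θ q) : E →L[ℝ] V4) w⟫ = 0) →
        Pn E f q c = 0 → c = 0 := by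
      intro c hc h
      have h1 := Pn_eq_self f (Θ q) hc
      by_cases hqU : q ∈ U
      · exact hker (Θ q) (hΘm hqU) q hqU c h1 h
      · rw [hΘU q hqU, h] at h1
        exact h1.symm
    have key : ∀ v : E, (mfderiv 𝓘(ℝ, E) 𝓘(ℝ, V4) (fun q => Pn E f q (S q)) q : E →L[ℝ] V4) v = 0
        → v = 0 := by
      intro v hv
      rw [mfderiv_Pn_zero hE hf hS hSq v, hcomp v] at hv
      have h1 := hker' _ (fun w => nrm_deriv hf hs hq0 _ w) hv
      have h2 : (mfderiv 𝓘(ℝ, E) 𝓘(ℝ, E) Θ q : E →L[ℝ] E) v = 0 := by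
        apply hn (Θ q) hq0
        refine h1.trans ?_
        exact (map_zero (mfderiv 𝓘(ℝ, E) 𝓘(ℝ, V4) s (Θ q))).symm
      apply hΘd q
      refine h2.trans ?_
      exact (map_zero (mfderiv 𝓘(ℝ, E) 𝓘(ℝ, E) Θ q)).symm
    intro a b hab
    have h1 := key (a - b) (by
      rw [map_sub]
      exact sub_eq_zero.2 hab)
    exact sub_eq_zero.1 h1
  · ext q
    rw [mem_setOf_eq, hz q]
    constructor
    · intro h
      by_cases hqy : Θ q = y
      · left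
        exact hΘi (hqy.trans hΘy.symm)
      · right
        have h1 : Θ (Θ q) = Θ q := hΘZ (Θ q) h hqy
        have h2 : Θ q = q := hΘi h1
        refine ⟨?_, ?_⟩
        · rw [mem_setOf_eq, ← h2]; exact h
        · intro h3
          apply hqy
          rw [h2]; exact h3
    · rintro (h | ⟨h, h'⟩)
      · rw [h, hΘy]; exact hsy
      · rw [hΘZ q h h']; exact h

end Vale.Agent.P205.TI
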